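import Vale.Agent.P158.Lattice

/-!
P158: the vertices next to a weight above a fixed level.
-/

namespace Vale.P158

noncomputable section

/-- The vertices with an incident weight above `M`. -/
def Bad (M : ℝ) (t : Sym2 Z2 → ℝ) : Set Z2 := {v | ∃ w, lattice.Adj v w ∧ M < t s(v, w)}

lemma le_of_notMem_bad {M : ℝ} {t : Sym2 Z2 → ℝ} {u v : Z2} (hu : u ∉ Bad M t)
    (h : lattice.Adj u v) : t s(u, v) ≤ M :=
  not_lt.1 fun hlt => hu ⟨v, h, hlt⟩

end

end Vale.P158
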