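import Vale.Agent.P158.Length
import Vale.Agent.P158.Bad

/-!
P158: star-connected sets with a positive fraction of bad points are small, at every high threshold.
-/

open MeasureTheory Filter Topology
open scoped ENNReal

namespace Vale.P158

noncomputable section

variable (μ : Measure ℝ) [IsProbabilityMeasure μ]

open scoped Classical in
/-- For every `d > 0` there is a threshold such that star-connected sets of at least `m` points
near `c`, a fraction `d` of which is bad, occur with probability exponentially small in `m`. -/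
theorem exists_animals_bad {d : ℝ} (hd : 0 < d) :
    ∃ M : ℝ, 0 ≤ M ∧ ∀ (c : Z2) (N m : ℕ),
      iidLaw (Sym2 Z2) μ {t | ∃ A : Finset Z2, StarConn (A : Set Z2) ∧ m ≤ A.card ∧
          (∃ v ∈ A, supDist c v ≤ N) ∧
          d * A.card ≤ (A.filter fun v => v ∈ Bad M t).card} ≤
        (((2 * N + 1) ^ 2 : ℕ) : ℝ≥0∞) * (2⁻¹ : ℝ≥0∞) ^ m := by
  set e := ⌈13 / d⌉₊ with he
  set q : ℝ≥0∞ := (2⁻¹ : ℝ≥0∞) ^ (e + 2) with hq
  have h21 : (2⁻¹ : ℝ≥0∞) ≤ 1 := ENNReal.inv_le_one.2 (by norm_num)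
  have hlim : Tendsto (fun n : ℕ => μ (Set.Ioi (n : ℝ))) atTop (𝓝 0) := by
    have hi : (⋂ n : ℕ, Set.Ioi (n : ℝ)) = ∅ :=
      Set.eq_empty_iff_forall_notMem.2 fun x hx => by
        obtain ⟨n, hn⟩ := exists_nat_ge x
        exact absurd (Set.mem_iInter.1 hx n) (not_lt.2 hn)
    have h := tendsto_measure_iInter_atTop (μ := μ) (s := fun n : ℕ => Set.Ioi (n : ℝ))
      (fun n => measurableSet_Ioi.nullMeasurableSet)
      (fun m n hmn => Set.Ioi_subset_Ioi (Nat.cast_le.2 hmn)) ⟨0, measure_ne_top _ _⟩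
    rwa [hi, measure_empty] at h
  obtain ⟨L, hL⟩ := (hlim.eventually (eventually_le_nhds
    (pos_iff_ne_zero.2 (pow_ne_zero _ (pow_ne_zero _ (by simp))) : (0 : ℝ≥0∞) < q ^ 2))).exists
  refine ⟨L, Nat.cast_nonneg L, fun c N m => ?_⟩
  rcases Nat.eq_zero_or_pos m with rfl | hm
  · refine prob_le_one.trans ?_
    rw [pow_zero, mul_one]
    exact_mod_cast Nat.one_le_pow _ _ (by omega)
  -- one starting point and one size
  have hone : ∀ (v : Z2) (k : ℕ),
      iidLaw (Sym2 Z2) μ (⋃ A ∈ (animals k {v}).filter (fun A => A.card = k),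
          ⋃ S ∈ A.powerset.filter (fun S => d * k ≤ (S.card : ℝ)),
            {t | (S : Set Z2) ⊆ badSet L t}) ≤ 2 * (8⁻¹ : ℝ≥0∞) ^ k := by
    intro v k
    calc _ ≤ ∑ A ∈ (animals k {v}).filter (fun A => A.card = k),
          (2 : ℝ≥0∞) ^ k * (2⁻¹ : ℝ≥0∞) ^ (13 * k) := by
          refine (measure_biUnion_finset_le _ _).trans (Finset.sum_le_sum fun A hA => ?_)
          refine (measure_biUnion_finset_le _ _).trans ((Finset.sum_le_sum
            (g := fun _ => (2⁻¹ : ℝ≥0∞) ^ (13 * k)) fun S hS => ?_).trans ?_)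
          · refine (measure_all_bad_le μ hL (pow_le_one₀ (zero_le) h21) S).trans ?_
            have h4 : 4 * q = (2⁻¹ : ℝ≥0∞) ^ e := by
              rw [hq, pow_add, mul_left_comm]
              nth_rw 2 [← mul_one ((2⁻¹ : ℝ≥0∞) ^ e)]
              congr 1
              rw [show (4 : ℝ≥0∞) = 2 ^ 2 by norm_num, ← mul_pow,
                ENNReal.mul_inv_cancel (by simp) (by simp), one_pow]
            rw [h4, ← pow_mul]
            refine pow_le_pow_right_of_le_one' h21 ?_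
            have hs : d * k ≤ (S.card : ℝ) := (Finset.mem_filter.1 hS).2
            have he' : 13 ≤ (e : ℝ) * d := (div_le_iff₀ hd).1 (Nat.le_ceil (13 / d))
            have h1 := mul_le_mul_of_nonneg_left hs (Nat.cast_nonneg (α := ℝ) e)
            have h2 := mul_le_mul_of_nonneg_right he' (Nat.cast_nonneg (α := ℝ) k)
            have : ((13 * k : ℕ) : ℝ) ≤ ((e * S.card : ℕ) : ℝ) := by push_cast; linarith
            exact_mod_cast this
          · rw [Finset.sum_const, nsmul_eq_mul]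
            refine mul_le_mul_left ?_ _
            refine (Nat.cast_le.2 (Finset.card_filter_le _ _)).trans ?_
            rw [Finset.card_powerset, (Finset.mem_filter.1 hA).2]
            simp
      _ ≤ (2 : ℝ≥0∞) * 2 ^ (9 * k) * ((2 : ℝ≥0∞) ^ k * (2⁻¹ : ℝ≥0∞) ^ (13 * k)) := by
          rw [Finset.sum_const, nsmul_eq_mul]
          refine mul_le_mul_left (le_trans (Nat.cast_le.2
            ((Finset.card_filter_le _ _).trans (card_animals_le k {v}))) (le_of_eq ?_)) _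
          simp
      _ = 2 * (8⁻¹ : ℝ≥0∞) ^ k := by
          rw [mul_assoc, pow_mul, pow_mul, ← mul_pow, ← mul_pow]
          congr 2
          rw [show (8 : ℝ≥0∞)⁻¹ = (2⁻¹ : ℝ≥0∞) ^ 3 by rw [← ENNReal.inv_pow]; norm_num,
            show (2⁻¹ : ℝ≥0∞) ^ 13 = (2⁻¹ : ℝ≥0∞) ^ 9 * (2⁻¹ * (2⁻¹ : ℝ≥0∞) ^ 3) by ring,
            show ∀ a b x y z : ℝ≥0∞, a * (b * (x * (y * z))) = (a * x) * ((b * y) * z) from
              fun a b x y z => by ring,
            ← mul_pow, ENNReal.mul_inv_cancel (by simp) (by simp), one_pow, one_mul, one_mul]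
  have hpoint : ∀ v : Z2, iidLaw (Sym2 Z2) μ
      (⋃ j : ℕ, ⋃ A ∈ (animals (m + j) {v}).filter (fun A => A.card = m + j),
        ⋃ S ∈ A.powerset.filter (fun S => d * (m + j : ℕ) ≤ (S.card : ℝ)),
          {t | (S : Set Z2) ⊆ badSet L t}) ≤ (2⁻¹ : ℝ≥0∞) ^ m := by
    intro v
    refine ((measure_iUnion_le _).trans (ENNReal.tsum_le_tsum fun j => hone v (m + j))).trans ?_
    simp only [pow_add, ← mul_assoc]
    rw [ENNReal.tsum_mul_left]
    have hgeom : ∑' j : ℕ, (8⁻¹ : ℝ≥0∞) ^ j ≤ 2 := by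
      rw [ENNReal.tsum_geometric, ← inv_inv (2 : ℝ≥0∞), ENNReal.inv_le_inv, ← ENNReal.one_sub_inv_two]
      exact tsub_le_tsub_left (ENNReal.inv_le_inv.2 (by norm_num)) 1
    refine (mul_le_mul_right hgeom _).trans ?_
    rw [show (8 : ℝ≥0∞) = 2 * 4 by norm_num, ENNReal.mul_inv (by simp) (by simp), mul_pow,
      show 2 * ((2⁻¹ : ℝ≥0∞) ^ m * (4⁻¹ : ℝ≥0∞) ^ m) * 2 =
        (2⁻¹ : ℝ≥0∞) ^ m * (4 * (4⁻¹ : ℝ≥0∞) ^ m) by ring]
    refine (mul_le_mul_right ?_ _).trans (mul_one _).le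
    obtain ⟨j, rfl⟩ := Nat.exists_eq_add_of_le hm
    rw [pow_add, pow_one, ← mul_assoc, ENNReal.mul_inv_cancel (by simp) (by simp), one_mul]
    exact pow_le_one₀ zero_le (ENNReal.inv_le_one.2 (by norm_num))
  calc _ ≤ iidLaw (Sym2 Z2) μ (⋃ v ∈ sqBall c N,
        ⋃ j : ℕ, ⋃ A ∈ (animals (m + j) {v}).filter (fun A => A.card = m + j),
          ⋃ S ∈ A.powerset.filter (fun S => d * (m + j : ℕ) ≤ (S.card : ℝ)),
            {t | (S : Set Z2) ⊆ badSet L t}) := by
        refine measure_mono fun t ⟨A, hA, hm', ⟨v, hvA, hv⟩, hfrac⟩ => ?_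
        refine Set.mem_iUnion₂.2 ⟨v, mem_sqBall.2 hv, Set.mem_iUnion.2 ⟨A.card - m, ?_⟩⟩
        have hc : m + (A.card - m) = A.card := Nat.add_sub_cancel' hm'
        refine Set.mem_iUnion₂.2 ⟨A, Finset.mem_filter.2 ⟨?_, hc.symm⟩, ?_⟩
        · rw [hc]
          exact mem_animals _ _ _ rfl fun s hs => ⟨v, Finset.mem_singleton_self v, hA s hs v hvA⟩
        · refine Set.mem_iUnion₂.2 ⟨A.filter fun v => v ∈ Bad L t,
            Finset.mem_filter.2 ⟨Finset.mem_powerset.2 (Finset.filter_subset _ _), ?_⟩, fun x hx => ?_⟩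
          · rw [hc]; exact hfrac
          · obtain ⟨w, hw, hlt⟩ := (Finset.mem_filter.1 (Finset.mem_coe.1 hx)).2
            exact ⟨w, mem_nbrs hw, hlt⟩
    _ ≤ ∑ _v ∈ sqBall c N, (2⁻¹ : ℝ≥0∞) ^ m :=
        (measure_biUnion_finset_le _ _).trans (Finset.sum_le_sum fun v _ => hpoint v)
    _ = _ := by
        rw [Finset.sum_const, nsmul_eq_mul, card_sqBall, sq]

end

end Vale.P158
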