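import Mathlib

/-!
P158: first-passage percolation basics on a graph: weights of walks, geodesics, resampling of
finitely many weights, almost sure uniqueness and existence of finite geodesics.
-/

open MeasureTheory ProbabilityTheory Filter Topology
open scoped ENNReal

set_option linter.unusedSectionVars false

namespace Vale.P158

noncomputable section

variable {V : Type*} {G : SimpleGraph V}

/-- The weight of a walk. -/
def wlen (t : Sym2 V → ℝ) {x y : V} (p : G.Walk x y) : ℝ := (p.edges.map t).sum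

@[simp] lemma wlen_nil (t : Sym2 V → ℝ) (x : V) :
    wlen t (SimpleGraph.Walk.nil : G.Walk x x) = 0 := by simp [wlen]

lemma wlen_cons (t : Sym2 V → ℝ) {x y z : V} (h : G.Adj x y) (p : G.Walk y z) :
    wlen t (p.cons h) = t s(x, y) + wlen t p := by simp [wlen]

lemma wlen_append (t : Sym2 V → ℝ) {x y z : V} (p : G.Walk x y) (q : G.Walk y z) :
    wlen t (p.append q) = wlen t p + wlen t q := by simp [wlen]

lemma wlen_reverse (t : Sym2 V → ℝ) {x y : V} (p : G.Walk x y) :
    wlen t p.reverse = wlen t p := by simp [wlen, List.sum_reverse]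

lemma wlen_path [DecidableEq V] (t : Sym2 V → ℝ) {x y : V} {p : G.Walk x y} (hp : p.IsPath) :
    wlen t p = ∑ e ∈ p.edges.toFinset, t e :=
  (List.sum_toFinset t hp.isTrail.edges_nodup).symm

lemma wlen_bypass_le [DecidableEq V] {t : Sym2 V → ℝ} (ht : ∀ e, 0 ≤ t e) {x y : V}
    (p : G.Walk x y) : wlen t p.bypass ≤ wlen t p := by
  rw [wlen_path t p.bypass_isPath]
  calc ∑ e ∈ p.bypass.edges.toFinset, t e ≤ ∑ e ∈ p.edges.toFinset, t e :=
        Finset.sum_le_sum_of_subset_of_nonneg (fun e he => by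
          simp only [List.mem_toFinset] at he ⊢
          exact p.edges_bypass_subset_edges he) fun e _ _ => ht e
    _ ≤ wlen t p := by
        unfold wlen
        rw [Finset.sum_list_map_count]
        refine Finset.sum_le_sum fun e he => ?_
        rw [nsmul_eq_mul]
        exact le_mul_of_one_le_left (ht e)
          (Nat.one_le_cast.2 (List.count_pos_iff.2 (List.mem_toFinset.1 he)))

/-- A path from `x` to `y` is a geodesic when no path between the same ends is lighter. -/
def IsGeo (t : Sym2 V → ℝ) {x y : V} (p : G.Walk x y) : Prop :=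
  p.IsPath ∧ ∀ q : G.Walk x y, q.IsPath → wlen t p ≤ wlen t q

lemma IsGeo.le_walk [DecidableEq V] {t : Sym2 V → ℝ} (ht : ∀ e, 0 ≤ t e) {x y : V}
    {p : G.Walk x y} (hp : IsGeo t p) (q : G.Walk x y) : wlen t p ≤ wlen t q :=
  (hp.2 _ q.bypass_isPath).trans (wlen_bypass_le ht q)

/-! ### Independent weights -/

section meas

variable {ι : Type*} (μ : Measure ℝ) [IsProbabilityMeasure μ]

/-- The law of independent weights with common law `μ`. -/
def iidLaw (ι : Type*) (μ : Measure ℝ) : Measure (ι → ℝ) := Measure.infinitePi fun _ => μ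

instance : IsProbabilityMeasure (iidLaw ι μ) :=
  inferInstanceAs (IsProbabilityMeasure (Measure.infinitePi _))

open scoped Classical in
/-- Replacing the weights in `F` by fresh ones. -/
def resample (F : Set ι) (p : (ι → ℝ) × (ι → ℝ)) : ι → ℝ := fun i => if i ∈ F then p.2 i else p.1 i

lemma measurable_resample (F : Set ι) : Measurable (resample F) := by
  classical
  refine measurable_pi_lambda _ fun i => ?_
  unfold resample
  split_ifs <;> fun_prop

/-- Resampling preserves the law. -/
theorem measurePreserving_resample (F : Set ι) :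
    MeasurePreserving (resample F) ((iidLaw ι μ).prod (iidLaw ι μ)) (iidLaw ι μ) := by
  classical
  refine ⟨measurable_resample F, ?_⟩
  refine Measure.eq_infinitePi _ fun s t ht => ?_
  rw [Measure.map_apply (measurable_resample F) (.pi s.countable_toSet fun i _ => ht i)]
  have h : resample F ⁻¹' (s : Set ι).pi t =
      ((s.filter fun i => i ∉ F : Finset ι) : Set ι).pi t ×ˢ
        ((s.filter fun i => i ∈ F : Finset ι) : Set ι).pi t := by
    ext p
    simp only [resample, Set.mem_preimage, Set.mem_pi, Finset.coe_filter, Set.mem_prod,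
      Set.mem_ofPred_eq, Finset.mem_coe]
    constructor
    · exact fun h => ⟨fun i hi => by simpa [hi.2] using h i hi.1,
        fun i hi => by simpa [hi.2] using h i hi.1⟩
    · intro h i hi
      by_cases hF : i ∈ F
      · simpa [hF] using h.2 i ⟨hi, hF⟩
      · simpa [hF] using h.1 i ⟨hi, hF⟩
  rw [h, Measure.prod_prod, iidLaw, Measure.infinitePi_pi _ fun i _ => ht i,
    Measure.infinitePi_pi _ fun i _ => ht i, mul_comm]
  exact Finset.prod_filter_mul_prod_filter_not s (· ∈ F) _

/-- Finite energy: if changing the weights in `F` to values in a set of positive probability turns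
a likely event into `A'`, then `A'` is likely. -/
theorem finite_energy (F : Set ι) {A A' B : Set (ι → ℝ)} (hA' : MeasurableSet A')
    (h : ∀ ω ∈ A, ∀ ξ ∈ B, resample F (ω, ξ) ∈ A') :
    iidLaw ι μ A * iidLaw ι μ B ≤ iidLaw ι μ A' := by
  rw [← Measure.prod_prod, ← (measurePreserving_resample μ F).measure_preimage
    hA'.nullMeasurableSet]
  exact measure_mono fun p hp => h p.1 hp.1 p.2 hp.2

theorem finite_energy_pos (F : Set ι) {A A' B : Set (ι → ℝ)} (hA' : MeasurableSet A')
    (hA : iidLaw ι μ A ≠ 0) (hB : iidLaw ι μ B ≠ 0)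
    (h : ∀ ω ∈ A, ∀ ξ ∈ B, resample F (ω, ξ) ∈ A') : iidLaw ι μ A' ≠ 0 := fun h0 =>
  mul_ne_zero hA hB (le_antisymm ((finite_energy μ F hA' h).trans h0.le) zero_le)

/-- A weight almost surely avoids any value computed from the others. -/
theorem measure_eval_eq_of_indep [NullSingletonClass μ] (e : ι) {f : (ι → ℝ) → ℝ} (hf : Measurable f)
    (hinv : ∀ ω ξ, f (resample {e} (ω, ξ)) = f ω) :
    iidLaw ι μ {ω | ω e = f ω} = 0 := by
  have hm : MeasurableSet {ω : ι → ℝ | ω e = f ω} :=
    measurableSet_eq_fun (measurable_pi_apply e) hf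
  rw [← (measurePreserving_resample μ {e}).measure_preimage hm.nullMeasurableSet,
    Measure.prod_apply ((measurable_resample _) hm)]
  refine lintegral_eq_zero_of_ae_eq_zero (Eventually.of_forall fun ω => ?_)
  have h : Prod.mk ω ⁻¹' (resample {e} ⁻¹' {ω | ω e = f ω}) =
      (fun ξ : ι → ℝ => ξ e) ⁻¹' {f ω} := by
    ext ξ
    simp only [Set.mem_preimage, Set.mem_ofPred_eq, Set.mem_singleton_iff, hinv]
    simp [resample]
  simp only [Pi.zero_apply, h]
  rw [← Measure.map_apply (measurable_pi_apply e) (measurableSet_singleton _), iidLaw,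
    Measure.infinitePi_map_eval]
  exact measure_singleton _

/-- Two different finite sets of weights almost surely have different totals. -/
theorem ae_sum_ne [NullSingletonClass μ] [Countable ι] :
    ∀ᵐ ω ∂iidLaw ι μ, ∀ E E' : Finset ι, ∑ i ∈ E, ω i = ∑ i ∈ E', ω i → E = E' := by
  classical
  simp only [eventually_countable_forall]
  intro E E'
  by_cases hne : E = E'
  · exact Eventually.of_forall fun _ _ => hne
  -- some index lies in exactly one of the two sets
  obtain ⟨A, B, e, hA, hB, hAB⟩ : ∃ (A B : Finset ι) (e : ι), e ∈ A ∧ e ∉ B ∧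
      ((A = E ∧ B = E') ∨ (A = E' ∧ B = E)) := by
    by_cases h : E ⊆ E'
    · obtain ⟨e, he, he'⟩ := Finset.exists_of_ssubset (Finset.ssubset_iff_subset_ne.2 ⟨h, hne⟩)
      exact ⟨E', E, e, he, he', .inr ⟨rfl, rfl⟩⟩
    · obtain ⟨e, he, he'⟩ := Finset.not_subset.1 h
      exact ⟨E, E', e, he, he', .inl ⟨rfl, rfl⟩⟩
  have key := measure_eval_eq_of_indep μ e
    (f := fun ω => ∑ i ∈ B, ω i - ∑ i ∈ A.erase e, ω i)
    ((Finset.measurable_sum _ fun i _ => measurable_pi_apply i).sub
      (Finset.measurable_sum _ fun i _ => measurable_pi_apply i)) fun ω ξ => by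
      congr 1 <;> refine Finset.sum_congr rfl fun i hi => ?_
      · have : i ≠ e := fun h => hB (h ▸ hi)
        simp [resample, this]
      · simp [resample, (Finset.mem_erase.1 hi).1]
  filter_upwards [measure_eq_zero_iff_ae_notMem.1 key] with ω hω heq
  refine absurd ?_ hω
  have hab : ∑ i ∈ A, ω i = ∑ i ∈ B, ω i := by
    rcases hAB with ⟨rfl, rfl⟩ | ⟨rfl, rfl⟩
    exacts [heq, heq.symm]
  have := Finset.add_sum_erase A (fun i => ω i) hA
  linarith

/-- Atomless weights vanish at no index. -/
theorem ae_pos [NullSingletonClass μ] [Countable ι] (hμ : ∀ᵐ s ∂μ, 0 ≤ s) :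
    ∀ᵐ ω ∂iidLaw ι μ, ∀ i, 0 < ω i := by
  rw [eventually_countable_forall]
  intro i
  have h : ∀ᵐ s ∂μ, 0 < s := by
    filter_upwards [hμ, measure_eq_zero_iff_ae_notMem.1 (measure_singleton (μ := μ) 0)] with s h h0
    exact h.lt_of_ne' h0
  rw [← Measure.infinitePi_map_eval (fun _ : ι => μ) i] at h
  exact ae_of_ae_map (measurable_pi_apply i).aemeasurable h

/-- Few sets of weights are nearly all small. -/
theorem measure_sum_lt_le (hμ : ∀ᵐ s ∂μ, 0 ≤ s) [Countable ι] {ε : ℝ} (hε : 0 < ε) {q : ℝ≥0∞}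
    (hq : μ (Set.Iio ε) ≤ q ^ 2) (hq1 : q ≤ 1) {n : ℕ} {E : Finset ι} (hE : E.card = n) :
    iidLaw ι μ {ω | ∑ i ∈ E, ω i < ε / 2 * n} ≤ 2 ^ n * q ^ n := by
  classical
  have hnn : ∀ᵐ ω ∂iidLaw ι μ, ∀ i : ι, 0 ≤ ω i := by
    rw [eventually_countable_forall]
    intro i
    have := hμ
    rw [← Measure.infinitePi_map_eval (fun _ : ι => μ) i] at this
    exact ae_of_ae_map (measurable_pi_apply i).aemeasurable this
  set S := E.powerset.filter fun T => n ≤ 2 * T.card
  calc iidLaw ι μ {ω | ∑ i ∈ E, ω i < ε / 2 * n}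
      ≤ iidLaw ι μ (⋃ T ∈ S, (T : Set ι).pi fun _ => Set.Iio ε) := by
        refine measure_mono_ae ?_
        filter_upwards [hnn] with ω hω hsum
        refine Set.mem_iUnion₂.2 ⟨E.filter fun i => ω i < ε, ?_, fun i hi => ?_⟩
        · refine Finset.mem_filter.2 ⟨Finset.mem_powerset.2 (Finset.filter_subset _ _), ?_⟩
          by_contra! hc
          have hsplit := Finset.card_filter_add_card_filter_not (s := E) fun i => ω i < ε
          have hbig : ε * ((E.filter fun i => ¬ω i < ε).card : ℝ) ≤ ∑ i ∈ E, ω i := by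
            refine le_trans (b := ∑ i ∈ E.filter (fun i => ¬ω i < ε), ω i) ?_
              (Finset.sum_le_sum_of_subset_of_nonneg
              (Finset.filter_subset _ _) fun i _ _ => hω i)
            rw [mul_comm, ← nsmul_eq_mul, ← Finset.sum_const]
            exact Finset.sum_le_sum fun i hi => not_lt.1 (Finset.mem_filter.1 hi).2
          have hcn : (n : ℝ) ≤ 2 * ((E.filter fun i => ¬ω i < ε).card : ℝ) := by
            exact_mod_cast (by omega : n ≤ 2 * (E.filter fun i => ¬ω i < ε).card)
          have := mul_le_mul_of_nonneg_left hcn hε.le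
          have hsum' : ∑ i ∈ E, ω i < ε / 2 * n := hsum
          linarith
        · exact (Finset.mem_filter.1 (Finset.mem_coe.1 hi)).2
    _ ≤ ∑ T ∈ S, iidLaw ι μ ((T : Set ι).pi fun _ => Set.Iio ε) := measure_biUnion_finset_le _ _
    _ ≤ ∑ _T ∈ S, q ^ n := Finset.sum_le_sum fun T hT => by
        rw [iidLaw, Measure.infinitePi_pi _ fun _ _ => measurableSet_Iio, Finset.prod_const]
        refine (pow_le_pow_left' hq _).trans ?_
        rw [← pow_mul]
        exact pow_le_pow_right_of_le_one' hq1 (Finset.mem_filter.1 hT).2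
    _ ≤ 2 ^ n * q ^ n := by
        rw [Finset.sum_const, nsmul_eq_mul]
        refine mul_le_mul_left (le_trans (Nat.cast_le.2 (Finset.card_filter_le _ _)) ?_) _
        rw [Finset.card_powerset, hE]
        simp

end meas

/-! ### Geodesics in a graph of bounded degree -/

section graph

variable [DecidableEq V] [Countable V] {D : ℕ} (nb : V → Finset V)
  (hnb : ∀ x y, G.Adj x y → y ∈ nb x) (hD : ∀ x, (nb x).card ≤ D)

/-- Edge sets of walks of length `n` from `x`. -/
def edgeSets : ℕ → V → Finset (Finset (Sym2 V))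
  | 0, _ => {∅}
  | n + 1, x => (nb x).biUnion fun z => (edgeSets n z).image (insert s(x, z))

include hD in
lemma card_edgeSets_le (n : ℕ) : ∀ x, (edgeSets nb n x).card ≤ D ^ n := by
  induction n with
  | zero => simp [edgeSets]
  | succ n ih =>
    intro x
    calc (edgeSets nb (n + 1) x).card
        ≤ ∑ z ∈ nb x, ((edgeSets nb n z).image (insert s(x, z))).card := Finset.card_biUnion_le
      _ ≤ ∑ _z ∈ nb x, D ^ n :=
          Finset.sum_le_sum fun z _ => Finset.card_image_le.trans (ih z)
      _ ≤ D ^ (n + 1) := by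
          rw [Finset.sum_const, smul_eq_mul, pow_succ']
          exact Nat.mul_le_mul_right _ (hD x)

include hnb in
lemma edges_mem_edgeSets {x y : V} (p : G.Walk x y) :
    p.edges.toFinset ∈ edgeSets nb p.length x := by
  induction p with
  | nil => simp [edgeSets]
  | @cons x z y h p ih =>
    simp only [SimpleGraph.Walk.length_cons, edgeSets, Finset.mem_biUnion, Finset.mem_image]
    exact ⟨z, hnb x z h, _, ih, by simp⟩

variable (μ : Measure ℝ) [IsProbabilityMeasure μ] [NullSingletonClass μ] (hμ : ∀ᵐ s ∂μ, 0 ≤ s)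

include hnb hD hμ in
/-- Long paths are heavy. -/
theorem ae_paths_heavy : ∃ c : ℝ, 0 < c ∧ ∀ᵐ t ∂iidLaw (Sym2 V) μ, ∀ x : V, ∃ N : ℕ,
    ∀ (y : V) (p : G.Walk x y), p.IsPath → N ≤ p.length → c * p.length ≤ wlen t p := by
  -- a threshold below which the weights are rare
  set q : ℝ≥0∞ := (4 * (D + 1 : ℕ) : ℝ≥0∞)⁻¹ with hq
  have h4 : (4 * (D + 1 : ℕ) : ℝ≥0∞) ≠ 0 := by simp
  have h4t : (4 * (D + 1 : ℕ) : ℝ≥0∞) ≠ ∞ := by finiteness
  have hq0 : 0 < q ^ 2 := pos_iff_ne_zero.2 (pow_ne_zero _ (by simpa [hq] using h4t))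
  have hq1 : q ≤ 1 := by
    rw [hq, ENNReal.inv_le_one]
    calc (1 : ℝ≥0∞) ≤ 4 * 1 := by norm_num
      _ ≤ 4 * (D + 1 : ℕ) := mul_le_mul_right (by exact_mod_cast Nat.le_add_left 1 D) _
  obtain ⟨ε, hε, hμε⟩ : ∃ ε : ℝ, 0 < ε ∧ μ (Set.Iio ε) ≤ q ^ 2 := by
    have hlim : Tendsto (fun n : ℕ => μ (Set.Iio (1 / ((n : ℝ) + 1)))) atTop (𝓝 (μ (Set.Iic 0))) := by
      have hi : (⋂ n : ℕ, Set.Iio (1 / ((n : ℝ) + 1))) = Set.Iic 0 := by
        ext s
        simp only [Set.mem_iInter, Set.mem_Iio, Set.mem_Iic]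
        refine ⟨fun h => ?_, fun h n => h.trans_lt (by positivity)⟩
        by_contra! hs
        obtain ⟨n, hn⟩ := exists_nat_one_div_lt hs
        exact absurd (h n) (not_lt.2 hn.le)
      rw [← hi]
      refine tendsto_measure_iInter_atTop (fun n => measurableSet_Iio.nullMeasurableSet)
        (fun m n hmn => Set.Iio_subset_Iio ?_) ⟨0, measure_ne_top _ _⟩
      exact one_div_le_one_div_of_le (by positivity) (by simpa using hmn)
    have h0 : μ (Set.Iic 0) = 0 := by
      rw [← measure_congr Iio_ae_eq_Iic]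
      refine measure_eq_zero_iff_ae_notMem.2 ?_
      filter_upwards [hμ] with s hs
      simp [hs]
    rw [h0] at hlim
    obtain ⟨n, hn⟩ := (hlim.eventually (eventually_le_nhds hq0)).exists
    exact ⟨_, by positivity, hn⟩
  refine ⟨ε / 2, by positivity, ?_⟩
  rw [eventually_countable_forall]
  intro x
  set A : ℕ → Set (Sym2 V → ℝ) := fun n =>
    ⋃ E ∈ (edgeSets nb n x).filter (fun E => E.card = n), {t | ∑ e ∈ E, t e < ε / 2 * n}
  have hA : ∀ n, iidLaw (Sym2 V) μ (A n) ≤ (2⁻¹ : ℝ≥0∞) ^ n := by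
    intro n
    refine (measure_biUnion_finset_le _ _).trans ((Finset.sum_le_sum fun E hE =>
      measure_sum_lt_le μ hμ hε hμε hq1 (Finset.mem_filter.1 hE).2).trans ?_)
    rw [Finset.sum_const, nsmul_eq_mul]
    calc (((edgeSets nb n x).filter fun E => E.card = n).card : ℝ≥0∞) * (2 ^ n * q ^ n)
        ≤ ((D + 1 : ℕ) : ℝ≥0∞) ^ n * (2 ^ n * q ^ n) := by
          refine mul_le_mul_left ?_ _
          exact_mod_cast (Finset.card_filter_le _ _).trans
            ((card_edgeSets_le nb hD n x).trans (Nat.pow_le_pow_left (Nat.le_succ D) n))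
      _ = (((D + 1 : ℕ) : ℝ≥0∞) * (2 * q)) ^ n := by rw [mul_pow, mul_pow]
      _ ≤ (2⁻¹ : ℝ≥0∞) ^ n := by
          refine pow_le_pow_left' ?_ _
          rw [hq, ENNReal.mul_inv (by simp) (by simp)]
          rw [show ((D + 1 : ℕ) : ℝ≥0∞) * (2 * ((4 : ℝ≥0∞)⁻¹ * ((D + 1 : ℕ) : ℝ≥0∞)⁻¹)) =
            2 * (4 : ℝ≥0∞)⁻¹ * (((D + 1 : ℕ) : ℝ≥0∞) * ((D + 1 : ℕ) : ℝ≥0∞)⁻¹) by ring,
            ENNReal.mul_inv_cancel (by simp) (by simp), mul_one]
          rw [show (4 : ℝ≥0∞) = 2 * 2 by norm_num, ENNReal.mul_inv (by simp) (by simp), ← mul_assoc,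
            ENNReal.mul_inv_cancel (by simp) (by simp), one_mul]
  have hsum : ∑' n, iidLaw (Sym2 V) μ (A n) ≠ ∞ :=
    ne_top_of_le_ne_top (by rw [ENNReal.tsum_geometric]; simp) (ENNReal.tsum_le_tsum hA)
  filter_upwards [ae_eventually_notMem hsum] with t ht
  obtain ⟨N, hN⟩ := eventually_atTop.1 ht
  refine ⟨N, fun y p hp hlen => ?_⟩
  by_contra! hlt
  refine hN p.length hlen (Set.mem_iUnion₂.2 ⟨p.edges.toFinset, Finset.mem_filter.2
    ⟨edges_mem_edgeSets nb hnb p, ?_⟩, ?_⟩)
  · rw [List.toFinset_card_of_nodup hp.isTrail.edges_nodup, SimpleGraph.Walk.length_edges]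
  · rw [wlen_path t hp] at hlt
    exact hlt

omit [Countable V] in
include hnb in
/-- Bounded-length walks between two vertices are finitely many. -/
lemma finite_walks_length_le (x y : V) (N : ℕ) : {p : G.Walk x y | p.length ≤ N}.Finite := by
  induction N generalizing x with
  | zero =>
    refine Set.Subsingleton.finite fun p hp q hq => ?_
    simp only [Set.mem_ofPred_eq, Nat.le_zero] at hp hq
    cases p with
    | nil => cases q with
      | nil => rfl
      | cons => simp at hq
    | cons => simp at hp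
  | succ N ih =>
    classical
    have h : {p : G.Walk x y | p.length ≤ N + 1} ⊆
        {p | p.length ≤ 0} ∪ ⋃ z ∈ nb x, ⋃ hz : G.Adj x z,
          (fun q : G.Walk z y => q.cons hz) '' {q | q.length ≤ N} := by
      intro p hp
      cases p with
      | nil => exact Or.inl (by simp)
      | @cons _ z _ hz q =>
        refine Or.inr (Set.mem_iUnion₂.2 ⟨z, hnb x z hz, Set.mem_iUnion.2 ⟨hz, q, ?_, rfl⟩⟩)
        simpa using hp
    refine Set.Finite.subset (Set.Finite.union ?_ ((nb x).finite_toSet.biUnion fun z _ =>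
      Set.finite_iUnion fun hz => (ih z).image _)) h
    refine Set.Subsingleton.finite fun p hp q hq => ?_
    simp only [Set.mem_ofPred_eq, Nat.le_zero] at hp hq
    cases p with
    | nil => cases q with
      | nil => rfl
      | cons => simp at hq
    | cons => simp at hp

include hnb hD hμ in
/-- Geodesics exist almost surely, for every atomless law. -/
theorem ae_exists_geo : ∀ᵐ t ∂iidLaw (Sym2 V) μ, ∀ x y : V, G.Reachable x y →
    ∃ p : G.Walk x y, IsGeo t p := by
  obtain ⟨c, hc, h⟩ := ae_paths_heavy (G := G) nb hnb hD μ hμ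
  filter_upwards [h] with t ht x y hxy
  obtain ⟨N, hN⟩ := ht x
  obtain ⟨p₀⟩ := hxy
  set W := wlen t p₀.bypass
  set M := max N ⌈W / c⌉₊
  have hfin : {p : G.Walk x y | p.IsPath ∧ wlen t p ≤ W}.Finite := by
    refine (finite_walks_length_le (G := G) nb hnb x y M).subset fun p hp => ?_
    simp only [Set.mem_ofPred_eq]
    rcases le_total p.length N with h | h
    · exact h.trans (le_max_left _ _)
    · refine le_trans ?_ (le_max_right _ _)
      have h1 : (p.length : ℝ) ≤ W / c := by
        rw [le_div_iff₀ hc, mul_comm]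
        exact (hN y p hp.1 h).trans hp.2
      exact_mod_cast h1.trans (Nat.le_ceil _)
  obtain ⟨p, hp, hmin⟩ := hfin.exists_minimalFor (wlen t) _ ⟨p₀.bypass, p₀.bypass_isPath, le_rfl⟩
  refine ⟨p, hp.1, fun q hq => ?_⟩
  by_contra! hlt
  exact absurd (hmin ⟨hq, hlt.le.trans hp.2⟩ hlt.le) (not_le.2 hlt)

omit [Countable V] in
/-- A path is determined by its set of edges. -/
lemma path_eq_of_edges {x y : V} {p q : G.Walk x y} (hp : p.IsPath) (hq : q.IsPath)
    (h : p.edges.toFinset = q.edges.toFinset) : p = q := by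
  induction p with
  | nil => exact ((SimpleGraph.Walk.isPath_iff_nil).1 hq).eq_nil.symm
  | @cons x z y hz p ih =>
    cases q with
    | nil => simp at h
    | @cons _ z' _ hz' q =>
      rw [SimpleGraph.Walk.cons_isPath_iff] at hp hq
      have hmem : ∀ {a : V} (r : G.Walk a y), x ∉ r.support → ∀ w, s(x, w) ∉ r.edges :=
        fun r hr w hw => hr (r.fst_mem_support_of_mem_edges hw)
      have hzz : z = z' := by
        have : s(x, z) ∈ (q.cons hz').edges.toFinset := h ▸ by simp
        simp only [SimpleGraph.Walk.edges_cons, List.mem_toFinset, List.mem_cons] at this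
        rcases this with h1 | h1
        · exact Sym2.congr_right.1 h1
        · exact absurd h1 (hmem q hq.2 z)
      subst hzz
      congr 1
      refine ih hp.1 hq.1 ?_
      have e := congrArg (fun S : Finset (Sym2 V) => S.erase s(x, z)) h
      simp only [SimpleGraph.Walk.edges_cons, List.toFinset_cons] at e
      rwa [Finset.erase_insert (by simpa using hmem p hp.2 z),
        Finset.erase_insert (by simpa using hmem q hq.2 z)] at e

omit [DecidableEq V] in
/-- Paths with the same ends and equal weight almost surely coincide. -/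
theorem ae_path_unique : ∀ᵐ t ∂iidLaw (Sym2 V) μ, ∀ (x y : V) (p q : G.Walk x y),
    p.IsPath → q.IsPath → wlen t p = wlen t q → p = q := by
  classical
  filter_upwards [ae_sum_ne (ι := Sym2 V) μ] with t ht x y p q hp hq h
  rw [wlen_path t hp, wlen_path t hq] at h
  exact path_eq_of_edges hp hq (ht _ _ h)

omit [DecidableEq V] in
/-- Geodesics are almost surely unique. -/
theorem ae_geo_unique : ∀ᵐ t ∂iidLaw (Sym2 V) μ, ∀ (x y : V) (p q : G.Walk x y),
    IsGeo t p → IsGeo t q → p = q := by
  filter_upwards [ae_path_unique (G := G) μ] with t ht x y p q hp hq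
  exact ht x y p q hp.1 hq.1 (le_antisymm (hp.2 q hq.1) (hq.2 p hp.1))

end graph

end

end Vale.P158
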