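import Vale.Agent.P158.Monge

/-!
# P158, step 1: the perimeter of a rectangle as a loop
-/

namespace Vale.P158

open Finset
open Vale.Agent.P158.Crossing (Rect)

noncomputable section

/-- Half of the perimeter, as a natural number. -/
def perim (B : Rect) : ℕ := (2 * ((B.x1 - B.x0) + (B.y1 - B.y0))).toNat

lemma perim_cast (B : Rect) : (perim B : ℤ) = 2 * ((B.x1 - B.x0) + (B.y1 - B.y0)) := by
  have := B.hx
  have := B.hy
  unfold perim
  omega

lemma perim_pos (B : Rect) : 0 < perim B := by
  have := B.hx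
  have := B.hy
  unfold perim
  omega

/-- The boundary point at position `p`. -/
def atPos (B : Rect) (p : ℤ) : Z2 :=
  if p < B.x1 - B.x0 then (B.x0 + p, B.y0)
  else if p < (B.x1 - B.x0) + (B.y1 - B.y0) then (B.x1, B.y0 + (p - (B.x1 - B.x0)))
  else if p < 2 * (B.x1 - B.x0) + (B.y1 - B.y0) then
    (B.x1 - (p - (B.x1 - B.x0) - (B.y1 - B.y0)), B.y1)
  else (B.x0, B.y1 - (p - 2 * (B.x1 - B.x0) - (B.y1 - B.y0)))

lemma atPos_spec (B : Rect) {p : ℤ} (h0 : 0 ≤ p)
    (h1 : p < 2 * ((B.x1 - B.x0) + (B.y1 - B.y0))) :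
    B.Bdry (atPos B p) ∧ B.pos (atPos B p) = p := by
  have := B.hx
  have := B.hy
  simp only [atPos, Rect.Bdry, Rect.Mem, Rect.pos]
  split_ifs <;> dsimp only at * <;> omega

/-- The boundary of a rectangle, listed counterclockwise. -/
def boundaryLoop (B : Rect) : Loop B where
  n := perim B
  x i := atPos B ((i % perim B : ℕ) : ℤ)
  period i := by simp
  bdry i := by
    have := Nat.mod_lt i (perim_pos B)
    exact (atPos_spec B (by omega) (by have := perim_cast B; omega)).1
  mono i j hij hj := by
    rw [Nat.mod_eq_of_lt hj, Nat.mod_eq_of_lt (hij.trans hj)]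
    have := perim_cast B
    rw [(atPos_spec B (by omega) (by omega)).2, (atPos_spec B (by omega) (by omega)).2]
    omega

lemma boundaryLoop_n (B : Rect) : (boundaryLoop B).n = perim B := rfl

/-- Consecutive points of the boundary are neighbours. -/
lemma boundaryLoop_adj (B : Rect) (i : ℕ) :
    lattice.Adj ((boundaryLoop B).x i) ((boundaryLoop B).x (i + 1)) := by
  have := B.hx
  have := B.hy
  have hn := perim_pos B
  have hc := perim_cast B
  have hi := Nat.mod_lt i hn
  have hnext : ((i + 1) % perim B = i % perim B + 1 ∧ i % perim B + 1 < perim B) ∨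
      ((i + 1) % perim B = 0 ∧ i % perim B + 1 = perim B) := by
    rcases Nat.lt_or_ge (i % perim B + 1) (perim B) with h | h
    · left
      refine ⟨?_, h⟩
      rw [Nat.add_mod, Nat.mod_eq_of_lt (show 1 < perim B by omega), Nat.mod_eq_of_lt h]
    · right
      refine ⟨?_, by omega⟩
      rw [Nat.add_mod, Nat.mod_eq_of_lt (show 1 < perim B by omega),
        show i % perim B + 1 = perim B by omega, Nat.mod_self]
  show |_ - _| + |_ - _| = (1 : ℤ)
  simp only [boundaryLoop, atPos]
  rcases hnext with ⟨h, h'⟩ | ⟨h, h'⟩ <;> rw [h] <;> split_ifs <;> dsimp only <;>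
    simp only [abs_eq_max_neg] <;> omega

/-- Every boundary point occurs in the loop. -/
lemma exists_boundaryLoop (B : Rect) {v : Z2} (h : B.Bdry v) :
    ∃ i < perim B, (boundaryLoop B).x i = v := by
  have := B.hx
  have := B.hy
  have hc := perim_cast B
  obtain ⟨⟨h1, h2, h3, h4⟩, h5⟩ := h
  have hp : 0 ≤ B.pos v ∧ B.pos v < 2 * ((B.x1 - B.x0) + (B.y1 - B.y0)) := by
    simp only [Rect.pos]
    split_ifs <;> omega
  refine ⟨(B.pos v).toNat, by omega, ?_⟩
  show atPos B _ = v
  rw [Nat.mod_eq_of_lt (by omega), Int.toNat_of_nonneg hp.1]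
  obtain ⟨a, b⟩ := v
  simp only [atPos, Rect.pos] at h1 h2 h3 h4 h5 hp ⊢
  split_ifs <;> simp only [Prod.mk.injEq] <;> omega

/-- A rectangle is connected inside itself. -/
lemma joinedIn_box (B : Rect) {u v : Z2} (hu : B.Mem u) (hv : B.Mem v) :
    JoinedIn {w | B.Mem w} u v := by
  obtain ⟨k, hk⟩ : ∃ k : ℕ, |u.1 - v.1| + |u.2 - v.2| = k :=
    ⟨_, (Int.toNat_of_nonneg (by positivity)).symm⟩
  induction k using Nat.strong_induction_on generalizing u with
  | h k ih =>
    obtain ⟨a, b⟩ := u
    obtain ⟨c, d⟩ := v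
    by_cases he : (a, b) = (c, d)
    · rw [he]; exact JoinedIn.refl hv
    · -- one step towards `v`
      obtain ⟨w, hw, hadj, hlt⟩ : ∃ w : Z2, B.Mem w ∧ lattice.Adj (a, b) w ∧
          |w.1 - c| + |w.2 - d| < (k : ℤ) := by
        simp only [Rect.Mem] at hu hv ⊢
        simp only [Prod.mk.injEq] at he
        simp only at hk
        rcases lt_trichotomy a c with h | h | h
        · exact ⟨(a + 1, b), by dsimp only; omega,
            show |_ - _| + |_ - _| = (1 : ℤ) by simp, by
              dsimp only; simp only [abs_eq_max_neg] at hk ⊢; omega⟩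
        · rcases lt_trichotomy b d with h' | h' | h'
          · exact ⟨(a, b + 1), by dsimp only; omega,
              show |_ - _| + |_ - _| = (1 : ℤ) by simp, by
                dsimp only; simp only [abs_eq_max_neg] at hk ⊢; omega⟩
          · exact absurd ⟨h, h'⟩ he
          · exact ⟨(a, b - 1), by dsimp only; omega,
              show |_ - _| + |_ - _| = (1 : ℤ) by simp, by
                dsimp only; simp only [abs_eq_max_neg] at hk ⊢; omega⟩
        · exact ⟨(a - 1, b), by dsimp only; omega,
            show |_ - _| + |_ - _| = (1 : ℤ) by simp, by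
              dsimp only; simp only [abs_eq_max_neg] at hk ⊢; omega⟩
      obtain ⟨k', hk'⟩ : ∃ k' : ℕ, |w.1 - c| + |w.2 - d| = k' :=
        ⟨_, (Int.toNat_of_nonneg (by positivity)).symm⟩
      obtain ⟨p, hp⟩ := ih k' (by omega) hw hk'
      exact ⟨p.cons hadj, by
        simp only [SimpleGraph.Walk.support_cons, List.mem_cons]
        rintro x (rfl | hx)
        exacts [hu, hp x hx]⟩

/-- The weight of the boundary edges. -/
def boundaryCost (t : Sym2 Z2 → ℝ) (B : Rect) : ℝ :=
  ∑ i ∈ Ico 0 (perim B), t s((boundaryLoop B).x i, (boundaryLoop B).x (i + 1))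

/-- The total of all cells of the box metric is at most the boundary cost. -/
theorem boundary_total_le {t : Sym2 Z2 → ℝ} (ht : ∀ e, 0 ≤ t e) (B : Rect) :
    ∑ i ∈ Ico 0 (boundaryLoop B).n, (boundaryLoop B).pass t {w | B.Mem w} i (i + 1) ≤
      boundaryCost t B :=
  sum_le_sum fun i _ => passU_le_edge ht (boundaryLoop_adj B i) ((boundaryLoop B).bdry i).1
    ((boundaryLoop B).bdry (i + 1)).1

end

end Vale.P158
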