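import Vale.Agent.P158.Monge

/-!
# P158: geodesics inside a set of vertices

A geodesic inside `U` is a path in `U` minimal among the paths in `U`. In a finite `U` they exist,
their subwalks are again geodesics, and, when distinct paths have distinct weights, two geodesics
with two common vertices share the segment between them.
-/

namespace Vale.P158

noncomputable section

open SimpleGraph

variable {t : Sym2 Z2 → ℝ} {U : Set Z2}

/-- Paths with the same ends have different weights (true almost surely, `ae_path_unique`). -/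
def PathUnique (t : Sym2 Z2 → ℝ) : Prop :=
  ∀ (x y : Z2) (p q : lattice.Walk x y), p.IsPath → q.IsPath → wlen t p = wlen t q → p = q

open MeasureTheory in
lemma ae_pathUnique (μ : Measure ℝ) [IsProbabilityMeasure μ] [NullSingletonClass μ] :
    ∀ᵐ t ∂iidLaw (Sym2 Z2) μ, PathUnique t :=
  ae_path_unique (G := lattice) μ

/-- A geodesic inside `U`. -/
def IsGeoU (t : Sym2 Z2 → ℝ) (U : Set Z2) {x y : Z2} (p : lattice.Walk x y) : Prop :=
  p.IsPath ∧ (∀ v ∈ p.support, v ∈ U) ∧
    ∀ q : lattice.Walk x y, q.IsPath → (∀ v ∈ q.support, v ∈ U) → wlen t p ≤ wlen t q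

lemma isGeoU_univ {x y : Z2} {p : lattice.Walk x y} : IsGeoU t Set.univ p ↔ IsGeo t p := by
  simp [IsGeoU, IsGeo]

namespace IsGeoU

variable {x y : Z2} {p : lattice.Walk x y}

lemma isPath (h : IsGeoU t U p) : p.IsPath := h.1

lemma mem (h : IsGeoU t U p) {v : Z2} (hv : v ∈ p.support) : v ∈ U := h.2.1 v hv

lemma joined (h : IsGeoU t U p) : JoinedIn U x y := ⟨p, h.2.1⟩

lemma le_walk (ht : ∀ e, 0 ≤ t e) (h : IsGeoU t U p) (q : lattice.Walk x y)
    (hq : ∀ v ∈ q.support, v ∈ U) : wlen t p ≤ wlen t q :=
  (h.2.2 _ q.bypass_isPath fun v hv => hq v (q.support_bypass_subset_support hv)).trans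
    (wlen_bypass_le ht q)

lemma wlen_eq_passU (ht : ∀ e, 0 ≤ t e) (h : IsGeoU t U p) : wlen t p = passU t U x y :=
  le_antisymm (le_passU h.joined fun q hq => h.le_walk ht q hq) (passU_le ht p h.2.1)

lemma reverse (h : IsGeoU t U p) : IsGeoU t U p.reverse := by
  refine ⟨h.1.reverse, by simpa using h.2.1, fun q hq hqU => ?_⟩
  rw [wlen_reverse, ← wlen_reverse t q]
  exact h.2.2 _ hq.reverse (by simpa using hqU)

/-- A geodesic of a larger set that stays in `U` is a geodesic in `U`. -/
lemma of_subset {W : Set Z2} (hUW : U ⊆ W) (h : IsGeoU t W p) (hp : ∀ v ∈ p.support, v ∈ U) :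
    IsGeoU t U p :=
  ⟨h.1, hp, fun q hq hqU => h.2.2 q hq fun v hv => hUW (hqU v hv)⟩

lemma left (ht : ∀ e, 0 ≤ t e) (h : IsGeoU t U p) {v : Z2} (hv : v ∈ p.support) :
    IsGeoU t U (p.takeUntil v hv) := by
  have hs : ∀ u ∈ (p.takeUntil v hv).support, u ∈ U := fun u hu =>
    h.mem (p.support_takeUntil_subset_support hv hu)
  refine ⟨h.1.takeUntil hv, hs, fun q _ hqU => ?_⟩
  have := h.le_walk ht (q.append (p.dropUntil v hv)) fun u hu => by
    rcases (Walk.mem_support_append_iff _ _).1 hu with hu | hu
    exacts [hqU u hu, h.mem (p.support_dropUntil_subset_support hv hu)]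
  conv_lhs at this => rw [← p.take_spec hv, wlen_append]
  rw [wlen_append] at this
  linarith

lemma right (ht : ∀ e, 0 ≤ t e) (h : IsGeoU t U p) {v : Z2} (hv : v ∈ p.support) :
    IsGeoU t U (p.dropUntil v hv) := by
  have hs : ∀ u ∈ (p.dropUntil v hv).support, u ∈ U := fun u hu =>
    h.mem (p.support_dropUntil_subset_support hv hu)
  refine ⟨h.1.dropUntil hv, hs, fun q _ hqU => ?_⟩
  have := h.le_walk ht ((p.takeUntil v hv).append q) fun u hu => by
    rcases (Walk.mem_support_append_iff _ _).1 hu with hu | hu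
    exacts [h.mem (p.support_takeUntil_subset_support hv hu), hqU u hu]
  conv_lhs at this => rw [← p.take_spec hv, wlen_append]
  rw [wlen_append] at this
  linarith

lemma unique (hu : PathUnique t) (h : IsGeoU t U p) {q : lattice.Walk x y}
    (hq : IsGeoU t U q) : p = q :=
  hu x y p q h.1 hq.1 (le_antisymm (h.2.2 q hq.1 hq.2.1) (hq.2.2 p h.1 h.2.1))

/-- Two geodesics in `U` through `v` and `w` share the segment between `v` and `w`. -/
theorem segment_subset (ht : ∀ e, 0 ≤ t e) (hu : PathUnique t) (h : IsGeoU t U p) {a b : Z2}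
    {q : lattice.Walk a b} (hq : IsGeoU t U q) {v w : Z2} (hv : v ∈ p.support)
    (hw : w ∈ (p.dropUntil v hv).support) (hvq : v ∈ q.support) (hwq : w ∈ q.support) :
    (∀ u ∈ ((p.dropUntil v hv).takeUntil w hw).support, u ∈ q.support) ∧
      ∀ e ∈ ((p.dropUntil v hv).takeUntil w hw).edges, e ∈ q.edges := by
  have hseg := (h.right ht hv).left ht hw
  have hsplit : w ∈ (q.takeUntil v hvq).support ∨ w ∈ (q.dropUntil v hvq).support :=
    (Walk.mem_support_append_iff _ _).1 (by rw [q.take_spec hvq]; exact hwq)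
  rcases hsplit with h' | h'
  · rw [hseg.unique hu ((hq.left ht hvq).right ht h').reverse]
    constructor <;> intro u hu'
    · rw [Walk.support_reverse, List.mem_reverse] at hu'
      exact q.support_takeUntil_subset_support hvq
        ((q.takeUntil v hvq).support_dropUntil_subset_support h' hu')
    · rw [Walk.edges_reverse, List.mem_reverse] at hu'
      exact q.edges_takeUntil_subset_edges hvq
        ((q.takeUntil v hvq).edges_dropUntil_subset_edges h' hu')
  · rw [hseg.unique hu ((hq.right ht hvq).left ht h')]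
    constructor <;> intro u hu'
    · exact q.support_dropUntil_subset_support hvq
        ((q.dropUntil v hvq).support_takeUntil_subset_support h' hu')
    · exact q.edges_dropUntil_subset_edges hvq
        ((q.dropUntil v hvq).edges_takeUntil_subset_edges h' hu')

end IsGeoU

/-- In a finite set, joined vertices are joined by a geodesic. -/
theorem exists_geoU (hU : U.Finite) {x y : Z2} (h : JoinedIn U x y) :
    ∃ p : lattice.Walk x y, IsGeoU t U p := by
  obtain ⟨p₀, hp₀⟩ := h
  have hfin : {p : lattice.Walk x y | p.IsPath ∧ ∀ v ∈ p.support, v ∈ U}.Finite := by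
    refine (finite_walks_length_le (G := lattice) nbrs (fun _ _ h => mem_nbrs h) x y
      hU.toFinset.card).subset fun p hp => ?_
    have h1 : p.support.toFinset ⊆ hU.toFinset := fun v hv =>
      hU.mem_toFinset.2 (hp.2 v (List.mem_toFinset.1 hv))
    have h2 := Finset.card_le_card h1
    rw [List.toFinset_card_of_nodup hp.1.support_nodup, Walk.length_support] at h2
    simp only [Set.mem_ofPred_eq]
    omega
  obtain ⟨p, hp, hmin⟩ := Set.exists_min_image _ (wlen t) hfin
    ⟨p₀.bypass, p₀.bypass_isPath, fun v hv => hp₀ v (p₀.support_bypass_subset_support hv)⟩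
  exact ⟨p, hp.1, hp.2, fun q hq hqU => hmin q ⟨hq, hqU⟩⟩

/-- Almost surely every joined pair of a finite set has exactly one geodesic inside it. -/
theorem ae_geoU (μ : MeasureTheory.Measure ℝ) [MeasureTheory.IsProbabilityMeasure μ]
    [MeasureTheory.NullSingletonClass μ] :
    ∀ᵐ t ∂iidLaw (Sym2 Z2) μ, ∀ (U : Set Z2) (x y : Z2), U.Finite → JoinedIn U x y →
      ∃! p : lattice.Walk x y, IsGeoU t U p := by
  filter_upwards [ae_pathUnique μ] with t hu U x y hU h
  obtain ⟨p, hp⟩ := exists_geoU (t := t) hU h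
  exact ⟨p, hp, fun q hq => hq.unique hu hp⟩

end

end Vale.P158
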