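import Vale.Agent.P158.Components
import Vale.Agent.P158.GeoU
import Vale.Agent.P158.Boundary

/-!
# P158: the budget without a circuit

The mixed differences on an off-diagonal block of boundary cells sum to four corner values, so
heavy weights at other boundary points do not enter. Pairs inside one block do not visit the middle
when a cheap walk joins the ends of the block: both halves of such a geodesic would meet that walk.
-/

namespace Vale.P158

open Finset
open Vale.Agent.P158.Crossing (Rect)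

noncomputable section

/-! ### Blocks of cells -/

/-- The mixed differences on a block of cells telescope to its corners. -/
theorem block_telescope (f : ℕ → ℕ → ℝ) {a b c d : ℕ} (hab : a ≤ b) (hcd : c ≤ d) :
    ∑ x ∈ Ico a b ×ˢ Ico c d, mixed f x = f a c + f b d - f a d - f b c := by
  rw [sum_product, sum_comm]
  have h1 : ∀ j, ∑ i ∈ Ico a b, mixed f (i, j) =
      (f b (j + 1) - f a (j + 1)) - (f b j - f a j) := fun j => by
    have := sum_Ico_sub (fun i => f i (j + 1) - f i j) hab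
    rw [show (f b (j + 1) - f a (j + 1)) - (f b j - f a j) =
      (f b (j + 1) - f b j) - (f a (j + 1) - f a j) by ring, ← this]
    exact sum_congr rfl fun i _ => by simp only [mixed]; ring
  rw [sum_congr rfl fun j _ => h1 j, sum_Ico_sub (fun j => f b j - f a j) hcd]
  ring

/-- The cells whose two coordinates lie in different blocks `[g k, g (k + 1))`. -/
def offDiag (g : ℕ → ℕ) (K : ℕ) : Finset (ℕ × ℕ) :=
  ((range K ×ˢ range K).filter fun q => q.1 < q.2).biUnion fun q =>
    Ico (g q.1) (g (q.1 + 1)) ×ˢ Ico (g q.2) (g (q.2 + 1))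

variable {g : ℕ → ℕ} {K : ℕ}

lemma exists_block (h0 : g 0 = 0) {i : ℕ} (hi : i < g K) :
    ∃ k < K, g k ≤ i ∧ i < g (k + 1) := by
  induction K with
  | zero => omega
  | succ K ih =>
    rcases lt_or_ge i (g K) with h | h
    · obtain ⟨k, hk, h1, h2⟩ := ih h
      exact ⟨k, hk.trans K.lt_succ_self, h1, h2⟩
    · exact ⟨K, K.lt_succ_self, h, hi⟩

lemma offDiag_subset (hg : Monotone g) : offDiag g K ⊆ cells 0 (g K) := by
  intro c hc
  obtain ⟨⟨k, l⟩, hq, hc⟩ := mem_biUnion.1 hc
  simp only [mem_filter, mem_product, mem_range] at hq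
  simp only [mem_product, mem_Ico] at hc
  simp only [cells, mem_filter, mem_product, mem_Ico]
  have := hg (show k + 1 ≤ l by omega)
  have := hg (show l + 1 ≤ K by omega)
  have := hg (show k + 1 ≤ K by omega)
  omega

/-- A cell which is not off-diagonal has its four corners in one closed block. -/
lemma diag_corners (hg : Monotone g) (h0 : g 0 = 0) {c : ℕ × ℕ} (hc : c ∈ cells 0 (g K))
    (hW : c ∉ offDiag g K) :
    ∃ k < K, g k ≤ c.1 ∧ c.1 < c.2 ∧ c.2 + 1 ≤ g (k + 1) := by
  simp only [cells, mem_filter, mem_product, mem_Ico] at hc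
  obtain ⟨k, hk, hk1, hk2⟩ := exists_block h0 hc.1.1.2
  obtain ⟨l, hl, hl1, hl2⟩ := exists_block h0 hc.1.2.2
  rcases lt_trichotomy k l with h | rfl | h
  · exact absurd (mem_biUnion.2 ⟨(k, l), by simp [hk, hl, h], by simp [hk1, hk2, hl1, hl2]⟩) hW
  · exact ⟨k, hk, hk1, hc.2, hl2⟩
  · have := hg (show l + 1 ≤ k by omega)
    omega

/-- The mass of the off-diagonal cells costs only pairs of block ends. -/
theorem sum_offDiag_le (hg : Monotone g) {T : ℕ → ℕ → ℝ} (hT : ∀ i j, 0 ≤ T i j) :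
    ∑ c ∈ offDiag g K, mixed T c ≤ ∑ q ∈ (range K ×ˢ range K).filter (fun q => q.1 < q.2),
      (T (g q.1) (g q.2) + T (g (q.1 + 1)) (g (q.2 + 1))) := by
  have key : ∀ k k' i, g k ≤ i → i < g (k + 1) → g k' ≤ i → i < g (k' + 1) → k = k' := by
    intro k k' i h1 h2 h3 h4
    rcases lt_trichotomy k k' with h | h | h
    · have := hg (show k + 1 ≤ k' by omega); omega
    · exact h
    · have := hg (show k' + 1 ≤ k by omega); omega
  rw [offDiag, sum_biUnion]
  · refine sum_le_sum fun q _ => ?_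
    rw [block_telescope T (hg (by omega)) (hg (by omega))]
    linarith [hT (g q.1) (g (q.2 + 1)), hT (g (q.1 + 1)) (g q.2)]
  · intro q _ q' _ hne
    show Disjoint _ _
    rw [disjoint_left]
    rintro ⟨i, j⟩ h h'
    simp only [mem_product, mem_Ico] at h h'
    exact hne (Prod.ext (key _ _ i h.1.1 h.1.2 h'.1.1 h'.1.2) (key _ _ j h.2.1 h.2.2 h'.2.1 h'.2.2))

open scoped Classical in
/-- The budget of all components when pairs inside one closed block have no margin. -/
theorem blocks_budget {C Z : Type*} (s : Finset Z) (ctr : Z → C) (T : ℕ → ℕ → ℝ)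
    (h : C → ℕ → ℕ → ℝ) (S : Z → Set (ℕ × ℕ)) (a b : Z → ℕ) (hg : Monotone g) (h0 : g 0 = 0)
    {m : ℕ} (hT : ∀ i, T i i = 0) (hTnn : ∀ i j, 0 ≤ T i j) (hh : ∀ k i j, 0 ≤ h k i j)
    (hdiag : ∀ k i, h k i i = 0) (hMT : ∀ c ∈ cells 0 (g K), 0 ≤ mixed T c)
    (hMA : ∀ z ∈ s, ∀ c ∈ cells 0 (g K), 0 ≤ mixed (fun i j => T i j + h (ctr z) i j) c)
    (hS : ∀ z ∈ s, ClosedIn (h (ctr z)) (S z))
    (hdisj : ∀ z ∈ s, ∀ z' ∈ s, ctr z = ctr z' → z ≠ z' → ∀ p ∈ S z, p ∈ S z' →
      h (ctr z) p.1 p.2 = 0)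
    (hab : ∀ z ∈ s, a z ≤ b z ∧ b z ≤ g K) (hmem : ∀ z ∈ s, (a z, b z) ∈ S z)
    (hblock : ∀ z ∈ s, ∀ k < K, ∀ i j, g k ≤ i → i ≤ g (k + 1) → g k ≤ j → j ≤ g (k + 1) →
      h (ctr z) i j = 0)
    (hm : ∀ c ∈ offDiag g K, ((s.image ctr).filter fun k =>
      h k c.1 c.2 ≠ 0 ∨ h k (c.1 + 1) (c.2 + 1) ≠ 0 ∨ h k c.1 (c.2 + 1) ≠ 0 ∨
        h k (c.1 + 1) c.2 ≠ 0).card ≤ m) :
    ∑ z ∈ s, h (ctr z) (a z) (b z) ≤ (4 * m : ℕ) *
      ∑ q ∈ (range K ×ˢ range K).filter (fun q => q.1 < q.2),
        (T (g q.1) (g q.2) + T (g (q.1 + 1)) (g (q.2 + 1))) := by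
  have main := components_budget s ctr T h S (offDiag g K) a b hT (offDiag_subset hg) hh hdiag
    hMT hMA hS hdisj hab hmem (fun z hz c hc hW => ?_) hm
  · have hstep : ∑ k ∈ s.image ctr, ∑ i ∈ Ico 0 (g K), h k i (i + 1) = 0 := by
      refine sum_eq_zero fun k hk => sum_eq_zero fun i hi => ?_
      obtain ⟨z, hz, rfl⟩ := mem_image.1 hk
      obtain ⟨k', hk', h1, h2⟩ := exists_block h0 (mem_Ico.1 hi).2
      exact hblock z hz k' hk' i (i + 1) h1 h2.le (h1.trans (by omega)) h2
    rw [hstep, add_zero] at main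
    exact main.trans (mul_le_mul_of_nonneg_left (sum_offDiag_le hg hTnn) (Nat.cast_nonneg _))
  · obtain ⟨k, hk, h1, h2, h3⟩ := diag_corners hg h0 hc hW
    exact ⟨hblock z hz k hk _ _ h1 (by omega) (by omega) (by omega),
      hblock z hz k hk _ _ (by omega) (by omega) (by omega) (by omega),
      hblock z hz k hk _ _ h1 (by omega) (by omega) (by omega),
      hblock z hz k hk _ _ (by omega) (by omega) (by omega) (by omega)⟩

/-- The cells of a loop read from another starting point. -/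
lemma mixed_shift (f : ℕ → ℕ → ℝ) (o : ℕ) (c : ℕ × ℕ) :
    mixed (fun i j => f (o + i) (o + j)) c = mixed f (o + c.1, o + c.2) := by
  simp only [mixed, add_assoc]

/-! ### Visits -/

variable {t : Sym2 Z2 → ℝ} {U : Set Z2}

/-- Walks in a rectangle joining boundary points in cyclic order alternate and so meet. -/
theorem meet_cyc (B : Rect) {a b c d : Z2} (ha : B.Bdry a) (hb : B.Bdry b) (hc : B.Bdry c)
    (hd : B.Bdry d) (h : CycOrd (B.pos a) (B.pos b) (B.pos c) (B.pos d))
    (p : lattice.Walk a c) (hp : ∀ v ∈ p.support, B.Mem v)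
    (q : lattice.Walk b d) (hq : ∀ v ∈ q.support, B.Mem v) :
    ∃ w, w ∈ p.support ∧ w ∈ q.support := by
  have key : ∀ {a b c d : Z2}, B.Bdry a → B.Bdry b → B.Bdry c → B.Bdry d →
      B.pos a < B.pos b → B.pos b < B.pos c → B.pos c < B.pos d →
      ∀ (p : lattice.Walk a c), (∀ v ∈ p.support, B.Mem v) →
      ∀ (q : lattice.Walk b d), (∀ v ∈ q.support, B.Mem v) →
      ∃ w, w ∈ p.support ∧ w ∈ q.support := by
    intro a b c d ha hb hc hd h1 h2 h3 p hp q hq
    obtain ⟨i, hi, j, hj, hij⟩ := Vale.Agent.P158.Crossing.walks_meet B p.getVert q.getVert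
      p.length q.length (fun i _ => hp _ (p.getVert_mem_support i))
      (fun j _ => hq _ (q.getVert_mem_support j))
      (fun i hi => p.adj_getVert_succ hi) (fun j hj => q.adj_getVert_succ hj)
      (by simpa using ha) (by simpa using hc) (by simpa using hb) (by simpa using hd)
      (by simpa using h1) (by simpa using h2) (by simpa using h3)
    exact ⟨_, p.getVert_mem_support i, hij ▸ q.getVert_mem_support j⟩
  have hp' : ∀ v ∈ p.reverse.support, B.Mem v := by simpa using hp
  have hq' : ∀ v ∈ q.reverse.support, B.Mem v := by simpa using hq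
  rcases h with ⟨h1, h2, h3⟩ | ⟨h1, h2, h3⟩ | ⟨h1, h2, h3⟩ | ⟨h1, h2, h3⟩
  · exact key ha hb hc hd h1 h2 h3 p hp q hq
  · obtain ⟨w, w1, w2⟩ := key hb hc hd ha h1 h2 h3 q hq p.reverse hp'
    exact ⟨w, by simpa using w2, w1⟩
  · obtain ⟨w, w1, w2⟩ := key hc hd ha hb h1 h2 h3 p.reverse hp' q.reverse hq'
    exact ⟨w, by simpa using w1, by simpa using w2⟩
  · obtain ⟨w, w1, w2⟩ := key hd ha hb hc h1 h2 h3 q.reverse hq' p hp
    exact ⟨w, w2, by simpa using w1⟩

/-- A walk from inside an arc to a point joined to outside the arc meets every walk over the arc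
which the joining walk avoids. -/
theorem meet_arc (B : Rect) {u x v d m : Z2} (G : lattice.Walk u v)
    (hG : ∀ w ∈ G.support, B.Mem w) (hu : B.Bdry u) (hx : B.Bdry x) (hv : B.Bdry v)
    (hd : B.Bdry d) (hxuv : x = u ∨ x = v ∨ CycOrd (B.pos u) (B.pos x) (B.pos v) (B.pos d))
    (p : lattice.Walk x m) (hp : ∀ w ∈ p.support, B.Mem w)
    (r : lattice.Walk m d) (hr : ∀ w ∈ r.support, B.Mem w) (hrG : ∀ w ∈ r.support, w ∉ G.support) :
    ∃ w, w ∈ p.support ∧ w ∈ G.support := by
  rcases hxuv with rfl | rfl | h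
  · exact ⟨x, p.start_mem_support, G.start_mem_support⟩
  · exact ⟨x, p.start_mem_support, G.end_mem_support⟩
  obtain ⟨w, w1, w2⟩ := meet_cyc B hu hx hv hd h G hG (p.append r) fun w hw =>
    ((SimpleGraph.Walk.mem_support_append_iff p r).1 hw).elim (hp w) (hr w)
  rcases (SimpleGraph.Walk.mem_support_append_iff p r).1 w2 with h' | h'
  exacts [⟨w, h', w1⟩, absurd w1 (hrG w h')]

/-- Passage times add along a geodesic. -/
lemma IsGeoU.split (ht : ∀ e, 0 ≤ t e) {x y : Z2} {p : lattice.Walk x y} (h : IsGeoU t U p)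
    {v : Z2} (hv : v ∈ p.support) : passU t U x y = passU t U x v + passU t U v y := by
  rw [← h.wlen_eq_passU ht, ← (h.left ht hv).wlen_eq_passU ht,
    ← (h.right ht hv).wlen_eq_passU ht, ← wlen_append, p.take_spec hv]

/-- Two points of a walk are no further apart than its weight. -/
lemma passU_le_walk (ht : ∀ e, 0 ≤ t e) {a b : Z2} (q : lattice.Walk a b)
    (hq : ∀ w ∈ q.support, w ∈ U) {x y : Z2} (hx : x ∈ q.support) (hy : y ∈ q.support) :
    passU t U x y ≤ wlen t q := by
  have hsplit : ∀ {a b : Z2} (q : lattice.Walk a b) {z : Z2} (hz : z ∈ q.support),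
      wlen t (q.takeUntil z hz) ≤ wlen t q ∧ wlen t (q.dropUntil z hz) ≤ wlen t q := by
    intro a b q z hz
    have := congrArg (wlen t) (q.take_spec hz)
    rw [wlen_append] at this
    have := wlen_nonneg ht (q.takeUntil z hz)
    have := wlen_nonneg ht (q.dropUntil z hz)
    constructor <;> linarith
  have hin1 : ∀ w ∈ (q.takeUntil x hx).support, w ∈ U := fun w hw =>
    hq w (q.support_takeUntil_subset_support hx hw)
  have hin2 : ∀ w ∈ (q.dropUntil x hx).support, w ∈ U := fun w hw =>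
    hq w (q.support_dropUntil_subset_support hx hw)
  rcases (SimpleGraph.Walk.mem_support_append_iff _ _).1 (by rw [q.take_spec hx]; exact hy) with
    h | h
  · rw [passU_comm ht]
    refine (passU_le ht ((q.takeUntil x hx).dropUntil y h) fun w hw =>
      hin1 w ((q.takeUntil x hx).support_dropUntil_subset_support h hw)).trans ?_
    exact (hsplit _ h).2.trans (hsplit q hx).1
  · refine (passU_le ht ((q.dropUntil x hx).takeUntil y h) fun w hw =>
      hin2 w ((q.dropUntil x hx).support_takeUntil_subset_support h hw)).trans ?_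
    exact (hsplit _ h).1.trans (hsplit q hx).2

/-- A geodesic between two points of an arc which visits `m` has a short trip from a walk over
the arc to `m` and back. -/
theorem visit_bound (ht : ∀ e, 0 ≤ t e) (B : Rect) {u v d x y m : Z2} (G : lattice.Walk u v)
    (hG : ∀ w ∈ G.support, B.Mem w) (hu : B.Bdry u) (hv : B.Bdry v) (hd : B.Bdry d)
    (hx : B.Bdry x) (hy : B.Bdry y)
    (hxarc : x = u ∨ x = v ∨ CycOrd (B.pos u) (B.pos x) (B.pos v) (B.pos d))
    (hyarc : y = u ∨ y = v ∨ CycOrd (B.pos u) (B.pos y) (B.pos v) (B.pos d))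
    (r : lattice.Walk m d) (hr : ∀ w ∈ r.support, B.Mem w) (hrG : ∀ w ∈ r.support, w ∉ G.support)
    {p : lattice.Walk x y} (hp : IsGeoU t {w | B.Mem w} p) (hm : m ∈ p.support) :
    ∃ w₁ w₂, w₁ ∈ G.support ∧ w₂ ∈ G.support ∧
      passU t {w | B.Mem w} w₁ m + passU t {w | B.Mem w} m w₂ ≤ wlen t G := by
  have h1 := hp.left ht hm
  have h2 := hp.right ht hm
  obtain ⟨w₁, a1, b1⟩ := meet_arc B G hG hu hx hv hd hxarc _ h1.2.1 r hr hrG
  obtain ⟨w₂, a2, b2⟩ := meet_arc B G hG hu hy hv hd hyarc (p.dropUntil m hm).reverse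
    h2.reverse.2.1 r hr hrG
  rw [SimpleGraph.Walk.support_reverse, List.mem_reverse] at a2
  refine ⟨w₁, w₂, b1, b2, ?_⟩
  have e0 := hp.split ht hm
  have e1 := h1.split ht a1
  have e2 := h2.split ht a2
  have hG' : ∀ w ∈ G.support, w ∈ {w | B.Mem w} := hG
  have j1 : JoinedIn {w | B.Mem w} x w₁ := (h1.left ht a1).joined
  have j3 : JoinedIn {w | B.Mem w} w₂ y := (h2.right ht a2).joined
  have j12 : JoinedIn {w | B.Mem w} w₁ w₂ := joinedIn_box B (hG w₁ b1) (hG w₂ b2)
  have t1 := passU_triangle ht (t := t) j1 (joinedIn_box B (hG w₁ b1) hy.1)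
  have t2 := passU_triangle ht (t := t) j12 j3
  have t3 := passU_le_walk (t := t) ht G hG' b1 b2
  linarith

end

end Vale.P158
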