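import Vale.Agent.P158.Lattice

/-!
P158: Peierls bounds. With overwhelming probability every lattice path has many weights above a low
quantile, and in particular every crossing of an annulus of radius `r` has at least `r / 2` of them
inside the annulus.
-/

open MeasureTheory ProbabilityTheory Filter Topology
open scoped ENNReal

namespace Vale.P158

noncomputable section

/-! ### Low quantiles -/

/-- An atomless law has thresholds `b < a` with a rare but possible lower side. -/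
theorem exists_quantile (μ : Measure ℝ) [IsProbabilityMeasure μ] [NullSingletonClass μ]
    {p : ℝ≥0∞} (hp : 0 < p) :
    ∃ a b : ℝ, b < a ∧ μ (Set.Iic a) ≤ p ∧ 0 < μ (Set.Iic b) := by
  set p' : ℝ := (min p 2⁻¹).toReal with hp'
  have hfin : min p 2⁻¹ ≠ ∞ := ne_top_of_le_ne_top (by simp) (min_le_right p 2⁻¹)
  have hp0 : 0 < p' := ENNReal.toReal_pos (lt_min hp (by simp)).ne' hfin
  have hp1 : p' < 1 :=
    lt_of_le_of_lt (ENNReal.toReal_mono (by simp) (min_le_right p 2⁻¹)) (by norm_num)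
  have hcont : Continuous (cdf μ) := by
    refine continuous_iff_continuousAt.2 fun x => ?_
    rw [(monotone_cdf μ).continuousAt_iff_leftLim_eq_rightLim]
    have h1 := (cdf μ).measure_singleton x
    rw [measure_cdf, measure_singleton] at h1
    have h2 : cdf μ x - Function.leftLim (cdf μ) x ≤ 0 := ENNReal.ofReal_eq_zero.1 h1.symm
    have h3 := (monotone_cdf μ).leftLim_le (le_refl x)
    rw [StieltjesFunction.rightLim_eq]
    linarith
  obtain ⟨a, ha⟩ : ∃ a, cdf μ a = p' := by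
    obtain ⟨l, hl⟩ := ((tendsto_cdf_atBot μ).eventually (gt_mem_nhds hp0)).exists
    obtain ⟨u, hu⟩ := ((tendsto_cdf_atTop μ).eventually (lt_mem_nhds hp1)).exists
    obtain ⟨a, -, h⟩ := intermediate_value_uIcc (a := l) (b := u) hcont.continuousOn
      (show p' ∈ Set.uIcc (cdf μ l) (cdf μ u) from Set.mem_uIcc.2 (Or.inl ⟨hl.le, hu.le⟩))
    exact ⟨a, h⟩
  have hmeas : μ (Set.Iic a) = min p 2⁻¹ := by
    rw [← ENNReal.ofReal_toReal hfin, ← hp', ← ha, cdf_eq_real, ofReal_measureReal]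
  have hIio : μ (Set.Iio a) ≠ 0 := by
    rw [measure_congr Iio_ae_eq_Iic, hmeas]
    exact (lt_min hp (by simp)).ne'
  obtain ⟨n, hn⟩ : ∃ n : ℕ, μ (Set.Iic (a - 1 / ((n : ℝ) + 1))) ≠ 0 := by
    by_contra! h
    refine hIio (measure_mono_null (fun x hx => ?_) (measure_iUnion_null h))
    obtain ⟨n, hn⟩ := exists_nat_one_div_lt (sub_pos.2 (Set.mem_Iio.1 hx))
    exact Set.mem_iUnion.2 ⟨n, Set.mem_Iic.2 (by linarith)⟩
  exact ⟨a, a - 1 / ((n : ℝ) + 1), sub_lt_self _ (by positivity), hmeas ▸ min_le_left _ _,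
    pos_iff_ne_zero.2 hn⟩

/-! ### Paths with few heavy edges -/

section paths

variable {V : Type*} [DecidableEq V] [Countable V] {G : SimpleGraph V}

/-- A threshold so low that even the union over all paths of one length is small. -/
def LowQuantile (μ : Measure ℝ) (a : ℝ) : Prop := μ (Set.Iic a) ≤ (32⁻¹ : ℝ≥0∞) ^ 2

open scoped Classical in
/-- Some path of length `n` from `x` has fewer than `n / 2` weights above `a`. -/
def fewHeavy (G : SimpleGraph V) (a : ℝ) (x : V) (n : ℕ) : Set (Sym2 V → ℝ) :=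
  {t | ∃ (y : V) (p : G.Walk x y), p.IsPath ∧ p.length = n ∧
    2 * (p.edges.toFinset.filter fun e => a < t e).card < n}

variable (nb : V → Finset V) (hnb : ∀ x y, G.Adj x y → y ∈ nb x) (hD : ∀ x, (nb x).card ≤ 4)
  (μ : Measure ℝ) [IsProbabilityMeasure μ]

include hnb hD in
theorem measure_fewHeavy_le {a : ℝ} (ha : LowQuantile μ a) (x : V) (n : ℕ) :
    iidLaw (Sym2 V) μ (fewHeavy G a x n) ≤ (4⁻¹ : ℝ≥0∞) ^ n := by
  classical
  set P := ((edgeSets nb n x).filter fun E => E.card = n).biUnion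
    fun E => E.powerset.filter fun T => n ≤ 2 * T.card
  have hsub : fewHeavy G a x n ⊆ ⋃ T ∈ P, (T : Set (Sym2 V)).pi fun _ => Set.Iic a := by
    rintro t ⟨y, p, hp, rfl, hfew⟩
    have hcard : p.edges.toFinset.card = p.length := by
      rw [List.toFinset_card_of_nodup hp.isTrail.edges_nodup, SimpleGraph.Walk.length_edges]
    refine Set.mem_iUnion₂.2 ⟨p.edges.toFinset.filter fun e => ¬a < t e, ?_, fun e he => ?_⟩
    · refine Finset.mem_biUnion.2 ⟨p.edges.toFinset,
        Finset.mem_filter.2 ⟨edges_mem_edgeSets nb hnb p, hcard⟩,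
        Finset.mem_filter.2 ⟨Finset.mem_powerset.2 (Finset.filter_subset _ _), ?_⟩⟩
      have := Finset.card_filter_add_card_filter_not (s := p.edges.toFinset) fun e => a < t e
      omega
    · exact not_lt.1 (Finset.mem_filter.1 (Finset.mem_coe.1 he)).2
  have hP : P.card ≤ 4 ^ n * 2 ^ n := by
    refine Finset.card_biUnion_le.trans ((Finset.sum_le_sum (g := fun _ => 2 ^ n) fun E hE => ?_).trans ?_)
    · refine (Finset.card_filter_le _ _).trans ?_
      rw [Finset.card_powerset, (Finset.mem_filter.1 hE).2]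
    · rw [Finset.sum_const, smul_eq_mul]
      exact Nat.mul_le_mul_right _ ((Finset.card_filter_le _ _).trans (card_edgeSets_le nb hD n x))
  calc iidLaw (Sym2 V) μ (fewHeavy G a x n)
      ≤ ∑ T ∈ P, iidLaw (Sym2 V) μ ((T : Set (Sym2 V)).pi fun _ => Set.Iic a) :=
        (measure_mono hsub).trans (measure_biUnion_finset_le _ _)
    _ ≤ ∑ _T ∈ P, (32⁻¹ : ℝ≥0∞) ^ n := Finset.sum_le_sum fun T hT => by
        obtain ⟨E, -, hT⟩ := Finset.mem_biUnion.1 hT
        rw [iidLaw, Measure.infinitePi_pi _ fun _ _ => measurableSet_Iic, Finset.prod_const]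
        refine (pow_le_pow_left' ha _).trans ?_
        rw [← pow_mul]
        exact pow_le_pow_right_of_le_one' (ENNReal.inv_le_one.2 (by norm_num))
          (Finset.mem_filter.1 hT).2
    _ ≤ (4 ^ n * 2 ^ n : ℕ) * (32⁻¹ : ℝ≥0∞) ^ n := by
        rw [Finset.sum_const, nsmul_eq_mul]
        exact mul_le_mul_left (Nat.cast_le.2 hP) _
    _ = (4⁻¹ : ℝ≥0∞) ^ n := by
        push_cast
        rw [← mul_pow, ← mul_pow]
        congr 1
        rw [show (32 : ℝ≥0∞) = 4 * 2 * 4 by norm_num, ENNReal.mul_inv (by simp) (by simp),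
          ← mul_assoc, ENNReal.mul_inv_cancel (by simp) (by finiteness), one_mul]

include hnb hD in
/-- Long paths from `x` are heavy except with exponentially small probability. -/
theorem measure_long_light_le {a : ℝ} (ha : LowQuantile μ a) (ha0 : 0 ≤ a)
    (hμ : ∀ᵐ s ∂μ, 0 ≤ s) (x : V) (n : ℕ) :
    iidLaw (Sym2 V) μ {t | ∃ (y : V) (p : G.Walk x y), p.IsPath ∧ n ≤ p.length ∧
      wlen t p < a / 2 * p.length} ≤ 2 * (4⁻¹ : ℝ≥0∞) ^ n := by
  classical
  have hnn : ∀ᵐ t ∂iidLaw (Sym2 V) μ, ∀ e : Sym2 V, 0 ≤ t e := by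
    rw [eventually_countable_forall]
    intro i
    have := hμ
    rw [← Measure.infinitePi_map_eval (fun _ : Sym2 V => μ) i] at this
    exact ae_of_ae_map (measurable_pi_apply i).aemeasurable this
  calc iidLaw (Sym2 V) μ {t | ∃ (y : V) (p : G.Walk x y), p.IsPath ∧ n ≤ p.length ∧
        wlen t p < a / 2 * p.length}
      ≤ iidLaw (Sym2 V) μ (⋃ k : ℕ, fewHeavy G a x (n + k)) := by
        refine measure_mono_ae ?_
        filter_upwards [hnn] with t ht hmem
        obtain ⟨y, p, hp, hn, hw⟩ := hmem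
        refine Set.mem_iUnion.2 ⟨p.length - n, y, p, hp, (Nat.add_sub_cancel' hn).symm, ?_⟩
        rw [Nat.add_sub_cancel' hn]
        by_contra! hc
        rw [wlen_path t hp] at hw
        set S := p.edges.toFinset.filter fun e => a < t e
        have h1 : (p.length : ℝ) ≤ 2 * S.card := by exact_mod_cast hc
        have h2 : a * S.card ≤ ∑ e ∈ p.edges.toFinset, t e := by
          refine le_trans ?_ (Finset.sum_le_sum_of_subset_of_nonneg (Finset.filter_subset (fun e => a < t e) _)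
            fun e _ _ => ht e)
          rw [mul_comm, ← nsmul_eq_mul, ← Finset.sum_const]
          exact Finset.sum_le_sum fun e he => (Finset.mem_filter.1 he).2.le
        nlinarith [mul_le_mul_of_nonneg_left h1 ha0]
    _ ≤ ∑' k : ℕ, (4⁻¹ : ℝ≥0∞) ^ (n + k) :=
        (measure_iUnion_le _).trans
          (ENNReal.tsum_le_tsum fun k => measure_fewHeavy_le nb hnb hD μ ha x _)
    _ ≤ 2 * (4⁻¹ : ℝ≥0∞) ^ n := by
        simp only [pow_add]
        rw [ENNReal.tsum_mul_left, mul_comm]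
        refine mul_le_mul_left ?_ _
        rw [ENNReal.tsum_geometric, ← inv_inv (2 : ℝ≥0∞), ENNReal.inv_le_inv]
        refine le_trans ?_ (tsub_le_tsub_left (ENNReal.inv_le_inv.2 (by norm_num : (2 : ℝ≥0∞) ≤ 4)) 1)
        rw [ENNReal.one_sub_inv_two]

end paths

/-! ### Annuli -/

/-- The sup distance from `z`. -/
def supDist (z x : Z2) : ℕ := max (x.1 - z.1).natAbs (x.2 - z.2).natAbs

/-- The edges of the annulus of radius `r` about `z`; different dyadic radii give disjoint sets. -/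
def annEdge (z : Z2) (r : ℕ) (e : Sym2 Z2) : Prop :=
  (∀ v ∈ e, r ≤ supDist z v ∧ supDist z v ≤ 2 * r) ∧ ∃ v ∈ e, r < supDist z v

open scoped Classical in
/-- The heavy edges of a walk in an annulus. -/
def heavyIn (a : ℝ) (z : Z2) (r : ℕ) (t : Sym2 Z2 → ℝ) {x y : Z2} (p : lattice.Walk x y) :
    Finset (Sym2 Z2) :=
  p.edges.toFinset.filter fun e => a < t e ∧ annEdge z r e

/-- Every crossing of the annulus has at least `r / 2` heavy edges inside it. -/
def Crossed (a : ℝ) (z : Z2) (r : ℕ) (t : Sym2 Z2 → ℝ) : Prop :=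
  ∀ (x y : Z2) (p : lattice.Walk x y), supDist z x ≤ r → 2 * r ≤ supDist z y →
    r ≤ 2 * (heavyIn a z r t p).card

lemma supDist_step {z u v : Z2} (h : lattice.Adj u v) : supDist z v ≤ supDist z u + 1 := by
  have h' : |u.1 - v.1| + |u.2 - v.2| = 1 := h
  simp only [supDist]
  rcases abs_cases (u.1 - v.1) with h1 | h1 <;> rcases abs_cases (u.2 - v.2) with h2 | h2 <;>
    omega

/-- A crossing contains a path of length `r` from the sphere of radius `r` inside the annulus. -/
theorem exists_segment (z : Z2) {r : ℕ} (hr : 0 < r) {x y : Z2} (p : lattice.Walk x y)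
    (hx : supDist z x ≤ r) (hy : 2 * r ≤ supDist z y) :
    ∃ (u v : Z2) (q : lattice.Walk u v), supDist z u = r ∧ q.IsPath ∧ q.length = r ∧
      ∀ e ∈ q.edges, e ∈ p.edges ∧ annEdge z r e := by
  classical
  set b := p.bypass with hb
  set f : ℕ → ℕ := fun i => supDist z (b.getVert i) with hf
  have hstep : ∀ i, f (i + 1) ≤ f i + 1 := by
    intro i
    rcases lt_or_ge i b.length with h | h
    · exact supDist_step (b.adj_getVert_succ h)
    · simp [hf, b.getVert_of_length_le h, b.getVert_of_length_le (h.trans i.le_succ)]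
  set i₀ := Nat.findGreatest (fun i => f i ≤ r) b.length with hi₀
  have hi0 : f i₀ ≤ r := Nat.findGreatest_spec (P := fun i => f i ≤ r) (Nat.zero_le _)
    (by simpa [hf] using hx)
  have hlast : ∀ i, i₀ < i → i ≤ b.length → r < f i := fun i h1 h2 =>
    not_le.1 (Nat.findGreatest_is_greatest (P := fun i => f i ≤ r) h1 h2)
  have hle : ∀ k, f (i₀ + k) ≤ f i₀ + k := by
    intro k
    induction k with
    | zero => simp
    | succ k ih =>
      have := hstep (i₀ + k)
      rw [show i₀ + (k + 1) = i₀ + k + 1 by omega]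
      omega
  have hi0len : i₀ ≤ b.length := Nat.findGreatest_le _
  have hfl : 2 * r ≤ f b.length := by simpa [hf] using hy
  have hroom : i₀ + r ≤ b.length := by
    by_contra! h
    have := hle (b.length - i₀)
    rw [Nat.add_sub_cancel' hi0len] at this
    omega
  have heq : f i₀ = r := by
    refine le_antisymm hi0 ?_
    have h1 := hlast (i₀ + 1) (by omega) (by omega)
    have := hstep i₀
    omega
  refine ⟨_, _, (b.drop i₀).take r, heq, (p.bypass_isPath.drop i₀).take r, ?_, fun e he => ?_⟩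
  · rw [SimpleGraph.Walk.take_length, SimpleGraph.Walk.drop_length]
    omega
  rw [SimpleGraph.Walk.edges_take, SimpleGraph.Walk.edges_drop, List.mem_iff_getElem] at he
  obtain ⟨k, hk, rfl⟩ := he
  simp only [List.length_take, List.length_drop, SimpleGraph.Walk.length_edges] at hk
  rw [List.getElem_take, List.getElem_drop]
  refine ⟨p.edges_bypass_subset_edges (List.getElem_mem _), ?_⟩
  simp only [SimpleGraph.Walk.edges_eq_map_darts, List.getElem_map,
    SimpleGraph.Walk.darts_getElem_eq_getVert, SimpleGraph.Dart.edge_mk]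
  refine ⟨fun v hv => ?_, b.getVert (i₀ + k + 1), by simp, hlast _ (by omega) (by omega)⟩
  rcases Sym2.mem_iff.1 hv with rfl | rfl
  · refine ⟨?_, (hle k).trans (by omega)⟩
    rcases Nat.eq_zero_or_pos k with rfl | hk0
    · exact heq.ge
    · exact (hlast _ (by omega) (by omega)).le
  · exact ⟨(hlast _ (by omega) (by omega)).le, (hle (k + 1)).trans (by omega)⟩

open scoped Classical in
/-- A finite superset of the sphere of radius `r` about `z`. -/
def sphereSet (z : Z2) (r : ℕ) : Finset Z2 :=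
  (Finset.Icc (-(r : ℤ)) r).biUnion fun i =>
    {(z.1 + i, z.2 + r), (z.1 + i, z.2 - r), (z.1 + r, z.2 + i), (z.1 - r, z.2 + i)}

lemma mem_sphereSet {z u : Z2} {r : ℕ} (h : supDist z u = r) : u ∈ sphereSet z r := by
  obtain ⟨a, b⟩ := z
  obtain ⟨c, d⟩ := u
  simp only [supDist] at h
  simp only [sphereSet, Finset.mem_biUnion, Finset.mem_Icc, Finset.mem_insert,
    Finset.mem_singleton, Prod.mk.injEq]
  rcases le_total (c - a).natAbs (d - b).natAbs with hle | hle
  · exact ⟨c - a, by omega, by omega⟩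
  · exact ⟨d - b, by omega, by omega⟩

lemma card_sphereSet {z : Z2} {r : ℕ} (hr : 0 < r) : (sphereSet z r).card ≤ 12 * r := by
  refine (Finset.card_biUnion_le_card_mul _ _ 4 fun i _ => Finset.card_le_four).trans ?_
  rw [Int.card_Icc]
  omega

variable (μ : Measure ℝ) [IsProbabilityMeasure μ]

/-- One annulus. -/
theorem measure_not_crossed_le {a : ℝ} (ha : LowQuantile μ a) (z : Z2) (r : ℕ) :
    iidLaw (Sym2 Z2) μ {t | ¬Crossed a z r t} ≤ 12 * (2⁻¹ : ℝ≥0∞) ^ r := by
  classical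
  rcases Nat.eq_zero_or_pos r with rfl | hr
  · simp [Crossed]
  calc iidLaw (Sym2 Z2) μ {t | ¬Crossed a z r t}
      ≤ iidLaw (Sym2 Z2) μ (⋃ u ∈ sphereSet z r, fewHeavy lattice a u r) := by
        refine measure_mono fun t ht => ?_
        simp only [Set.mem_ofPred_eq, Crossed, not_forall, not_le] at ht
        obtain ⟨x, y, p, hx, hy, hfew⟩ := ht
        obtain ⟨u, v, q, hu, hq, hlen, hsub⟩ := exists_segment z hr p hx hy
        refine Set.mem_iUnion₂.2 ⟨u, mem_sphereSet hu, v, q, hq, hlen, lt_of_le_of_lt ?_ hfew⟩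
        refine Nat.mul_le_mul_left 2 (Finset.card_le_card fun e he => ?_)
        obtain ⟨he1, he2⟩ := Finset.mem_filter.1 he
        obtain ⟨h1, h2⟩ := hsub e (List.mem_toFinset.1 he1)
        exact Finset.mem_filter.2 ⟨List.mem_toFinset.2 h1, he2, h2⟩
    _ ≤ ∑ _u ∈ sphereSet z r, (4⁻¹ : ℝ≥0∞) ^ r :=
        (measure_biUnion_finset_le _ _).trans (Finset.sum_le_sum fun u _ =>
          measure_fewHeavy_le nbrs (fun _ _ h => mem_nbrs h) card_nbrs μ ha u r)
    _ ≤ ((12 * 2 ^ r : ℕ) : ℝ≥0∞) * (4⁻¹ : ℝ≥0∞) ^ r := by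
        rw [Finset.sum_const, nsmul_eq_mul]
        exact mul_le_mul_left (Nat.cast_le.2 ((card_sphereSet hr).trans
          (Nat.mul_le_mul_left 12 (Nat.lt_two_pow_self).le))) _
    _ = 12 * (2⁻¹ : ℝ≥0∞) ^ r := by
        push_cast
        rw [mul_assoc, ← mul_pow]
        congr 2
        rw [show (4 : ℝ≥0∞) = 2 * 2 by norm_num, ENNReal.mul_inv (by simp) (by simp), ← mul_assoc,
          ENNReal.mul_inv_cancel (by simp) (by simp), one_mul]

/-- All large annuli at once. -/
theorem measure_exists_not_crossed_le {a : ℝ} (ha : LowQuantile μ a) (z : Z2) (r₀ : ℕ) :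
    iidLaw (Sym2 Z2) μ {t | ∃ r, r₀ ≤ r ∧ ¬Crossed a z r t} ≤ 24 * (2⁻¹ : ℝ≥0∞) ^ r₀ := by
  calc iidLaw (Sym2 Z2) μ {t | ∃ r, r₀ ≤ r ∧ ¬Crossed a z r t}
      ≤ iidLaw (Sym2 Z2) μ (⋃ k : ℕ, {t | ¬Crossed a z (r₀ + k) t}) :=
        measure_mono fun t ⟨r, hr, h⟩ =>
          Set.mem_iUnion.2 ⟨r - r₀, by rw [Set.mem_ofPred_eq, Nat.add_sub_cancel' hr]; exact h⟩
    _ ≤ ∑' k : ℕ, 12 * (2⁻¹ : ℝ≥0∞) ^ (r₀ + k) :=
        (measure_iUnion_le _).trans (ENNReal.tsum_le_tsum fun k => measure_not_crossed_le μ ha z _)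
    _ = 24 * (2⁻¹ : ℝ≥0∞) ^ r₀ := by
        simp only [pow_add, ← mul_assoc]
        rw [ENNReal.tsum_mul_left, ENNReal.tsum_geometric, ENNReal.one_sub_inv_two, inv_inv]
        ring

/-! ### Dyadic annuli together -/

lemma annEdge_disjoint {z : Z2} {j k : ℕ} (hjk : j < k) {e : Sym2 Z2}
    (h : annEdge z (2 ^ j) e) : ¬annEdge z (2 ^ k) e := by
  rintro ⟨-, v, hv, hlt⟩
  have h1 := (h.1 v hv).2
  have h2 : 2 * 2 ^ j ≤ 2 ^ k := by
    rw [mul_comm, ← pow_succ]; exact Nat.pow_le_pow_right (by norm_num) hjk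
  omega

open scoped Classical in
/-- A long walk meets every dyadic annulus in many heavy edges, all different. -/
theorem heavy_card_ge {a : ℝ} {z : Z2} {t : Sym2 Z2 → ℝ} {j₀ j₁ : ℕ}
    (hc : ∀ j, j₀ ≤ j → j < j₁ → Crossed a z (2 ^ j) t) {x y : Z2} (p : lattice.Walk x y)
    (hx : supDist z x ≤ 2 ^ j₀) (hy : 2 ^ j₁ ≤ supDist z y) :
    2 ^ j₁ ≤ 2 ^ j₀ + 2 * (p.edges.toFinset.filter fun e => a < t e).card := by
  have hper : ∀ j ∈ Finset.Ico j₀ j₁, 2 ^ j ≤ 2 * (heavyIn a z (2 ^ j) t p).card := by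
    intro j hj
    obtain ⟨h1, h2⟩ := Finset.mem_Ico.1 hj
    exact hc j h1 h2 x y p (hx.trans (Nat.pow_le_pow_right (by norm_num) h1))
      (le_trans (by rw [mul_comm, ← pow_succ]; exact Nat.pow_le_pow_right (by norm_num) h2) hy)
  have hdis : ((Finset.Ico j₀ j₁ : Finset ℕ) : Set ℕ).PairwiseDisjoint
      fun j => heavyIn a z (2 ^ j) t p := by
    intro j _ k _ hne
    refine Finset.disjoint_left.2 fun e hj hk => ?_
    rcases lt_or_gt_of_ne hne with h | h
    · exact annEdge_disjoint h (Finset.mem_filter.1 hj).2.2 (Finset.mem_filter.1 hk).2.2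
    · exact annEdge_disjoint h (Finset.mem_filter.1 hk).2.2 (Finset.mem_filter.1 hj).2.2
  have hsum : ∑ j ∈ Finset.Ico j₀ j₁, (heavyIn a z (2 ^ j) t p).card ≤
      (p.edges.toFinset.filter fun e => a < t e).card := by
    rw [← Finset.card_biUnion hdis]
    refine Finset.card_le_card fun e he => ?_
    obtain ⟨j, -, hj⟩ := Finset.mem_biUnion.1 he
    exact Finset.mem_filter.2 ⟨(Finset.mem_filter.1 hj).1, (Finset.mem_filter.1 hj).2.1⟩
  rcases le_or_gt j₁ j₀ with h | h
  · exact le_add_right (Nat.pow_le_pow_right (by norm_num) h)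
  have hgeom : 2 ^ j₁ = 2 ^ j₀ + ∑ j ∈ Finset.Ico j₀ j₁, 2 ^ j := by
    clear hper hdis hsum hc hy
    induction j₁, h using Nat.le_induction with
    | base => simp [pow_succ]; ring
    | succ m hm ih =>
      rw [Finset.sum_Ico_succ_top (by omega), ← add_assoc, ← ih, pow_succ]; ring
  have := Finset.sum_le_sum hper
  rw [← Finset.mul_sum] at this
  omega

open scoped Classical in
/-- Walks are heavy at large scales. -/
theorem wlen_ge {a : ℝ} (ha : 0 ≤ a) {z : Z2} {t : Sym2 Z2 → ℝ} (ht : ∀ e, 0 ≤ t e) {j₀ j₁ : ℕ}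
    (hc : ∀ j, j₀ ≤ j → j < j₁ → Crossed a z (2 ^ j) t) {x y : Z2} (p : lattice.Walk x y)
    (hx : supDist z x ≤ 2 ^ j₀) (hy : 2 ^ j₁ ≤ supDist z y) :
    a / 2 * ((2 : ℝ) ^ j₁ - 2 ^ j₀) ≤ wlen t p := by
  refine le_trans ?_ (wlen_bypass_le ht p)
  rw [wlen_path t p.bypass_isPath]
  set S := p.bypass.edges.toFinset.filter fun e => a < t e
  have h1 : (2 : ℝ) ^ j₁ - 2 ^ j₀ ≤ 2 * S.card := by
    have h : ((2 ^ j₁ : ℕ) : ℝ) ≤ ((2 ^ j₀ + 2 * S.card : ℕ) : ℝ) := by
      exact_mod_cast heavy_card_ge hc p.bypass hx hy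
    push_cast at h
    linarith
  calc a / 2 * ((2 : ℝ) ^ j₁ - 2 ^ j₀) ≤ a * S.card := by
        nlinarith [mul_le_mul_of_nonneg_left h1 ha]
    _ = ∑ _e ∈ S, a := by rw [Finset.sum_const, nsmul_eq_mul, mul_comm]
    _ ≤ ∑ e ∈ S, t e := Finset.sum_le_sum fun e he => (Finset.mem_filter.1 he).2.le
    _ ≤ _ := Finset.sum_le_sum_of_subset_of_nonneg (Finset.filter_subset _ _) fun e _ _ => ht e

end

end Vale.P158
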