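import Vale.Agent.P158.Translate

/-!
# P158: measurability of passage times, geodesic events and crossings
-/

namespace Vale.P158

open MeasureTheory SimpleGraph
open Vale.Agent.P158.Crossing (Rect)

noncomputable section

/-- A walk is determined by the list of its vertices, so there are countably many. -/
instance countable_walk {V : Type*} [Countable V] {G : SimpleGraph V} (x y : V) :
    Countable (G.Walk x y) :=
  Function.Injective.countable (f := fun p : G.Walk x y => p.support)
    fun _ _ h => Walk.ext_support h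

@[fun_prop]
lemma measurable_wlen {V : Type*} {G : SimpleGraph V} {x y : V} (p : G.Walk x y) :
    Measurable fun t : Sym2 V → ℝ => wlen t p := by
  induction p with
  | nil => simp only [wlen_nil]; exact measurable_const
  | cons h p ih => simp only [wlen_cons]; exact (measurable_pi_apply _).add ih

@[fun_prop]
lemma measurable_passage (x y : Z2) : Measurable fun t => passage t x y :=
  Measurable.iInf fun p => measurable_wlen p

@[fun_prop]
lemma measurable_passU (U : Set Z2) (x y : Z2) : Measurable fun t => passU t U x y :=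
  Measurable.iInf fun p => measurable_wlen p.1

lemma measurableSet_isGeoU (U : Set Z2) {x y : Z2} (p : lattice.Walk x y) :
    MeasurableSet {t | IsGeoU t U p} := by
  by_cases h : p.IsPath ∧ ∀ v ∈ p.support, v ∈ U
  · have e : {t | IsGeoU t U p} = ⋂ q : {q : lattice.Walk x y //
        q.IsPath ∧ ∀ v ∈ q.support, v ∈ U}, {t | wlen t p ≤ wlen t q.1} := by
      ext t
      simp only [Set.mem_ofPred_eq, Set.mem_iInter, Subtype.forall]
      exact ⟨fun hp q hq => hp.2.2 q hq.1 hq.2, fun hq => ⟨h.1, h.2, fun q h1 h2 => hq q ⟨h1, h2⟩⟩⟩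
    rw [e]
    exact MeasurableSet.iInter fun q => measurableSet_le (by fun_prop) (by fun_prop)
  · have e : {t | IsGeoU t U p} = ∅ :=
      Set.eq_empty_of_forall_notMem fun t ht => h ⟨ht.1, ht.2.1⟩
    rw [e]
    exact MeasurableSet.empty

theorem measurableSet_crossedBy (B : Rect) (z : Z2) : MeasurableSet (CrossedBy B z) := by
  have e : CrossedBy B z = ⋃ (x : Z2) (y : Z2) (p : lattice.Walk x y)
      (_ : B.Bdry x ∧ B.Bdry y ∧ z ∈ p.support), {t | IsGeoU t {w | B.Mem w} p} := by
    ext t
    simp only [CrossedBy, Set.mem_ofPred_eq, Set.mem_iUnion, exists_prop]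
    exact ⟨fun ⟨x, y, p, h1, h2, h3, h4⟩ => ⟨x, y, p, ⟨h1, h2, h4⟩, h3⟩,
      fun ⟨x, y, p, ⟨h1, h2, h4⟩, h3⟩ => ⟨x, y, p, h1, h2, h3, h4⟩⟩
  rw [e]
  exact MeasurableSet.iUnion fun x => MeasurableSet.iUnion fun y => MeasurableSet.iUnion fun p =>
    MeasurableSet.iUnion fun _ => measurableSet_isGeoU _ p

end

end Vale.P158
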