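import Vale.Agent.P158.Base

/-!
P158, module C of PROOF70: the tail shift, independent of the geometry.

`Seg R` are the possible segments at scale `R`, `E R q` says that `q` is present and `D R q` is its
margin.  Lowering one weight of a far set `Z L k` raises the margins of all descendants of `k` by
`c`.  If the number of segments and the truncated total margin are bounded in mean, then almost
surely some scale has no segment.
-/

open MeasureTheory ProbabilityTheory Filter Topology
open scoped ENNReal symmDiff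

set_option linter.unusedSectionVars false

namespace Vale.P158.TailShift

noncomputable section

/-- The data: segments at every scale, their presence, margins, restrictions and far edge sets. -/
structure Data (ι : Type*) where
  /-- possible segments at a scale -/
  Seg : ℕ → Type
  [fin : ∀ R, Fintype (Seg R)]
  /-- the segment is present -/
  E : ∀ R, Seg R → Set (ι → ℝ)
  /-- its margin -/
  D : ∀ R, Seg R → (ι → ℝ) → ℝ≥0∞
  /-- restriction to a smaller scale -/
  res : ∀ M R, Seg R → Seg M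
  /-- far edges of a segment -/
  Z : ∀ L, Seg L → Finset ι
  meas_E : ∀ R q, MeasurableSet (E R q)
  meas_D : ∀ R q, Measurable (D R q)
  res_self : ∀ R q, res R R q = q
  res_trans : ∀ M L R, M ≤ L → L ≤ R → ∀ q, res M L (res L R q) = res M R q
  down : ∀ M R, M ≤ R → ∀ q t, t ∈ E R q → t ∈ E M (res M R q)
  up : ∀ M R, M ≤ R → ∀ p t, t ∈ E M p → ∃ q, t ∈ E R q ∧ res M R q = p
  far : ∀ F : Finset ι, ∀ᶠ L in atTop, ∀ k, Disjoint (Z L k) F

attribute [instance] Data.fin

variable {ι : Type*} (S : Data ι)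

open scoped Classical in
/-- The least margin of the descendants at scale `R` of the segment `k` of scale `M`. -/
def desc (M : ℕ) (k : S.Seg M) (R : ℕ) (t : ι → ℝ) : ℝ≥0∞ :=
  ⨅ q, if S.res M R q = k ∧ t ∈ S.E R q then S.D R q t else ⊤

open scoped Classical in
/-- The least margin at scale `R`. -/
def allMin (R : ℕ) (t : ι → ℝ) : ℝ≥0∞ := ⨅ q, if t ∈ S.E R q then S.D R q t else ⊤

/-- The limiting margin below `k`. -/
def vDesc (M : ℕ) (k : S.Seg M) (t : ι → ℝ) : ℝ≥0∞ := liminf (fun R => desc S M k R t) atTop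

/-- The limiting margin. -/
def vAll (t : ι → ℝ) : ℝ≥0∞ := liminf (fun R => allMin S R t) atTop

open scoped Classical in
/-- The present segments. -/
def present (R : ℕ) (t : ι → ℝ) : Finset (S.Seg R) := Finset.univ.filter fun q => t ∈ S.E R q

/-- Their number. -/
def num (R : ℕ) (t : ι → ℝ) : ℕ := (present S R t).card

/-- A segment of scale `M` splits further out. -/
def two (M : ℕ) : Set (ι → ℝ) := {t | ∃ R, M ≤ R ∧ num S M t < num S R t}

open scoped Classical in
lemma image_present {M R : ℕ} (h : M ≤ R) (t : ι → ℝ) :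
    (present S R t).image (S.res M R) = present S M t := by
  ext p
  simp only [present, Finset.mem_image, Finset.mem_filter, Finset.mem_univ, true_and]
  exact ⟨fun ⟨q, hq, hp⟩ => hp ▸ S.down M R h q t hq,
    fun hp => (S.up M R h p t hp).imp fun q hq => hq⟩

lemma num_mono {M R : ℕ} (h : M ≤ R) (t : ι → ℝ) : num S M t ≤ num S R t := by
  classical
  rw [num, ← image_present S h t]
  exact Finset.card_image_le

lemma inj_of_notMem_two {M R : ℕ} (h : M ≤ R) {t : ι → ℝ} (ht : t ∉ two S M) {q q' : S.Seg R}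
    (hq : t ∈ S.E R q) (hq' : t ∈ S.E R q') (he : S.res M R q = S.res M R q') : q = q' := by
  classical
  have hle : num S R t ≤ num S M t := not_lt.1 fun hlt => ht ⟨R, h, hlt⟩
  have hcard : ((present S R t).image (S.res M R)).card = (present S R t).card := by
    rw [image_present S h t]
    exact le_antisymm (num_mono S h t) hle
  exact Finset.card_image_iff.1 hcard (by simp [present, hq]) (by simp [present, hq']) he

lemma measurable_desc (M : ℕ) (k : S.Seg M) (R : ℕ) : Measurable (desc S M k R) := by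
  classical
  refine Measurable.iInf fun q => ?_
  by_cases h : S.res M R q = k
  · simp only [h, true_and]
    exact Measurable.ite (S.meas_E R q) (S.meas_D R q) measurable_const
  · simp [h]

lemma measurable_allMin (R : ℕ) : Measurable (allMin S R) := by
  classical
  exact Measurable.iInf fun q => Measurable.ite (S.meas_E R q) (S.meas_D R q) measurable_const

lemma measurable_vDesc (M : ℕ) (k : S.Seg M) : Measurable (vDesc S M k) :=
  Measurable.liminf fun R => measurable_desc S M k R

lemma measurable_vAll : Measurable (vAll S) := Measurable.liminf (measurable_allMin S)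

lemma num_eq_sum (R : ℕ) (t : ι → ℝ) :
    (num S R t : ℝ≥0∞) = ∑ q, (S.E R q).indicator 1 t := by
  classical
  simp [num, present, Set.indicator_apply, Finset.sum_boole]

lemma measurable_num (R : ℕ) : Measurable fun t => (num S R t : ℝ≥0∞) := by
  simp only [num_eq_sum]
  exact Finset.measurable_sum _ fun q _ => measurable_one.indicator (S.meas_E R q)

lemma measurableSet_two (M : ℕ) : MeasurableSet (two S M) := by
  have : two S M = ⋃ R, ⋃ (_ : M ≤ R), {t | (num S M t : ℝ≥0∞) < num S R t} := by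
    ext t
    simp [two, Nat.cast_lt]
  rw [this]
  exact .iUnion fun R => .iUnion fun _ => measurableSet_lt (measurable_num S M) (measurable_num S R)

lemma two_antitone : Antitone (two S) := fun _ _ h t ⟨R, hR, hlt⟩ =>
  ⟨R, h.trans hR, lt_of_le_of_lt (num_mono S h t) hlt⟩

lemma allMin_le_desc (M : ℕ) (k : S.Seg M) (R : ℕ) (t : ι → ℝ) :
    allMin S R t ≤ desc S M k R t := by
  classical
  refine iInf_mono fun q => ?_
  by_cases h : S.res M R q = k ∧ t ∈ S.E R q
  · rw [if_pos h, if_pos h.2]
  · rw [if_neg h]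
    exact le_top

lemma vAll_le_vDesc (M : ℕ) (k : S.Seg M) (t : ι → ℝ) : vAll S t ≤ vDesc S M k t :=
  liminf_le_liminf (Eventually.of_forall fun R => allMin_le_desc S M k R t)

lemma vDesc_res_le {M L : ℕ} (h : M ≤ L) (k : S.Seg L) (t : ι → ℝ) :
    vDesc S M (S.res M L k) t ≤ vDesc S L k t := by
  classical
  refine liminf_le_liminf ?_
  filter_upwards [eventually_ge_atTop L] with R hR
  refine le_iInf fun q => ?_
  split_ifs with hq
  · refine iInf_le_of_le q ?_
    rw [if_pos ⟨by rw [← hq.1, S.res_trans M L R h hR], hq.2⟩]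
  · exact le_top

lemma exists_vDesc_le (L : ℕ) {t : ι → ℝ} (ht : vAll S t < ⊤) :
    ∃ k, vDesc S L k t ≤ vAll S t := by
  classical
  by_contra! hk
  obtain ⟨y, hy1, hy2⟩ := exists_between
    (show vAll S t < Finset.univ.inf fun k => vDesc S L k t from
      (Finset.lt_inf_iff ht).2 fun k _ => hk k)
  have hev : ∀ᶠ R in atTop, ∀ k, y < desc S L k R t := eventually_all.2 fun k =>
    eventually_lt_of_lt_liminf ((Finset.lt_inf_iff (hy2.trans_le le_top)).1 hy2 k (Finset.mem_univ k))
  refine absurd (le_liminf_of_le (h := ?_) : y ≤ vAll S t) (not_le.2 hy1)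
  filter_upwards [hev, eventually_ge_atTop L] with R hR hRL
  refine le_iInf fun q => ?_
  split_ifs with hq
  · refine (hR (S.res L R q)).le.trans (iInf_le_of_le q ?_)
    rw [if_pos ⟨rfl, hq⟩]
  · exact le_top

lemma mem_E_of_vDesc_lt {L : ℕ} {k : S.Seg L} {t : ι → ℝ} (h : vDesc S L k t < ⊤) :
    t ∈ S.E L k := by
  classical
  by_contra hk
  refine h.ne (top_le_iff.1 (le_liminf_of_le (h := ?_)))
  filter_upwards [eventually_ge_atTop L] with R hR
  refine le_iInf fun q => ?_
  split_ifs with hq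
  · exact absurd (hq.1 ▸ S.down L R hR q t hq.2) hk
  · exact le_rfl

variable (μ : Measure ℝ) [IsProbabilityMeasure μ] (Hi : Set (ι → ℝ))

open scoped Classical in
/-- Many far edges of `k` are heavy. -/
def heavy (b : ℝ) (L : ℕ) (k : S.Seg L) : Set (ι → ℝ) :=
  {t | 0 < ((S.Z L k).filter fun f => b < t f).card ∧
    (S.Z L k).card ≤ 4 * ((S.Z L k).filter fun f => b < t f).card}

open scoped Classical in
lemma measurableSet_heavy (b : ℝ) (L : ℕ) (k : S.Seg L) : MeasurableSet (heavy S b L k) := by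
  have h : Measurable fun t : ι → ℝ => ((S.Z L k).filter fun f => b < t f).card := by
    simp only [Finset.card_filter]
    exact Finset.measurable_sum _ fun f _ => Measurable.ite
      (measurableSet_lt measurable_const (measurable_pi_apply f)) measurable_const measurable_const
  exact h (show MeasurableSet {n : ℕ | 0 < n ∧ (S.Z L k).card ≤ 4 * n} from .of_discrete)

/-- The hypothesis: lowering a heavy far edge of `k` into `A` raises the margins below `k`. -/
def ShiftHyp (A : Set ℝ) (b : ℝ) (c : ℝ≥0∞) : Prop :=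
  ∀ L k, ∀ f ∈ S.Z L k, ∀ t ∈ Hi, t ∈ S.E L k → b < t f → ∀ s ∈ A,
    resample {f} (t, fun _ => s) ∈ Hi ∧ ∀ R, L ≤ R → ∀ q, S.res L R q = k → t ∈ S.E R q →
      resample {f} (t, fun _ => s) ∈ S.E R q ∧
        S.D R q t + c ≤ S.D R q (resample {f} (t, fun _ => s))

variable {S Hi}

/-- After the shift either a segment splits or the margin below it has left the window. -/
lemma shift_step {A : Set ℝ} {b : ℝ} {c x T : ℝ≥0∞} (hshift : ShiftHyp S Hi A b c)
    (hxT : T < x + c) {M L : ℕ} (hML : M ≤ L) {k : S.Seg L} {f : ι} (hf : f ∈ S.Z L k)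
    {t : ι → ℝ} (ht : t ∈ Hi) (hx : x ≤ vDesc S L k t) (hT : vDesc S L k t ≤ T)
    (hb : b < t f) {s : ℝ} (hs : s ∈ A) :
    resample {f} (t, fun _ => s) ∈ Hi ∩ S.E L k ∧
      (resample {f} (t, fun _ => s) ∈ two S M ∨
        T < vDesc S M (S.res M L k) (resample {f} (t, fun _ => s))) := by
  classical
  have hTtop : T < ⊤ := hxT.trans_le le_top
  have hk : t ∈ S.E L k := mem_E_of_vDesc_lt S (lt_of_le_of_lt hT hTtop)
  obtain ⟨hHi', hR⟩ := hshift L k f hf t ht hk hb s hs
  refine ⟨⟨hHi', (hR L le_rfl k (S.res_self L k) hk).1⟩, ?_⟩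
  set t' := resample {f} (t, fun _ => s)
  refine or_iff_not_imp_left.2 fun hnt => ?_
  have hev : ∀ᶠ R in atTop, desc S L k R t + c ≤ desc S M (S.res M L k) R t' := by
    filter_upwards [eventually_ge_atTop L] with R hLR
    refine le_iInf fun q' => ?_
    split_ifs with hq'
    · obtain ⟨q, hq, hres⟩ := S.up L R hLR k t hk
      obtain ⟨hq1, hq2⟩ := hR R hLR q hres hq
      have hqq : q' = q := inj_of_notMem_two S (hML.trans hLR) hnt hq'.2 hq1 (by
        rw [hq'.1, ← hres, S.res_trans M L R hML hLR])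
      subst hqq
      refine le_trans (add_le_add (iInf_le_of_le q' ?_) le_rfl) hq2
      rw [if_pos ⟨hres, hq⟩]
    · exact le_top
  have hmap : vDesc S L k t + c = liminf (fun R => desc S L k R t + c) atTop :=
    Monotone.map_liminf_of_continuousAt (f := fun z : ℝ≥0∞ => z + c)
      (fun _ _ h => add_le_add h le_rfl) (fun R => desc S L k R t)
      (continuous_id.add continuous_const).continuousAt
  calc T < x + c := hxT
    _ ≤ vDesc S L k t + c := add_le_add hx le_rfl
    _ = _ := hmap
    _ ≤ _ := liminf_le_liminf hev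

/-- One segment: resampling one far weight turns a window event into an error event. -/
lemma window_le {A : Set ℝ} (hA : MeasurableSet A) {b : ℝ} {c x T : ℝ≥0∞}
    (hshift : ShiftHyp S Hi A b c) (hHi : MeasurableSet Hi) (hxT : T < x + c) {M L : ℕ}
    (hML : M ≤ L) (k : S.Seg L) (F : Finset ι) {U : Set (F → ℝ)} (hU : MeasurableSet U)
    (hdisj : Disjoint (S.Z L k) F) :
    μ A * iidLaw ι μ (Hi ∩ {t | x ≤ vDesc S L k t ∧ vDesc S L k t ≤ T} ∩ cylinder F U ∩
        heavy S b L k) ≤
      4 * iidLaw ι μ (Hi ∩ S.E L k ∩ (two S M ∪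
        (cylinder F U ∩ {t | T < vDesc S M (S.res M L k) t}))) := by
  classical
  set P := iidLaw ι μ
  set X := Hi ∩ {t | x ≤ vDesc S L k t ∧ vDesc S L k t ≤ T} ∩ cylinder F U
  set Y := Hi ∩ S.E L k ∩ (two S M ∪ (cylinder F U ∩ {t | T < vDesc S M (S.res M L k) t}))
  have hYm : MeasurableSet Y := (hHi.inter (S.meas_E L k)).inter ((measurableSet_two S M).union
    ((MeasurableSet.cylinder F hU).inter
      (measurableSet_lt measurable_const (measurable_vDesc S M _))))
  have hXm : MeasurableSet X := (hHi.inter ((measurableSet_le measurable_const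
    (measurable_vDesc S L k)).inter (measurableSet_le (measurable_vDesc S L k) measurable_const))).inter
    (.cylinder F hU)
  have hone : ∀ f ∈ S.Z L k, μ A * P (X ∩ {t | b < t f}) ≤ P Y := by
    intro f hf
    have hB : P {ξ | ξ f ∈ A} = μ A := by
      show Measure.infinitePi _ ((fun ξ : ι → ℝ => ξ f) ⁻¹' A) = μ A
      rw [← Measure.map_apply (measurable_pi_apply f) hA, Measure.infinitePi_map_eval]
    rw [← hB, mul_comm]
    refine finite_energy μ {f} hYm fun t ht ξ hξ => ?_
    obtain ⟨⟨⟨ht1, hx, hT⟩, hcyl⟩, hb⟩ := ht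
    have he : resample {f} (t, ξ) = resample {f} (t, fun _ => ξ f) := by
      funext i
      by_cases hi : i = f <;> simp [resample, hi]
    rw [he]
    obtain ⟨h1, h2⟩ := shift_step hshift hxT hML hf ht1 hx hT hb hξ
    refine ⟨h1, h2.imp_right fun h => ⟨?_, h⟩⟩
    have hrestr : F.restrict (resample {f} (t, fun _ => ξ f)) = F.restrict t := by
      funext i
      have : (i : ι) ≠ f := fun h => Finset.disjoint_left.1 hdisj hf (h ▸ i.2)
      simp [resample, Finset.restrict, this]
    simpa [cylinder, hrestr] using hcyl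
  rcases Nat.eq_zero_or_pos (S.Z L k).card with h0 | h0
  · have : X ∩ heavy S b L k = ∅ := by
      refine Set.eq_empty_of_forall_notMem fun t ht => ?_
      have h1 := Finset.card_le_card (Finset.filter_subset (fun f => b < t f) (S.Z L k))
      have := ht.2.1
      omega
    simp [this]
  have hm := hXm.inter (measurableSet_heavy S b L k)
  have hsum : ((S.Z L k).card : ℝ≥0∞) * P (X ∩ heavy S b L k) ≤
      4 * ∑ f ∈ S.Z L k, P (X ∩ {t | b < t f}) := by
    have hmf : ∀ f, MeasurableSet {t : ι → ℝ | b < t f} := fun f =>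
      measurableSet_lt measurable_const (measurable_pi_apply f)
    calc ((S.Z L k).card : ℝ≥0∞) * P (X ∩ heavy S b L k)
        = ∫⁻ _t in X ∩ heavy S b L k, ((S.Z L k).card : ℝ≥0∞) ∂P := (setLIntegral_const _ _).symm
      _ ≤ ∫⁻ t in X ∩ heavy S b L k, 4 * ∑ f ∈ S.Z L k, {t | b < t f}.indicator 1 t ∂P := by
          refine setLIntegral_mono
            ((Finset.measurable_sum _ fun f _ => measurable_one.indicator (hmf f)).const_mul _)
            fun t ht => ?_
          have hcnt : ∑ f ∈ S.Z L k, ({t : ι → ℝ | b < t f}).indicator (1 : (ι → ℝ) → ℝ≥0∞) t =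
              (((S.Z L k).filter fun f => b < t f).card : ℝ≥0∞) := by
            simp [Set.indicator_apply, Finset.sum_boole]
          rw [hcnt]
          exact_mod_cast ht.2.2
      _ ≤ _ := by
          rw [lintegral_const_mul _
              (Finset.measurable_sum _ fun f _ => measurable_one.indicator (hmf f)),
            lintegral_finsetSum _ fun f _ => measurable_one.indicator (hmf f)]
          refine mul_le_mul_right (Finset.sum_le_sum fun f _ => ?_) _
          rw [lintegral_indicator_one (hmf f), Measure.restrict_apply (hmf f)]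
          exact measure_mono fun t ⟨h1, h2⟩ => ⟨h2.1, h1⟩
  have hkey : ((S.Z L k).card : ℝ≥0∞) * (μ A * P (X ∩ heavy S b L k)) ≤
      ((S.Z L k).card : ℝ≥0∞) * (4 * P Y) := by
    calc ((S.Z L k).card : ℝ≥0∞) * (μ A * P (X ∩ heavy S b L k))
        = μ A * (((S.Z L k).card : ℝ≥0∞) * P (X ∩ heavy S b L k)) := mul_left_comm _ _ _
      _ ≤ μ A * (4 * ∑ f ∈ S.Z L k, P (X ∩ {t | b < t f})) := mul_le_mul_right hsum _
      _ = 4 * ∑ f ∈ S.Z L k, μ A * P (X ∩ {t | b < t f}) := by
          rw [← Finset.mul_sum, mul_left_comm]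
      _ ≤ 4 * ∑ _f ∈ S.Z L k, P Y := mul_le_mul_right (Finset.sum_le_sum hone) _
      _ = ((S.Z L k).card : ℝ≥0∞) * (4 * P Y) := by
          rw [Finset.sum_const, nsmul_eq_mul, mul_left_comm]
  exact (ENNReal.mul_le_mul_iff_right (by simp [h0.ne']) (by simp)).1 hkey

variable (S Hi)

/-- The weighting of errors: the number of segments at the finest scale, plus one, on `Hi`. -/
def errMeasure : Measure (ι → ℝ) :=
  (iidLaw ι μ).withDensity (Hi.indicator fun t => 1 + ⨆ R, (num S R t : ℝ≥0∞))

lemma measurable_iSup_num : Measurable fun t => ⨆ R, (num S R t : ℝ≥0∞) :=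
  Measurable.iSup (measurable_num S)

lemma errMeasure_apply (hHi : MeasurableSet Hi) {Y : Set (ι → ℝ)} (hY : MeasurableSet Y) :
    errMeasure S μ Hi Y = ∫⁻ t in Hi ∩ Y, 1 + ⨆ R, (num S R t : ℝ≥0∞) ∂iidLaw ι μ := by
  rw [errMeasure, withDensity_apply _ hY, lintegral_indicator hHi, Measure.restrict_restrict hHi]

lemma measure_le_errMeasure (hHi : MeasurableSet Hi) {Y : Set (ι → ℝ)} (hY : MeasurableSet Y) :
    iidLaw ι μ (Hi ∩ Y) ≤ errMeasure S μ Hi Y := by
  rw [errMeasure_apply S μ Hi hHi hY]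
  calc iidLaw ι μ (Hi ∩ Y) = ∫⁻ _t in Hi ∩ Y, 1 ∂iidLaw ι μ := by simp
    _ ≤ _ := lintegral_mono fun t => le_self_add

lemma sum_le_errMeasure (hHi : MeasurableSet Hi) {Y : Set (ι → ℝ)} (hY : MeasurableSet Y)
    (L : ℕ) : ∑ k, iidLaw ι μ (Hi ∩ S.E L k ∩ Y) ≤ errMeasure S μ Hi Y := by
  rw [errMeasure_apply S μ Hi hHi hY]
  calc ∑ k, iidLaw ι μ (Hi ∩ S.E L k ∩ Y)
      = ∫⁻ t in Hi ∩ Y, ∑ k, (S.E L k).indicator 1 t ∂iidLaw ι μ := by
        rw [lintegral_finsetSum _ fun k _ => measurable_one.indicator (S.meas_E L k)]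
        refine Finset.sum_congr rfl fun k _ => ?_
        rw [lintegral_indicator_one (S.meas_E L k), Measure.restrict_apply (S.meas_E L k),
          Set.inter_comm (S.E L k), Set.inter_right_comm]
    _ ≤ _ := lintegral_mono fun t => by
        rw [← num_eq_sum]
        exact (le_iSup (fun R => (num S R t : ℝ≥0∞)) L).trans le_add_self

variable {μ}

/-- **Tail shift.** Almost surely on `Hi` the limiting margin is infinite. -/
theorem vAll_eq_top {A : Set ℝ} (hA : MeasurableSet A) (hA0 : μ A ≠ 0) {b : ℝ} {c : ℝ≥0∞}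
    (hc0 : c ≠ 0) (hc : c ≠ ⊤) (hHi : MeasurableSet Hi) (hshift : ShiftHyp S Hi A b c)
    (hheavy : Tendsto (fun L => iidLaw ι μ (Hi ∩ ⋃ k, (S.E L k \ heavy S b L k))) atTop (𝓝 0))
    {C : ℝ≥0∞} (hC : C ≠ ⊤) (hnum : ∀ R, ∫⁻ t in Hi, num S R t ∂iidLaw ι μ ≤ C) :
    iidLaw ι μ (Hi ∩ {t | vAll S t < ⊤}) = 0 := by
  classical
  set P := iidLaw ι μ
  set ν := errMeasure S μ Hi
  have hNm := measurable_iSup_num S
  have hNint : ∫⁻ t in Hi, ⨆ R, (num S R t : ℝ≥0∞) ∂P ≤ C := by
    rw [lintegral_iSup (measurable_num S) fun m n h t => by exact_mod_cast num_mono S h t]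
    exact iSup_le hnum
  have : IsFiniteMeasure ν := ⟨by
    rw [errMeasure_apply S μ Hi hHi .univ, Set.inter_univ, lintegral_add_left measurable_const,
      setLIntegral_const, one_mul]
    exact ENNReal.add_lt_top.2 ⟨measure_lt_top _ _, hNint.trans_lt hC.lt_top⟩⟩
  -- splitting is rare
  have htwo : Tendsto (fun M => ν (two S M)) atTop (𝓝 0) := by
    have h0 : ν (⋂ M, two S M) = 0 := by
      rw [errMeasure_apply S μ Hi hHi (.iInter fun M => measurableSet_two S M)]
      refine setLIntegral_measure_zero _ _ (measure_mono_null (t := Hi ∩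
        {t | (⨆ R, (num S R t : ℝ≥0∞)) = ⊤}) (Set.inter_subset_inter_right _ fun t ht => ?_) ?_)
      · by_contra hfin
        obtain ⟨B, hB⟩ := ENNReal.exists_nat_gt (show (⨆ R, (num S R t : ℝ≥0∞)) ≠ ⊤ from hfin)
        have hbdd : BddAbove (Set.range fun R => num S R t) := ⟨B, by
          rintro _ ⟨R, rfl⟩
          exact Nat.cast_le.1 ((le_iSup (fun R => (num S R t : ℝ≥0∞)) R).trans hB.le)⟩
        obtain ⟨M, hM⟩ := Nat.sSup_mem (Set.range_nonempty _) hbdd
        obtain ⟨R, -, hlt⟩ := Set.mem_iInter.1 ht M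
        exact absurd (le_csSup hbdd ⟨R, rfl⟩) (by rw [← hM]; exact not_le.2 hlt)
      · have h := ae_lt_top (μ := P.restrict Hi) hNm (ne_top_of_le_ne_top hC hNint)
        rw [ae_iff, Measure.restrict_apply' hHi] at h
        simpa [Set.inter_comm, lt_top_iff_ne_top] using h
    rw [← h0]
    exact tendsto_measure_iInter_atTop (fun M => (measurableSet_two S M).nullMeasurableSet)
      (two_antitone S) ⟨0, measure_ne_top _ _⟩
  set d := c / 2
  have hd : d < c := ENNReal.half_lt_self hc0 hc
  suffices hwin : ∀ n : ℕ, P (Hi ∩ {t | n * d ≤ vAll S t ∧ vAll S t ≤ n * d + d}) = 0 by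
    refine measure_mono_null (fun t ⟨ht, hfin⟩ => ?_) (measure_iUnion_null hwin)
    have hd0 : d ≠ 0 := by simp [d, hc0]
    obtain ⟨N, hN⟩ := ENNReal.exists_nat_mul_gt hd0 (ne_of_lt hfin)
    have hex : ∃ n : ℕ, vAll S t ≤ n * d + d := ⟨N, hN.le.trans le_self_add⟩
    refine Set.mem_iUnion.2 ⟨Nat.find hex, ht, ?_, Nat.find_spec hex⟩
    rcases Nat.eq_zero_or_pos (Nat.find hex) with h | h
    · simp [h]
    · obtain ⟨m, hm⟩ := Nat.exists_eq_succ_of_ne_zero h.ne'
      have := not_le.1 (Nat.find_min hex (show m < Nat.find hex by omega))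
      rw [hm, Nat.cast_succ, add_mul, one_mul]
      exact this.le
  intro n
  set x := (n : ℝ≥0∞) * d
  set T := x + d
  have hxtop : x ≠ ⊤ := ENNReal.mul_ne_top (by simp) (ne_top_of_lt hd)
  have hxT : T < x + c := ENNReal.add_lt_add_left hxtop hd
  have hTtop : T < ⊤ := hxT.trans_le le_top
  set W := Hi ∩ {t | x ≤ vAll S t ∧ vAll S t ≤ T}
  suffices hmain : ∀ ε : ℝ≥0∞, 0 < ε → μ A * P W ≤ 20 * ε by
    have h0 : μ A * P W ≤ 0 := by
      refine ENNReal.le_of_forall_pos_le_add fun ε hε _ => ?_
      have := hmain (ε / 20) (ENNReal.div_pos (by exact_mod_cast hε.ne') (by simp))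
      rw [ENNReal.mul_div_cancel (by simp) (by simp)] at this
      simpa using this
    simpa [hA0] using h0
  intro ε hε
  obtain ⟨M, hM⟩ := (htwo.eventually_le_const hε).exists
  -- cylinder approximations of the events at scale `M`
  set η := ε / ((Fintype.card (S.Seg M) : ℕ) + 1 : ℝ≥0∞)
  have hη : 0 < η := ENNReal.div_pos hε.ne' (by simp)
  have happ : ∀ p : S.Seg M, ∃ (F : Finset ι) (U : Set (F → ℝ)), MeasurableSet U ∧
      ν (cylinder F U ∆ {t | vDesc S M p t ≤ T}) < η := fun p => by
    obtain ⟨Y, hY, hlt⟩ := exists_measure_symmDiff_lt_of_generateFrom_isSetRing (μ := ν)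
      isSetRing_measurableCylinders ⟨{Set.univ}, Set.countable_singleton _,
        Set.singleton_subset_iff.2 (univ_mem_measurableCylinders _), by simp⟩
      generateFrom_measurableCylinders.symm
      (measurableSet_le (measurable_vDesc S M p) measurable_const : MeasurableSet
        {t | vDesc S M p t ≤ T}) hη
    obtain ⟨F, U, hU, rfl⟩ := (mem_measurableCylinders _).1 hY
    exact ⟨F, U, hU, hlt⟩
  choose F U hU hFU using happ
  set Err := ⋃ p, (cylinder (F p) (U p) ∆ {t | vDesc S M p t ≤ T})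
  have hErrm : MeasurableSet Err := .iUnion fun p =>
    (MeasurableSet.cylinder _ (hU p)).symmDiff
      (measurableSet_le (measurable_vDesc S M p) measurable_const)
  have hErr : ν Err ≤ ε := by
    refine (measure_iUnion_fintype_le _ _).trans ((Finset.sum_le_sum fun p _ => (hFU p).le).trans ?_)
    rw [Finset.sum_const, nsmul_eq_mul, Finset.card_univ]
    calc (Fintype.card (S.Seg M) : ℝ≥0∞) * η
        ≤ ((Fintype.card (S.Seg M) : ℕ) + 1 : ℝ≥0∞) * η := mul_le_mul_left le_self_add _
      _ ≤ ε := ENNReal.mul_div_le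
  obtain ⟨L, hLM, hLfar, hLheavy⟩ := ((eventually_ge_atTop M).and
    ((S.far (Finset.univ.biUnion F)).and (hheavy.eventually_le_const hε))).exists
  set X := fun k => Hi ∩ {t | x ≤ vDesc S L k t ∧ vDesc S L k t ≤ T} ∩
    cylinder (F (S.res M L k)) (U (S.res M L k)) ∩ heavy S b L k
  have hsub : W ⊆ (⋃ k, X k) ∪ (Hi ∩ ⋃ k, (S.E L k \ heavy S b L k)) ∪ (Hi ∩ Err) := by
    rintro t ⟨ht, hx, hT⟩
    obtain ⟨k, hk⟩ := exists_vDesc_le S L (lt_of_le_of_lt hT hTtop)
    have hkT : vDesc S L k t ≤ T := hk.trans hT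
    by_cases hh : t ∈ heavy S b L k
    · by_cases hcyl : t ∈ cylinder (F (S.res M L k)) (U (S.res M L k))
      · exact .inl (.inl (Set.mem_iUnion.2
          ⟨k, ⟨⟨ht, hx.trans (vAll_le_vDesc S L k t), hkT⟩, hcyl⟩, hh⟩))
      · exact .inr ⟨ht, Set.mem_iUnion.2
          ⟨S.res M L k, .inr ⟨(vDesc_res_le S hLM k t).trans hkT, hcyl⟩⟩⟩
    · exact .inl (.inr ⟨ht, Set.mem_iUnion.2
        ⟨k, mem_E_of_vDesc_lt S (lt_of_le_of_lt hkT hTtop), hh⟩⟩)
  have hXle : ∀ k, μ A * P (X k) ≤ 4 * P (Hi ∩ S.E L k ∩ (two S M ∪ Err)) := fun k => by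
    have hdisj : Disjoint (S.Z L k) (F (S.res M L k)) :=
      (hLfar k).mono_right (Finset.subset_biUnion_of_mem F (Finset.mem_univ _))
    refine (window_le μ hA hshift hHi hxT hLM k _ (hU _) hdisj).trans ?_
    refine mul_le_mul_right (measure_mono (Set.inter_subset_inter_right _
      (Set.union_subset_union_right _ fun t ht => Set.mem_iUnion.2
        ⟨S.res M L k, .inl ⟨ht.1, ?_⟩⟩))) _
    exact not_le.2 (show T < vDesc S M (S.res M L k) t from ht.2)
  have hν : ν (two S M ∪ Err) ≤ ε + ε := (measure_union_le _ _).trans (add_le_add hM hErr)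
  calc μ A * P W
      ≤ μ A * ((∑ k, P (X k)) + P (Hi ∩ ⋃ k, (S.E L k \ heavy S b L k)) + P (Hi ∩ Err)) := by
        refine mul_le_mul_right ((measure_mono hsub).trans ((measure_union_le _ _).trans
          (add_le_add ((measure_union_le _ _).trans
            (add_le_add (measure_iUnion_fintype_le _ _) le_rfl)) le_rfl))) _
    _ ≤ (∑ k, μ A * P (X k)) + ε + ε := by
        rw [mul_add, mul_add, Finset.mul_sum]
        refine add_le_add (add_le_add le_rfl ?_) ?_
        · exact (mul_le_of_le_one_left' prob_le_one).trans hLheavy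
        · exact (mul_le_of_le_one_left' prob_le_one).trans
            ((measure_le_errMeasure S μ Hi hHi hErrm).trans hErr)
    _ ≤ 4 * (ε + ε) + ε + ε := by
        refine add_le_add (add_le_add ((Finset.sum_le_sum fun k _ => hXle k).trans ?_) le_rfl) le_rfl
        rw [← Finset.mul_sum]
        exact mul_le_mul_right
          ((sum_le_errMeasure S μ Hi hHi ((measurableSet_two S M).union hErrm) L).trans hν) _
    _ = 10 * ε := by ring
    _ ≤ 20 * ε := mul_le_mul_left (by norm_num) _

open scoped Classical in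
/-- **Module C.** With a bounded budget, almost surely some scale has no segment. -/
theorem measure_all_present_eq_zero {A : Set ℝ} (hA : MeasurableSet A) (hA0 : μ A ≠ 0) {b : ℝ}
    {c : ℝ≥0∞} (hc0 : c ≠ 0) (hc : c ≠ ⊤) (hHi : MeasurableSet Hi)
    (hshift : ShiftHyp S Hi A b c)
    (hheavy : Tendsto (fun L => iidLaw ι μ (Hi ∩ ⋃ k, (S.E L k \ heavy S b L k))) atTop (𝓝 0))
    {C : ℝ≥0∞} (hC : C ≠ ⊤) (hnum : ∀ R, ∫⁻ t in Hi, num S R t ∂iidLaw ι μ ≤ C)
    (hbudget : ∀ (R : ℕ) (m : ℕ),
      ∫⁻ t in Hi, ∑ q, (S.E R q).indicator (fun t => min (S.D R q t) m) t ∂iidLaw ι μ ≤ C) :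
    iidLaw ι μ (Hi ∩ {t | ∀ R, ∃ q, t ∈ S.E R q}) = 0 := by
  set P := iidLaw ι μ
  set G := Hi ∩ {t | ∀ R, ∃ q, t ∈ S.E R q} ∩ {t | vAll S t = ⊤}
  suffices hG : P G = 0 by
    refine measure_mono_null (t := G ∪ (Hi ∩ {t | vAll S t < ⊤})) (fun t ht => ?_)
      (measure_union_null hG (vAll_eq_top S Hi hA hA0 hc0 hc hHi hshift hheavy hC hnum))
    rcases eq_or_lt_of_le (le_top : vAll S t ≤ ⊤) with h | h
    · exact .inl ⟨ht, h⟩
    · exact .inr ⟨ht.1, h⟩
  have key : ∀ m : ℕ, (m : ℝ≥0∞) * P G ≤ C := by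
    intro m
    set f := fun R t => ∑ q, (S.E R q).indicator (fun t => min (S.D R q t) (m : ℝ≥0∞)) t
    have hfm : ∀ R, Measurable (f R) := fun R =>
      Finset.measurable_sum _ fun q _ => ((S.meas_D R q).min measurable_const).indicator (S.meas_E R q)
    calc (m : ℝ≥0∞) * P G ≤ (m : ℝ≥0∞) * (P.restrict Hi) G := by
          refine mul_le_mul_right ?_ _
          rw [Measure.restrict_apply' hHi]
          exact measure_mono fun t ht => ⟨ht, ht.1.1⟩
      _ ≤ (m : ℝ≥0∞) * (P.restrict Hi) {t | (m : ℝ≥0∞) ≤ liminf (fun R => f R t) atTop} := by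
          refine mul_le_mul_right (measure_mono fun t ht => ?_) _
          obtain ⟨⟨-, hne⟩, htop⟩ := ht
          refine le_liminf_of_le (u := fun R => f R t) (by isBoundedDefault) ?_
          have htop' : (m : ℝ≥0∞) < vAll S t := by
            rw [htop]
            exact ENNReal.natCast_lt_top m
          filter_upwards [eventually_lt_of_lt_liminf htop'] with R hR
          obtain ⟨q, hq⟩ := hne R
          refine le_trans ?_ (Finset.single_le_sum (fun _ _ => zero_le) (Finset.mem_univ q))
          rw [Set.indicator_of_mem hq]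
          refine le_min (hR.le.trans ?_) le_rfl
          refine iInf_le_of_le q ?_
          rw [if_pos hq]
      _ ≤ ∫⁻ t in Hi, liminf (fun R => f R t) atTop ∂P :=
          mul_meas_ge_le_lintegral (Measurable.liminf hfm) _
      _ ≤ C := (lintegral_liminf_le hfm).trans
          (liminf_le_of_frequently_le' (Frequently.of_forall fun R => hbudget R m))
  by_contra h
  obtain ⟨m, hm⟩ := ENNReal.exists_nat_mul_gt h hC
  exact absurd (key m) (not_le.2 hm)

end

end Vale.P158.TailShift
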