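import Mathlib

/-!
# P158: clusters of crossings along a path

A path is seen through the side, relative to each of several lines, at each arclength. Crossings of
a line are grouped in maximal runs with gaps at most `ρ`; a run with an odd number of crossings
marks its first crossing (its head).
-/

namespace Vale.P158.Cluster

open Finset

/-- The crossings of a side sequence before `N`. -/
def crossings (s : ℕ → Bool) (N : ℕ) : Finset ℕ := (range N).filter fun i => s i ≠ s (i + 1)

theorem mem_crossings {s : ℕ → Bool} {N i : ℕ} :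
    i ∈ crossings s N ↔ i < N ∧ s i ≠ s (i + 1) := by simp [crossings]

theorem odd_card_crossings (s : ℕ → Bool) {N a b : ℕ} (hab : a ≤ b) (hb : b ≤ N) :
    Odd ((crossings s N).filter fun k => a ≤ k ∧ k < b).card ↔ s a ≠ s b := by
  induction b, hab using Nat.le_induction with
  | base =>
    rw [filter_false_of_mem fun k _ h => absurd (lt_of_le_of_lt h.1 h.2) (lt_irrefl _)]
    simp
  | succ b hab ih =>
    have ih' := ih (by omega)
    by_cases hc : b ∈ crossings s N
    · have : ((crossings s N).filter fun k => a ≤ k ∧ k < b + 1) =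
          insert b ((crossings s N).filter fun k => a ≤ k ∧ k < b) := by grind
      rw [this, card_insert_of_notMem (by simp), Nat.odd_add_one, ih']
      have := (mem_crossings.1 hc).2
      revert this
      cases s a <;> cases s b <;> cases s (b + 1) <;> simp
    · have : ((crossings s N).filter fun k => a ≤ k ∧ k < b + 1) =
          ((crossings s N).filter fun k => a ≤ k ∧ k < b) := by grind
      rw [this, ih']
      have : s b = s (b + 1) := by
        by_contra h
        exact hc (mem_crossings.2 ⟨by omega, h⟩)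
      rw [this]

/-- The first element of a maximal run with gaps at most `ρ`. -/
def IsHead (ρ : ℕ) (K : Finset ℕ) (h : ℕ) : Prop := h ∈ K ∧ ∀ j ∈ K, j < h → j + ρ < h

instance (ρ : ℕ) (K : Finset ℕ) (h : ℕ) : Decidable (IsHead ρ K h) :=
  inferInstanceAs (Decidable (_ ∧ _))

/-- The run starting at `h`. -/
def cluster (ρ : ℕ) (K : Finset ℕ) (h : ℕ) : Finset ℕ :=
  K.filter fun k => h ≤ k ∧ ∀ j ∈ K, h < j → j ≤ k → ¬IsHead ρ K j

/-- Heads of runs of odd cardinality. -/
def marked (ρ : ℕ) (K : Finset ℕ) : Finset ℕ :=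
  K.filter fun h => IsHead ρ K h ∧ Odd (cluster ρ K h).card

/-- Marked crossings with another marked crossing at distance at most `n`. -/
def partnered (ρ n : ℕ) (K : Finset ℕ) : Finset ℕ :=
  (marked ρ K).filter fun h => ∃ j ∈ marked ρ K, j ≠ h ∧ j ≤ h + n ∧ h ≤ j + n

/-- No gap of length at most `ρ` contains `a`. -/
def Split (ρ : ℕ) (K : Finset ℕ) (a : ℕ) : Prop := ∀ j ∈ K, ∀ k ∈ K, j < a → a ≤ k → j + ρ < k

variable {ρ n : ℕ} {K : Finset ℕ}

theorem mem_marked {h : ℕ} :
    h ∈ marked ρ K ↔ IsHead ρ K h ∧ Odd (cluster ρ K h).card := by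
  simp only [marked, mem_filter]
  exact ⟨fun h => h.2, fun h => ⟨h.1.1, h⟩⟩

theorem marked_subset : marked ρ K ⊆ K := filter_subset _ _

theorem IsHead.mono (hρn : ρ ≤ n) {h : ℕ} (hh : IsHead n K h) : IsHead ρ K h :=
  ⟨hh.1, fun j hj hjh => lt_of_le_of_lt (by omega) (hh.2 j hj hjh)⟩

/-- The head of the run of `k`. -/
theorem exists_head (ρ : ℕ) {k : ℕ} (hk : k ∈ K) :
    ∃ h, IsHead ρ K h ∧ k ∈ cluster ρ K h := by
  have hne : (K.filter fun h => IsHead ρ K h ∧ h ≤ k).Nonempty := by
    have hKne : K.Nonempty := ⟨k, hk⟩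
    refine ⟨K.min' hKne, mem_filter.2 ⟨K.min'_mem _, ⟨K.min'_mem _, fun j hj hlt => ?_⟩, K.min'_le k hk⟩⟩
    exact absurd (K.min'_le j hj) (not_le.2 hlt)
  obtain ⟨h1, h2, h3⟩ := mem_filter.1 ((K.filter fun h => IsHead ρ K h ∧ h ≤ k).max'_mem hne)
  refine ⟨_, h2, mem_filter.2 ⟨hk, h3, fun j hj hlt hjk hjh => ?_⟩⟩
  exact absurd ((K.filter fun h => IsHead ρ K h ∧ h ≤ k).le_max' j
    (mem_filter.2 ⟨hj, hjh, hjk⟩)) (not_le.2 hlt)

theorem head_unique {h h' k : ℕ} (hh : IsHead ρ K h) (hh' : IsHead ρ K h')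
    (hk : k ∈ cluster ρ K h) (hk' : k ∈ cluster ρ K h') : h = h' := by
  simp only [cluster, mem_filter] at hk hk'
  rcases lt_trichotomy h h' with hlt | rfl | hlt
  · exact absurd hh' (hk.2.2 h' hh'.1 hlt hk'.2.1)
  · rfl
  · exact absurd hh (hk'.2.2 h hh.1 hlt hk.2.1)

theorem mem_cluster_self {h : ℕ} (hh : IsHead ρ K h) : h ∈ cluster ρ K h :=
  mem_filter.2 ⟨hh.1, le_rfl, fun j _ h1 h2 => absurd h1 (by omega)⟩

/-- A set closed under runs has the parity of the marked crossings it contains. -/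
theorem odd_card_of_closed {A : Finset ℕ} (hA : A ⊆ K)
    (hcl : ∀ h, IsHead ρ K h → ∀ k ∈ cluster ρ K h, (k ∈ A ↔ h ∈ A)) :
    Odd ((marked ρ K).filter (· ∈ A)).card ↔ Odd A.card := by
  have hsum : A.card = ∑ h ∈ A.filter (IsHead ρ K), (cluster ρ K h).card := by
    rw [← card_biUnion]
    · refine congrArg card (ext fun k => ?_)
      simp only [mem_biUnion, mem_filter]
      refine ⟨fun hk => ?_, fun ⟨h, ⟨hhA, hh⟩, hk⟩ => (hcl h hh k hk).2 hhA⟩
      obtain ⟨h, hh, hkh⟩ := exists_head ρ (hA hk)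
      exact ⟨h, ⟨(hcl h hh k hkh).1 hk, hh⟩, hkh⟩
    · intro h hh h' hh' hne
      refine disjoint_left.2 fun k hk hk' => hne ?_
      simp only [mem_coe, mem_filter] at hh hh'
      exact head_unique hh.2 hh'.2 hk hk'
  have : (marked ρ K).filter (· ∈ A) =
      (A.filter (IsHead ρ K)).filter fun h => Odd (cluster ρ K h).card := by
    ext h
    simp only [mem_filter, mem_marked]
    tauto
  rw [this, hsum, odd_sum_iff_odd_card_odd]

theorem odd_card_marked : Odd (marked ρ K).card ↔ Odd K.card := by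
  have h := odd_card_of_closed (ρ := ρ) (K := K) (A := K) (Subset.refl K)
    (fun h hh k hk => ⟨fun _ => hh.1, fun _ => (mem_filter.1 hk).1⟩)
  rwa [filter_true_of_mem fun x hx => marked_subset hx] at h

/-- The first element after a split is a head, so runs do not cross a split. -/
theorem cluster_split {a h k : ℕ} (hs : Split ρ K a)
    (hk : k ∈ cluster ρ K h) : a ≤ k ↔ a ≤ h := by
  simp only [cluster, mem_filter] at hk
  refine ⟨fun hak => ?_, fun hah => hah.trans hk.2.1⟩
  by_contra hlt
  rw [not_le] at hlt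
  have hne : (K.filter (a ≤ ·)).Nonempty := ⟨k, mem_filter.2 ⟨hk.1, hak⟩⟩
  obtain ⟨h1, h2⟩ := mem_filter.1 ((K.filter (a ≤ ·)).min'_mem hne)
  refine hk.2.2 _ h1 (hlt.trans_le h2)
    ((K.filter (a ≤ ·)).min'_le k (mem_filter.2 ⟨hk.1, hak⟩)) ⟨h1, fun j hj hjlt => ?_⟩
  refine hs j hj _ h1 ?_ h2
  by_contra hja
  exact absurd ((K.filter (a ≤ ·)).min'_le j (mem_filter.2 ⟨hj, not_lt.1 hja⟩)) (not_le.2 hjlt)

/-- Between two splits the marked crossings count the crossings modulo two. -/
theorem odd_card_marked_between {a b : ℕ} (ha : Split ρ K a) (hb : Split ρ K b) :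
    Odd ((marked ρ K).filter fun h => a ≤ h ∧ h < b).card ↔
      Odd (K.filter fun k => a ≤ k ∧ k < b).card := by
  rw [← odd_card_of_closed (ρ := ρ) (filter_subset (fun k => a ≤ k ∧ k < b) K) fun h hh k hk => ?_]
  · refine Iff.of_eq (congrArg (fun A : Finset ℕ => Odd A.card) (ext fun x => ?_))
    simp only [mem_filter]
    exact ⟨fun h => ⟨h.1, marked_subset h.1, h.2⟩, fun h => ⟨h.1, h.2.2⟩⟩
  · have h1 := cluster_split ha hk
    have h2 := cluster_split hb hk
    simp only [mem_filter, (mem_filter.1 hk).1, hh.1, true_and]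
    omega

/-- Coarser runs are unions of finer ones. -/
theorem cluster_subset (hρn : ρ ≤ n) {H h k : ℕ} (hh : IsHead ρ K h) (hk : k ∈ cluster ρ K h)
    (hH : IsHead n K H) : k ∈ cluster n K H ↔ h ∈ cluster n K H := by
  obtain ⟨H', hH', hk'⟩ := exists_head n (mem_filter.1 hk).1
  have hh' : h ∈ cluster n K H' := by
    simp only [cluster, mem_filter] at hk hk' ⊢
    refine ⟨hh.1, ?_, fun j hj h1 h2 => hk'.2.2 j hj h1 (h2.trans hk.2.1)⟩
    by_contra hlt
    exact hk.2.2 H' hH'.1 (not_le.1 hlt) hk'.2.1 (hH'.mono hρn)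
  exact ⟨fun h1 => head_unique hH' hH hk' h1 ▸ hh',
    fun h1 => head_unique hH' hH hh' h1 ▸ hk'⟩

theorem cluster_near {H h j : ℕ} (hh : h ∈ cluster n K H) (hj : j ∈ K) (hhj : h ≤ j)
    (hjn : j ≤ h + n) : j ∈ cluster n K H := by
  simp only [cluster, mem_filter] at hh ⊢
  refine ⟨hj, hh.2.1.trans hhj, fun i hi h1 h2 hih => ?_⟩
  by_cases hih' : i ≤ h
  · exact hh.2.2 i hi h1 hih' hih
  · have := hih.2 h hh.1 (by omega)
    omega

/-- Inside one `n`-run: partnered `ρ`-crossings are charged to the loss from `ρ` to `n`. -/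
theorem partnered_cluster_le (hρn : ρ ≤ n) {H : ℕ} (hH : IsHead n K H) :
    ((partnered ρ n K).filter (· ∈ cluster n K H)).card + 2 * (if H ∈ marked n K then 1 else 0) ≤
      2 * ((marked ρ K).filter (· ∈ cluster n K H)).card := by
  set A := (marked ρ K).filter (· ∈ cluster n K H) with hA
  set P := (partnered ρ n K).filter (· ∈ cluster n K H) with hP
  have hPA : P ⊆ A := filter_subset_filter _ (filter_subset _ _)
  have hPc : P.card ≤ A.card := card_le_card hPA
  have hodd : Odd A.card ↔ Odd (cluster n K H).card :=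
    odd_card_of_closed (filter_subset _ _) fun h hh k hk => cluster_subset hρn hh hk hH
  split_ifs with hm
  · have h1 : Odd A.card := hodd.2 (mem_marked.1 hm).2
    by_cases hP0 : P = ∅
    · rw [hP0, card_empty]
      have := h1.pos
      omega
    · obtain ⟨h, hh⟩ := nonempty_iff_ne_empty.2 hP0
      simp only [hP, partnered, mem_filter] at hh
      obtain ⟨⟨hhm, j, hj, hjh, hj1, hj2⟩, hhc⟩ := hh
      have hjc : j ∈ cluster n K H := by
        rcases le_total h j with hle | hle
        · exact cluster_near hhc (marked_subset hj) hle hj1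
        · obtain ⟨H', hH', hj'⟩ := exists_head n (marked_subset hj)
          have := cluster_near hj' (marked_subset hhm) hle hj2
          rwa [head_unique hH hH' hhc this]
      have : 1 < A.card :=
        one_lt_card.2 ⟨j, mem_filter.2 ⟨hj, hjc⟩, h, mem_filter.2 ⟨hhm, hhc⟩, hjh⟩
      omega
  · omega

/-- Summed over the runs. -/
theorem card_partnered_le (hρn : ρ ≤ n) :
    (partnered ρ n K).card + 2 * (marked n K).card ≤ 2 * (marked ρ K).card := by
  have split : ∀ A ⊆ K, A.card = ∑ H ∈ K.filter (IsHead n K), (A.filter (· ∈ cluster n K H)).card := by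
    intro A hA
    rw [← card_biUnion]
    · refine congrArg card (ext fun k => ?_)
      simp only [mem_biUnion, mem_filter]
      refine ⟨fun hk => ?_, fun ⟨_, _, hk, _⟩ => hk⟩
      obtain ⟨H, hH, hk'⟩ := exists_head n (hA hk)
      exact ⟨H, ⟨hH.1, hH⟩, hk, hk'⟩
    · intro h hh h' hh' hne
      refine disjoint_left.2 fun k hk hk' => hne ?_
      simp only [mem_coe, mem_filter] at hh hh' hk hk'
      exact head_unique hh.2 hh'.2 hk.2 hk'.2
  have hm : (marked n K).card = ∑ H ∈ K.filter (IsHead n K), if H ∈ marked n K then 1 else 0 := by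
    rw [← sum_filter, sum_const, smul_eq_mul, mul_one]
    refine congrArg card (ext fun H => ?_)
    simp only [mem_filter, mem_marked]
    exact ⟨fun h => ⟨⟨h.1.1, h.1⟩, h⟩, fun h => h.2⟩
  rw [split (partnered ρ n K) ((filter_subset _ _).trans marked_subset),
    split (marked ρ K) marked_subset, hm, mul_sum, mul_sum, ← sum_add_distrib]
  exact sum_le_sum fun H hH => partnered_cluster_le hρn (mem_filter.1 hH).2

theorem card_marked_anti (hρn : ρ ≤ n) : (marked n K).card ≤ (marked ρ K).card := by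
  have := card_partnered_le (K := K) hρn
  omega

/-! ### Several lines -/

/-- No crossing within `ρ` of `a`. -/
theorem split_of_const {s : ℕ → Bool} {N a : ℕ}
    (hc : ∀ i, a ≤ i + ρ → i ≤ a + ρ + 1 → s i = true) : Split ρ (crossings s N) a := by
  intro j hj k hk hja hak
  by_contra hle
  exact (mem_crossings.1 hk).2 (by rw [hc k (by omega) (by omega), hc (k + 1) (by omega) (by omega)])

variable {ι : Type*}

/-- The head of an odd run of line `l`, away from the other lines. -/
def StrictHead (ρ N : ℕ) (s : ι → ℕ → Bool) (x : ι × ℕ) : Prop :=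
  x.2 ∈ marked ρ (crossings (s x.1) N) ∧
    ∀ l, l ≠ x.1 → ∀ i, x.2 ≤ i + ρ → i ≤ x.2 + ρ + 1 → s l i = true

/-- A strict head between two others has a partner on its own line between them. -/
theorem exists_partner {N : ℕ} {s : ι → ℕ → Bool} {x y z : ι × ℕ} (hx : StrictHead ρ N s x)
    (hy : StrictHead ρ N s y) (hz : StrictHead ρ N s z) (hxy : x.2 < y.2) (hyz : y.2 < z.2) :
    ∃ j ∈ marked ρ (crossings (s y.1) N), j ≠ y.2 ∧ x.2 ≤ j ∧ j ≤ z.2 := by
  by_cases h1 : y.1 = x.1
  · exact ⟨x.2, h1 ▸ hx.1, hxy.ne, le_rfl, (hxy.trans hyz).le⟩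
  by_cases h2 : y.1 = z.1
  · exact ⟨z.2, h2 ▸ hz.1, hyz.ne', (hxy.trans hyz).le, le_rfl⟩
  have ha := hx.2 y.1 h1
  have hb := hz.2 y.1 h2
  have hzN : z.2 ≤ N := (mem_crossings.1 (marked_subset hz.1)).1.le
  have heven : ¬Odd ((marked ρ (crossings (s y.1) N)).filter
      fun h => x.2 ≤ h ∧ h < z.2).card := by
    rw [odd_card_marked_between (split_of_const ha) (split_of_const hb),
      odd_card_crossings _ (hxy.trans hyz).le hzN, ha x.2 (by omega) (by omega),
      hb z.2 (by omega) (by omega)]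
    simp
  by_contra hno
  push Not at hno
  refine heven ?_
  rw [show ((marked ρ (crossings (s y.1) N)).filter fun h => x.2 ≤ h ∧ h < z.2) = {y.2} by
    ext j
    simp only [mem_filter, mem_singleton]
    refine ⟨fun ⟨hj, h3, h4⟩ => ?_, fun h => h ▸ ⟨hy.1, hxy.le, hyz⟩⟩
    by_contra hne
    exact absurd (hno j hj hne h3) (by omega)]
  simp

theorem strictHead_time_inj {N : ℕ} {s : ι → ℕ → Bool} {x y : ι × ℕ} (hx : StrictHead ρ N s x)
    (hy : StrictHead ρ N s y) (h : x.2 = y.2) : x = y := by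
  refine Prod.ext ?_ h
  by_contra hne
  have hc := (mem_crossings.1 (marked_subset hy.1)).2
  have := hx.2 y.1 (fun e => hne e.symm)
  exact hc (by rw [this y.2 (by omega) (by omega), this (y.2 + 1) (by omega) (by omega)])

/-- At most two strict heads in a time window have no odd partner within that window. -/
theorem card_strict_le {N D : ℕ} {s : ι → ℕ → Bool} [DecidableEq ι] (S : Finset (ι × ℕ))
    (hS : ∀ x ∈ S, StrictHead ρ N s x) (hD : ∀ x ∈ S, ∀ y ∈ S, x.2 ≤ y.2 + D) :
    S.card ≤ 2 + (S.filter fun x => x.2 ∈ partnered ρ D (crossings (s x.1) N)).card := by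
  rcases S.eq_empty_or_nonempty with rfl | hne
  · simp
  obtain ⟨x, hx, hmin⟩ := S.exists_min_image (·.2) hne
  obtain ⟨z, hz, hmax⟩ := S.exists_max_image (·.2) hne
  refine le_trans (le_trans (card_le_card (t := {x, z} ∪ S.filter fun x =>
    x.2 ∈ partnered ρ D (crossings (s x.1) N)) fun y hy => ?_) (card_union_le _ _)) ?_
  · by_cases hxy : y.2 = x.2
    · simp [strictHead_time_inj (hS y hy) (hS x hx) hxy]
    by_cases hzy : y.2 = z.2
    · simp [strictHead_time_inj (hS y hy) (hS z hz) hzy]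
    obtain ⟨j, hj, hjy, h1, h2⟩ := exists_partner (hS x hx) (hS y hy) (hS z hz)
      (lt_of_le_of_ne (hmin y hy) (Ne.symm hxy)) (lt_of_le_of_ne (hmax y hy) hzy)
    refine mem_union_right _ (mem_filter.2 ⟨hy, mem_filter.2 ⟨(hS y hy).1, j, hj, hjy, ?_, ?_⟩⟩)
    · have := hD z hz y hy; omega
    · have := hD y hy x hx; omega
  · have := card_le_two (a := x) (b := z); omega

/-- A deep visit is preceded by a marked head next to the inner side of every other line. -/
theorem exists_marked_before [Fintype ι] {N m : ℕ} {s : ι → ℕ → Bool} (hmN : m ≤ N)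
    (hm : ∀ l i, m ≤ i + ρ → i ≤ m + ρ + 1 → s l i = true) (h0 : ∃ l, s l 0 = false) :
    ∃ l, ∃ h ∈ marked ρ (crossings (s l) N), h < m ∧
      ∀ l', ∃ i, h ≤ i + ρ ∧ i ≤ h + ρ + 1 ∧ s l' i = true := by
  classical
  set S := (univ : Finset ι).sigma fun l => (marked ρ (crossings (s l) N)).filter (· < m) with hS
  have hSne : S.Nonempty := by
    obtain ⟨l, hl⟩ := h0
    have hodd : Odd ((marked ρ (crossings (s l) N)).filter fun h => 0 ≤ h ∧ h < m).card := by
      rw [odd_card_marked_between (fun j _ k _ h _ => absurd h (by omega)) (split_of_const (hm l)),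
        odd_card_crossings _ (Nat.zero_le _) hmN, hl, hm l m (by omega) (by omega)]
      simp
    obtain ⟨h, hh⟩ := card_pos.1 hodd.pos
    refine ⟨⟨l, h⟩, ?_⟩
    simp only [hS, mem_sigma, mem_univ, true_and, mem_filter] at hh ⊢
    exact ⟨hh.1, hh.2.2⟩
  obtain ⟨⟨l, h⟩, hlh, hmax⟩ := S.exists_max_image (·.2) hSne
  simp only [hS, mem_sigma, mem_univ, true_and, mem_filter] at hlh hmax
  refine ⟨l, h, hlh.1, hlh.2, fun l' => ?_⟩
  by_contra hno
  push Not at hno
  have hf : ∀ i, h ≤ i + ρ → i ≤ h + ρ + 1 → s l' i = false := fun i h1 h2 => by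
    simpa using hno i h1 h2
  have hsplit : Split ρ (crossings (s l') N) h := by
    intro j hj k hk hja hak
    by_contra hle
    exact (mem_crossings.1 hk).2 (by rw [hf k (by omega) (by omega), hf (k + 1) (by omega) (by omega)])
  have hodd : Odd ((marked ρ (crossings (s l') N)).filter fun j => h ≤ j ∧ j < m).card := by
    rw [odd_card_marked_between hsplit (split_of_const (hm l')),
      odd_card_crossings _ hlh.2.le hmN, hf h (by omega) (by omega), hm l' m (by omega) (by omega)]
    simp
  obtain ⟨j, hj⟩ := card_pos.1 hodd.pos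
  simp only [mem_filter] at hj
  have hjh : j = h := le_antisymm (hmax ⟨l', j⟩ ⟨hj.1, hj.2.2⟩) hj.2.1
  subst hjh
  exact (mem_crossings.1 (marked_subset hj.1)).2
    (by rw [hf j (by omega) (by omega), hf (j + 1) (by omega) (by omega)])

/-- A deep visit is followed by a marked head next to the inner side of every other line. -/
theorem exists_marked_after [Fintype ι] {N m : ℕ} {s : ι → ℕ → Bool} (hmN : m ≤ N)
    (hm : ∀ l i, m ≤ i + ρ → i ≤ m + ρ + 1 → s l i = true) (hN : ∃ l, s l N = false) :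
    ∃ l, ∃ h ∈ marked ρ (crossings (s l) N), m ≤ h ∧
      ∀ l', ∃ i, h ≤ i + ρ ∧ i ≤ h + ρ + 1 ∧ s l' i = true := by
  classical
  set S := (univ : Finset ι).sigma fun l => (marked ρ (crossings (s l) N)).filter (m ≤ ·) with hS
  have hSne : S.Nonempty := by
    obtain ⟨l, hl⟩ := hN
    have hodd : Odd ((marked ρ (crossings (s l) N)).filter fun h => m ≤ h ∧ h < N).card := by
      rw [odd_card_marked_between (split_of_const (hm l))
          (fun j _ k hk _ h => absurd (mem_crossings.1 hk).1 (by omega)),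
        odd_card_crossings _ hmN le_rfl, hl, hm l m (by omega) (by omega)]
      simp
    obtain ⟨h, hh⟩ := card_pos.1 hodd.pos
    refine ⟨⟨l, h⟩, ?_⟩
    simp only [hS, mem_sigma, mem_univ, true_and, mem_filter] at hh ⊢
    exact ⟨hh.1, hh.2.1⟩
  obtain ⟨⟨l, h⟩, hlh, hmin⟩ := S.exists_min_image (·.2) hSne
  simp only [hS, mem_sigma, mem_univ, true_and, mem_filter] at hlh hmin
  refine ⟨l, h, hlh.1, hlh.2, fun l' => ?_⟩
  by_contra hno
  push Not at hno
  have hf : ∀ i, h ≤ i + ρ → i ≤ h + ρ + 1 → s l' i = false := fun i h1 h2 => by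
    simpa using hno i h1 h2
  have hsplit : Split ρ (crossings (s l') N) h := by
    intro j hj k hk hja hak
    by_contra hle
    exact (mem_crossings.1 hk).2 (by rw [hf k (by omega) (by omega), hf (k + 1) (by omega) (by omega)])
  have hhN : h ≤ N := (mem_crossings.1 (marked_subset hlh.1)).1.le
  have hodd : Odd ((marked ρ (crossings (s l') N)).filter fun j => m ≤ j ∧ j < h).card := by
    rw [odd_card_marked_between (split_of_const (hm l')) hsplit,
      odd_card_crossings _ hlh.2 hhN, hf h (by omega) (by omega), hm l' m (by omega) (by omega)]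
    simp
  obtain ⟨j, hj⟩ := card_pos.1 hodd.pos
  simp only [mem_filter] at hj
  exact absurd (hmin ⟨l', j⟩ ⟨hj.1, hj.2.1⟩) (not_le.2 hj.2.2)

end Vale.P158.Cluster
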