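import Vale.Agent.P158.Monge

/-!
# P158: the budget per component of the margins

`h k` is the margin of a centre `k`: `T` and `T + h k` are Monge. Restricting `h k` to a set of
pairs which is closed under adjacency inside the support of `h k` keeps the Monge property, so
each component pays for its largest margin with the cells it touches.
-/

namespace Vale.P158

open Finset

noncomputable section

/-- The pairs `p`, `q` are neighbours. -/
def Adj4 (p q : ℕ × ℕ) : Prop :=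
  (p.1 = q.1 ∧ (q.2 = p.2 + 1 ∨ p.2 = q.2 + 1)) ∨
    (p.2 = q.2 ∧ (q.1 = p.1 + 1 ∨ p.1 = q.1 + 1))

/-- `S` is a union of components of the support of `h`. -/
def ClosedIn (h : ℕ → ℕ → ℝ) (S : Set (ℕ × ℕ)) : Prop :=
  ∀ p ∈ S, h p.1 p.2 ≠ 0 → ∀ q, Adj4 p q → h q.1 q.2 ≠ 0 → q ∈ S

open scoped Classical in
/-- `h` restricted to `S`. -/
def cut (h : ℕ → ℕ → ℝ) (S : Set (ℕ × ℕ)) (i j : ℕ) : ℝ := if (i, j) ∈ S then h i j else 0

lemma cut_of_mem {h : ℕ → ℕ → ℝ} {S : Set (ℕ × ℕ)} {i j : ℕ} (hp : (i, j) ∈ S) :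
    cut h S i j = h i j := if_pos hp

lemma cut_nonneg {h : ℕ → ℕ → ℝ} (hh : ∀ i j, 0 ≤ h i j) (S : Set (ℕ × ℕ)) (i j : ℕ) :
    0 ≤ cut h S i j := by
  unfold cut
  split_ifs
  exacts [hh i j, le_rfl]

lemma cut_le {h : ℕ → ℕ → ℝ} (hh : ∀ i j, 0 ≤ h i j) (S : Set (ℕ × ℕ)) (i j : ℕ) :
    cut h S i j ≤ h i j := by
  unfold cut
  split_ifs
  exacts [le_rfl, hh i j]

lemma cut_ne_zero {h : ℕ → ℕ → ℝ} {S : Set (ℕ × ℕ)} {i j : ℕ} (hne : cut h S i j ≠ 0) :
    (i, j) ∈ S ∧ h i j ≠ 0 := by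
  unfold cut at hne
  split_ifs at hne with hp
  exacts [⟨hp, hne⟩, absurd rfl hne]

/-- Restricting the margins to a closed set keeps the mixed differences nonnegative. -/
theorem mixed_cut_nonneg {T h : ℕ → ℕ → ℝ} {S : Set (ℕ × ℕ)} (hh : ∀ i j, 0 ≤ h i j)
    (hS : ClosedIn h S) {c : ℕ × ℕ} (hT : 0 ≤ mixed T c)
    (hA : 0 ≤ mixed (fun i j => T i j + h i j) c) :
    0 ≤ mixed (fun i j => T i j + cut h S i j) c := by
  classical
  obtain ⟨i, j⟩ := c
  have key : ∀ a b a' b', Adj4 (a, b) (a', b') →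
      h a b = 0 ∨ h a' b' = 0 ∨ ((a, b) ∈ S ↔ (a', b') ∈ S) := fun a b a' b' hadj => by
    by_cases h1 : h a b = 0
    · exact Or.inl h1
    by_cases h2 : h a' b' = 0
    · exact Or.inr (Or.inl h2)
    refine Or.inr (Or.inr ⟨fun hp => hS _ hp h1 _ hadj h2, fun hq => hS _ hq h2 _ ?_ h1⟩)
    simp only [Adj4] at hadj ⊢
    omega
  have k1 := key i j i (j + 1) (Or.inl ⟨rfl, Or.inl rfl⟩)
  have k2 := key i j (i + 1) j (Or.inr ⟨rfl, Or.inl rfl⟩)
  have k3 := key (i + 1) (j + 1) (i + 1) j (Or.inl ⟨rfl, Or.inr rfl⟩)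
  have k4 := key (i + 1) (j + 1) i (j + 1) (Or.inr ⟨rfl, Or.inr rfl⟩)
  have n1 := hh i j
  have n2 := hh (i + 1) (j + 1)
  have n3 := hh i (j + 1)
  have n4 := hh (i + 1) j
  simp only [mixed, cut] at hT hA ⊢
  by_cases p1 : (i, j) ∈ S <;> by_cases p2 : (i + 1, j + 1) ∈ S <;>
    by_cases p3 : (i, j + 1) ∈ S <;> by_cases p4 : (i + 1, j) ∈ S <;>
    simp [p1, p2, p3, p4] at k1 k2 k3 k4 ⊢ <;>
    rcases k1 with k1 | k1 <;> rcases k2 with k2 | k2 <;> rcases k3 with k3 | k3 <;>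
    rcases k4 with k4 | k4 <;> linarith

/-- The budget where only the cells of `W` are charged. -/
theorem budget_sum_on {Z : Type*} (s : Finset Z) (T : ℕ → ℕ → ℝ) (A : Z → ℕ → ℕ → ℝ)
    (W : Finset (ℕ × ℕ)) (a b : Z → ℕ) {n m : ℕ} (hT : ∀ i, T i i = 0)
    (hA : ∀ z, ∀ i, A z i i = 0) (hab : ∀ z ∈ s, a z ≤ b z ∧ b z ≤ n)
    (hMT : ∀ c ∈ cells 0 n, 0 ≤ mixed T c) (hW : W ⊆ cells 0 n)
    (hMA : ∀ z ∈ s, ∀ c ∈ cells (a z) (b z), 0 ≤ mixed (A z) c)
    (hoff : ∀ z ∈ s, charged (fun i j => A z i j - T i j) (a z) (b z) ⊆ W)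
    (hm : ∀ c ∈ W,
      (s.filter fun z => c ∈ charged (fun i j => A z i j - T i j) (a z) (b z)).card ≤ m) :
    ∑ z ∈ s, (A z (a z) (b z) - T (a z) (b z)
        - ∑ i ∈ Ico (a z) (b z), (A z i (i + 1) - T i (i + 1))) ≤
      m * ∑ c ∈ W, mixed T c := by
  classical
  calc _ ≤ ∑ z ∈ s, ∑ c ∈ charged (fun i j => A z i j - T i j) (a z) (b z), mixed T c :=
        sum_le_sum fun z hz => by
          linarith [budget T (A z) hT (hA z) (hab z hz).1 (hMA z hz)]
    _ = ∑ z ∈ s, ∑ c ∈ W,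
          if c ∈ charged (fun i j => A z i j - T i j) (a z) (b z) then mixed T c else 0 :=
        sum_congr rfl fun z hz => by
          rw [← sum_filter, filter_mem_eq_inter, inter_eq_right.2 (hoff z hz)]
    _ = ∑ c ∈ W,
          ((s.filter fun z => c ∈ charged (fun i j => A z i j - T i j) (a z) (b z)).card : ℝ)
            * mixed T c := by
        rw [sum_comm]
        exact sum_congr rfl fun c _ => by rw [← sum_filter, sum_const, nsmul_eq_mul]
    _ ≤ ∑ c ∈ W, (m : ℝ) * mixed T c := sum_le_sum fun c hc =>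
        mul_le_mul_of_nonneg_right (Nat.cast_le.2 (hm c hc)) (hMT c (hW hc))
    _ = _ := by rw [← mul_sum]

open scoped Classical in
/-- The budget of all components of all centres. `S z` is a union of components of the margins of
the centre `ctr z`, containing the pair `(a z, b z)`; a cell has corners in the support of at most
`m` centres. -/
theorem components_budget {K Z : Type*} (s : Finset Z) (ctr : Z → K) (T : ℕ → ℕ → ℝ)
    (h : K → ℕ → ℕ → ℝ) (S : Z → Set (ℕ × ℕ)) (W : Finset (ℕ × ℕ)) (a b : Z → ℕ)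
    {n m : ℕ} (hT : ∀ i, T i i = 0) (hW : W ⊆ cells 0 n) (hh : ∀ k i j, 0 ≤ h k i j)
    (hdiag : ∀ k i, h k i i = 0) (hMT : ∀ c ∈ cells 0 n, 0 ≤ mixed T c)
    (hMA : ∀ z ∈ s, ∀ c ∈ cells 0 n, 0 ≤ mixed (fun i j => T i j + h (ctr z) i j) c)
    (hS : ∀ z ∈ s, ClosedIn (h (ctr z)) (S z))
    (hdisj : ∀ z ∈ s, ∀ z' ∈ s, ctr z = ctr z' → z ≠ z' → ∀ p ∈ S z, p ∈ S z' →
      h (ctr z) p.1 p.2 = 0)
    (hab : ∀ z ∈ s, a z ≤ b z ∧ b z ≤ n) (hmem : ∀ z ∈ s, (a z, b z) ∈ S z)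
    (hoff : ∀ z ∈ s, ∀ c ∈ cells 0 n, c ∉ W →
      h (ctr z) c.1 c.2 = 0 ∧ h (ctr z) (c.1 + 1) (c.2 + 1) = 0 ∧
        h (ctr z) c.1 (c.2 + 1) = 0 ∧ h (ctr z) (c.1 + 1) c.2 = 0)
    (hm : ∀ c ∈ W, ((s.image ctr).filter fun k =>
      h k c.1 c.2 ≠ 0 ∨ h k (c.1 + 1) (c.2 + 1) ≠ 0 ∨ h k c.1 (c.2 + 1) ≠ 0 ∨
        h k (c.1 + 1) c.2 ≠ 0).card ≤ m) :
    ∑ z ∈ s, h (ctr z) (a z) (b z) ≤ (4 * m : ℕ) * (∑ c ∈ W, mixed T c) +
      ∑ k ∈ s.image ctr, ∑ i ∈ Ico 0 n, h k i (i + 1) := by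
  set g : Z → ℕ → ℕ → ℝ := fun z => cut (h (ctr z)) (S z) with hg
  have e : ∀ z, (fun i j => T i j + g z i j - T i j) = g z := fun z => by
    funext i j
    ring
  have hcell : ∀ z ∈ s, ∀ c ∈ cells (a z) (b z), c ∈ cells 0 n := fun z hz c hc => by
    simp only [cells, mem_filter, mem_product, mem_Ico] at hc ⊢
    have := hab z hz
    omega
  have hm' : ∀ c ∈ W, (s.filter fun z =>
      c ∈ charged (fun i j => T i j + g z i j - T i j) (a z) (b z)).card ≤ 4 * m := by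
    intro c hc
    set K' := (s.image ctr).filter fun k =>
      h k c.1 c.2 ≠ 0 ∨ h k (c.1 + 1) (c.2 + 1) ≠ 0 ∨ h k c.1 (c.2 + 1) ≠ 0 ∨
        h k (c.1 + 1) c.2 ≠ 0
    set Q : Finset (ℕ × ℕ) :=
      {(c.1, c.2), (c.1 + 1, c.2 + 1), (c.1, c.2 + 1), (c.1 + 1, c.2)}
    set A := s.filter fun z => c ∈ charged (fun i j => T i j + g z i j - T i j) (a z) (b z)
    have hcorner : ∀ z ∈ A, ∃ q ∈ Q, g z q.1 q.2 ≠ 0 := fun z hz => by
      have hz' := (mem_filter.1 hz).2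
      rw [e] at hz'
      rcases (mem_filter.1 hz').2 with h' | h' | h' | h'
      · exact ⟨(c.1, c.2), by simp [Q], h'⟩
      · exact ⟨(c.1 + 1, c.2 + 1), by simp [Q], h'⟩
      · exact ⟨(c.1, c.2 + 1), by simp [Q], h'⟩
      · exact ⟨(c.1 + 1, c.2), by simp [Q], h'⟩
    choose! q hqQ hq using hcorner
    calc A.card ≤ (K' ×ˢ Q).card := by
          refine card_le_card_of_injOn (fun z => (ctr z, q z)) (fun z hz => ?_) fun z hz z' hz' he => ?_
          · obtain ⟨-, hne⟩ := cut_ne_zero (hq z hz)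
            simp only [coe_product, Set.mem_prod, mem_coe]
            refine ⟨mem_filter.2 ⟨mem_image_of_mem ctr (mem_filter.1 hz).1, ?_⟩, hqQ z hz⟩
            have := hqQ z hz
            simp only [Q, mem_insert, mem_singleton] at this
            rcases this with h' | h' | h' | h' <;> rw [h'] at hne
            exacts [Or.inl hne, Or.inr (Or.inl hne), Or.inr (Or.inr (Or.inl hne)),
              Or.inr (Or.inr (Or.inr hne))]
          · simp only [Prod.mk.injEq] at he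
            by_contra hne
            obtain ⟨h1, h1'⟩ := cut_ne_zero (hq z hz)
            obtain ⟨h3, -⟩ := cut_ne_zero (hq z' hz')
            rw [← he.2] at h3
            exact h1' (hdisj z (mem_filter.1 hz).1 z' (mem_filter.1 hz').1 he.1 hne _ h1 h3)
      _ = K'.card * Q.card := card_product _ _
      _ ≤ m * 4 := Nat.mul_le_mul (hm c hc) card_le_four
      _ = 4 * m := mul_comm _ _
  have main := budget_sum_on s T (fun z i j => T i j + g z i j) W a b (n := n) (m := 4 * m) hT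
    (fun z i => by
      have := cut_le (hh (ctr z)) (S z) i i
      have := cut_nonneg (hh (ctr z)) (S z) i i
      simp only [hg, hT, hdiag] at *
      linarith) hab hMT hW
    (fun z hz c hc => mixed_cut_nonneg (hh _) (hS z hz) (hMT c (hcell z hz c hc))
      (hMA z hz c (hcell z hz c hc))) (fun z hz c hc => ?_) ?_
  rotate_left
  · rw [e] at hc
    obtain ⟨hc1, hc2⟩ := mem_filter.1 hc
    by_contra hcW
    obtain ⟨o1, o2, o3, o4⟩ := hoff z hz c (hcell z hz c hc1) hcW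
    rcases hc2 with h' | h' | h' | h' <;> obtain ⟨-, hne⟩ := cut_ne_zero h'
    exacts [hne o1, hne o2, hne o3, hne o4]
  · exact hm'
  · have h2 : ∑ z ∈ s, ∑ i ∈ Ico (a z) (b z), g z i (i + 1) ≤
        ∑ k ∈ s.image ctr, ∑ i ∈ Ico 0 n, h k i (i + 1) := by
      rw [← sum_fiberwise_of_maps_to (g := ctr) (fun z hz => mem_image_of_mem ctr hz)]
      refine sum_le_sum fun k _ => ?_
      calc ∑ z ∈ s.filter (fun z => ctr z = k), ∑ i ∈ Ico (a z) (b z), g z i (i + 1)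
          ≤ ∑ z ∈ s.filter (fun z => ctr z = k), ∑ i ∈ Ico 0 n, g z i (i + 1) :=
            sum_le_sum fun z hz => sum_le_sum_of_subset_of_nonneg
              (Ico_subset_Ico (Nat.zero_le _) (hab z (mem_filter.1 hz).1).2)
              fun i _ _ => cut_nonneg (hh _) _ _ _
        _ = ∑ i ∈ Ico 0 n, ∑ z ∈ s.filter (fun z => ctr z = k), g z i (i + 1) := sum_comm
        _ ≤ ∑ i ∈ Ico 0 n, h k i (i + 1) := sum_le_sum fun i _ => by
          by_cases hex : ∃ z ∈ s.filter (fun z => ctr z = k), g z i (i + 1) ≠ 0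
          · obtain ⟨z, hz, hne⟩ := hex
            rw [sum_eq_single z (fun z' hz' hne' => ?_) fun h' => absurd hz h']
            · refine (cut_le (hh _) _ _ _).trans_eq ?_
              rw [(mem_filter.1 hz).2]
            · by_contra h'
              obtain ⟨h1, h1'⟩ := cut_ne_zero hne
              obtain ⟨h3, -⟩ := cut_ne_zero h'
              exact h1' (hdisj z (mem_filter.1 hz).1 z' (mem_filter.1 hz').1
                ((mem_filter.1 hz).2.trans (mem_filter.1 hz').2.symm) (Ne.symm hne') _ h1 h3)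
          · push Not at hex
            rw [sum_eq_zero hex]
            exact hh _ _ _
    have h1 : ∀ z ∈ s, (T (a z) (b z) + g z (a z) (b z)) - T (a z) (b z)
        - ∑ i ∈ Ico (a z) (b z), ((T i (i + 1) + g z i (i + 1)) - T i (i + 1)) =
          h (ctr z) (a z) (b z) - ∑ i ∈ Ico (a z) (b z), g z i (i + 1) := fun z hz => by
      simp only [add_sub_cancel_left, hg, cut_of_mem (hmem z hz)]
    rw [sum_congr rfl h1, sum_sub_distrib] at main
    linarith

end

end Vale.P158
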