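import Mathlib

/-!
Two lattice walks in a rectangle with alternating endpoints on the boundary share a vertex.
The proof is a discrete winding argument.
-/

namespace Vale.Agent.P158.Crossing

open Finset

/-- Nearest neighbours in the square lattice. -/
def Adj (u v : ℤ × ℤ) : Prop := |u.1 - v.1| + |u.2 - v.2| = 1

/-- Sign as an element of `{0, 1, 2}`. -/
def sgn3 (x : ℤ) : Fin 3 := if x < 0 then 0 else if x = 0 then 1 else 2

/-- The eight directions. -/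
def dirS (a b : Fin 3) : ℤ :=
  if a = 2 then (if b = 2 then 1 else if b = 1 then 0 else 7)
  else if a = 1 then (if b = 2 then 2 else 6)
  else if b = 2 then 3 else if b = 1 then 4 else 5

/-- The direction of a nonzero vector. -/
def dir (v : ℤ × ℤ) : ℤ := dirS (sgn3 v.1) (sgn3 v.2)

/-- The rotation between two directions. -/
def turn (m n : ℤ) : ℤ := (n - m + 4) % 8 - 4

/-- The direction measured from the excluded direction `k`. -/
def branch (k : ℤ) (v : ℤ × ℤ) : ℤ := (dir v - k) % 8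

lemma sgn3_cases (x : ℤ) :
    (x < 0 ∧ sgn3 x = 0) ∨ (x = 0 ∧ sgn3 x = 1) ∨ (0 < x ∧ sgn3 x = 2) := by
  unfold sgn3
  rcases lt_trichotomy x 0 with h | h | h
  · exact Or.inl ⟨h, if_pos h⟩
  · exact Or.inr (Or.inl ⟨h, by rw [if_neg (by omega), if_pos h]⟩)
  · exact Or.inr (Or.inr ⟨h, by rw [if_neg (by omega), if_neg (by omega)]⟩)

lemma step_dir {u v : ℤ × ℤ} (hu : u ≠ 0) (hv : v ≠ 0) (h : Adj u v) :
    (-1 ≤ turn (dir u) (dir v) ∧ turn (dir u) (dir v) ≤ 1) ∧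
      ∀ k, k = 0 ∨ k = 2 ∨ k = 4 ∨ k = 6 → dir u ≠ k → dir v ≠ k →
        turn (dir u) (dir v) = branch k v - branch k u := by
  obtain ⟨a, b⟩ := u
  obtain ⟨c, d⟩ := v
  simp only [Adj] at h
  simp only [ne_eq, Prod.mk_eq_zero] at hu hv
  rcases sgn3_cases a with ⟨ha, ea⟩ | ⟨ha, ea⟩ | ⟨ha, ea⟩ <;>
    rcases sgn3_cases b with ⟨hb, eb⟩ | ⟨hb, eb⟩ | ⟨hb, eb⟩ <;>
    rcases sgn3_cases c with ⟨hc, ec⟩ | ⟨hc, ec⟩ | ⟨hc, ec⟩ <;>
    rcases sgn3_cases d with ⟨hd, ed⟩ | ⟨hd, ed⟩ | ⟨hd, ed⟩ <;>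
    simp only [branch, dir, ea, eb, ec, ed] <;>
    first
      | omega
      | (exfalso; cases abs_cases (a - c) <;> cases abs_cases (b - d) <;> omega)
      | (refine ⟨?_, fun k hk => ?_⟩
         · simp [turn, dirS]
         · rcases hk with rfl | rfl | rfl | rfl <;> simp [turn, dirS])

/-- A walk seen from a point which it does not visit, avoiding one direction, turns by the change
of direction. -/
lemma sum_turn (D : ℕ → ℤ × ℤ) (n : ℕ) (k : ℤ) (hk : k = 0 ∨ k = 2 ∨ k = 4 ∨ k = 6)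
    (h0 : ∀ i ≤ n, D i ≠ 0) (hs : ∀ i < n, Adj (D i) (D (i + 1)))
    (hav : ∀ i ≤ n, dir (D i) ≠ k) :
    ∑ i ∈ range n, turn (dir (D i)) (dir (D (i + 1))) = branch k (D n) - branch k (D 0) := by
  rw [← sum_range_sub (fun i => branch k (D i))]
  refine sum_congr rfl fun i hi => ?_
  have h := mem_range.1 hi
  exact (step_dir (h0 i h.le) (h0 (i + 1) h) (hs i h)).2 k hk (hav i h.le) (hav (i + 1) h)

/-- The turning along the boundary of the product of two disjoint walks is zero. -/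
lemma winding_zero (D : ℕ → ℕ → ℤ × ℤ) (m n : ℕ) (h0 : ∀ i ≤ m, ∀ j ≤ n, D i j ≠ 0)
    (hA : ∀ i < m, ∀ j ≤ n, Adj (D i j) (D (i + 1) j))
    (hB : ∀ i ≤ m, ∀ j < n, Adj (D i j) (D i (j + 1))) :
    ∑ j ∈ range n, turn (dir (D m j)) (dir (D m (j + 1))) -
        ∑ j ∈ range n, turn (dir (D 0 j)) (dir (D 0 (j + 1))) =
      ∑ i ∈ range m, turn (dir (D i n)) (dir (D (i + 1) n)) -
        ∑ i ∈ range m, turn (dir (D i 0)) (dir (D (i + 1) 0)) := by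
  set TA : ℕ → ℕ → ℤ := fun i j => turn (dir (D i j)) (dir (D (i + 1) j))
  set TB : ℕ → ℕ → ℤ := fun i j => turn (dir (D i j)) (dir (D i (j + 1)))
  have hsq : ∀ i ∈ range m, ∀ j ∈ range n,
      TB (i + 1) j - TB i j = TA i (j + 1) - TA i j := by
    intro i hi j hj
    rw [mem_range] at hi hj
    have d00 := h0 i hi.le j hj.le
    have d10 := h0 (i + 1) hi j hj.le
    have d01 := h0 i hi.le (j + 1) hj
    have d11 := h0 (i + 1) hi (j + 1) hj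
    have t1 := (step_dir d00 d10 (hA i hi j hj.le)).1
    have t2 := (step_dir d10 d11 (hB (i + 1) hi j hj)).1
    have t3 := (step_dir d00 d01 (hB i hi.le j hj)).1
    have t4 := (step_dir d01 d11 (hA i hi (j + 1) hj)).1
    simp only [TA, TB, turn] at t1 t2 t3 t4 ⊢
    omega
  have h1 : ∀ j, ∑ i ∈ range m, (TB (i + 1) j - TB i j) = TB m j - TB 0 j := fun j =>
    sum_range_sub (fun i => TB i j) m
  have h2 : ∀ i, ∑ j ∈ range n, (TA i (j + 1) - TA i j) = TA i n - TA i 0 := fun i =>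
    sum_range_sub (fun j => TA i j) n
  change ∑ j ∈ range n, TB m j - ∑ j ∈ range n, TB 0 j =
    ∑ i ∈ range m, TA i n - ∑ i ∈ range m, TA i 0
  rw [← sum_sub_distrib, ← sum_sub_distrib, ← sum_congr rfl fun j _ => h1 j, sum_comm,
    sum_congr rfl fun i hi => sum_congr rfl fun j hj => hsq i hi j hj]
  exact sum_congr rfl fun i _ => h2 i

/-- A rectangle. -/
structure Rect where
  x0 : ℤ
  x1 : ℤ
  y0 : ℤ
  y1 : ℤ
  hx : x0 < x1
  hy : y0 < y1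

/-- The points of the rectangle. -/
def Rect.Mem (B : Rect) (v : ℤ × ℤ) : Prop :=
  B.x0 ≤ v.1 ∧ v.1 ≤ B.x1 ∧ B.y0 ≤ v.2 ∧ v.2 ≤ B.y1

/-- Its boundary. -/
def Rect.Bdry (B : Rect) (v : ℤ × ℤ) : Prop :=
  B.Mem v ∧ (v.1 = B.x0 ∨ v.1 = B.x1 ∨ v.2 = B.y0 ∨ v.2 = B.y1)

/-- The position on the boundary, counterclockwise from the lower left corner. -/
def Rect.pos (B : Rect) (v : ℤ × ℤ) : ℤ :=
  if v.2 = B.y0 ∧ v.1 < B.x1 then v.1 - B.x0
  else if v.1 = B.x1 ∧ v.2 < B.y1 then (B.x1 - B.x0) + (v.2 - B.y0)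
  else if v.2 = B.y1 ∧ B.x0 < v.1 then (B.x1 - B.x0) + (B.y1 - B.y0) + (B.x1 - v.1)
  else 2 * (B.x1 - B.x0) + (B.y1 - B.y0) + (B.y1 - v.2)

/-- The direction from a point of side `s` into the outside; sides are bottom, right, top, left. -/
def outDir : Fin 4 → ℤ := ![6, 0, 2, 4]

/-- `v` lies on side `s`, with position `p`. -/
def Rect.OnSide (B : Rect) (v : ℤ × ℤ) (s : Fin 4) (p : ℤ) : Prop :=
  B.Mem v ∧
    ((s = 0 ∧ v.2 = B.y0 ∧ v.1 < B.x1 ∧ p = v.1 - B.x0) ∨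
      (s = 1 ∧ v.1 = B.x1 ∧ v.2 < B.y1 ∧ p = (B.x1 - B.x0) + (v.2 - B.y0)) ∨
      (s = 2 ∧ v.2 = B.y1 ∧ B.x0 < v.1 ∧
        p = (B.x1 - B.x0) + (B.y1 - B.y0) + (B.x1 - v.1)) ∨
      (s = 3 ∧ v.1 = B.x0 ∧ B.y0 < v.2 ∧
        p = 2 * (B.x1 - B.x0) + (B.y1 - B.y0) + (B.y1 - v.2)))

lemma exists_side {B : Rect} {v : ℤ × ℤ} (h : B.Bdry v) : ∃ s, B.OnSide v s (B.pos v) := by
  obtain ⟨⟨h1, h2, h3, h4⟩, h5⟩ := h
  have := B.hx
  have := B.hy
  unfold Rect.pos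
  split_ifs with a b c
  · exact ⟨0, ⟨h1, h2, h3, h4⟩, Or.inl ⟨rfl, a.1, a.2, rfl⟩⟩
  · exact ⟨1, ⟨h1, h2, h3, h4⟩, Or.inr (Or.inl ⟨rfl, b.1, b.2, rfl⟩)⟩
  · exact ⟨2, ⟨h1, h2, h3, h4⟩, Or.inr (Or.inr (Or.inl ⟨rfl, c.1, c.2, rfl⟩))⟩
  · refine ⟨3, ⟨h1, h2, h3, h4⟩, Or.inr (Or.inr (Or.inr ⟨rfl, ?_, ?_, rfl⟩))⟩ <;> omega

lemma dir_axis {v : ℤ × ℤ} (hv : v.1 ≠ 0 ∨ v.2 ≠ 0) :
    (dir v = 0 → 0 < v.1) ∧ (dir v = 2 → 0 < v.2) ∧ (dir v = 4 → v.1 < 0) ∧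
      (dir v = 6 → v.2 < 0) := by
  rcases sgn3_cases v.1 with ⟨_, e1⟩ | ⟨_, e1⟩ | ⟨_, e1⟩ <;>
    rcases sgn3_cases v.2 with ⟨_, e2⟩ | ⟨_, e2⟩ | ⟨_, e2⟩ <;>
    simp [dir, dirS, e1, e2] <;> omega

/-- Seen from a point of the boundary no point of the rectangle lies outwards. -/
lemma dir_from {B : Rect} {F X : ℤ × ℤ} {s : Fin 4} {p : ℤ} (hF : B.OnSide F s p)
    (hX : B.Mem X) (hne : X ≠ F) :
    dir (X - F) ≠ outDir s ∧ dir (F - X) ≠ (outDir s + 4) % 8 := by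
  obtain ⟨-, hs⟩ := hF
  obtain ⟨x1, x2, x3, x4⟩ := hX
  have hne' : X.1 ≠ F.1 ∨ X.2 ≠ F.2 := by
    by_contra h
    exact hne (Prod.ext (by omega) (by omega))
  obtain ⟨i0, i2, i4, i6⟩ := dir_axis (v := X - F)
    (by simp only [Prod.fst_sub, Prod.snd_sub]; omega)
  obtain ⟨j0, j2, j4, j6⟩ := dir_axis (v := F - X)
    (by simp only [Prod.fst_sub, Prod.snd_sub]; omega)
  simp only [Prod.fst_sub, Prod.snd_sub] at i0 i2 i4 i6 j0 j2 j4 j6
  rcases hs with ⟨rfl, h⟩ | ⟨rfl, h⟩ | ⟨rfl, h⟩ | ⟨rfl, h⟩ <;>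
    simp only [outDir, Matrix.cons_val] <;> constructor <;> intro hd <;>
    norm_num at hd <;> grind

/-- A chord measured from the outward directions at its two ends. -/
def chordVal (s t : Fin 4) (v : ℤ × ℤ) : ℤ :=
  branch (outDir s) v - branch ((outDir t + 4) % 8) v

/-- The chord between two boundary points only sees their sides. -/
lemma chord {B : Rect} {u v : ℤ × ℤ} {s t : Fin 4} {p q : ℤ} (hu : B.OnSide u s p)
    (hv : B.OnSide v t q) (hpq : p < q) :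
    chordVal s t (v - u) = 2 * ((t : ℕ) - (s : ℕ) : ℤ) - 4 ∧
      chordVal t s (u - v) = 4 - 2 * ((t : ℕ) - (s : ℕ) : ℤ) := by
  have := B.hx
  have := B.hy
  obtain ⟨⟨u1, u2, u3, u4⟩, hs⟩ := hu
  obtain ⟨⟨v1, v2, v3, v4⟩, ht⟩ := hv
  rcases hs with ⟨rfl, hs⟩ | ⟨rfl, hs⟩ | ⟨rfl, hs⟩ | ⟨rfl, hs⟩ <;>
    rcases ht with ⟨rfl, ht⟩ | ⟨rfl, ht⟩ | ⟨rfl, ht⟩ | ⟨rfl, ht⟩ <;>
    first
      | omega
      | (rcases sgn3_cases (v.1 - u.1) with ⟨_, e1⟩ | ⟨_, e1⟩ | ⟨_, e1⟩ <;>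
          rcases sgn3_cases (v.2 - u.2) with ⟨_, e2⟩ | ⟨_, e2⟩ | ⟨_, e2⟩ <;>
          rcases sgn3_cases (u.1 - v.1) with ⟨_, e3⟩ | ⟨_, e3⟩ | ⟨_, e3⟩ <;>
          rcases sgn3_cases (u.2 - v.2) with ⟨_, e4⟩ | ⟨_, e4⟩ | ⟨_, e4⟩ <;>
          first
            | omega
            | (simp [chordVal, branch, dir, dirS, outDir, e1, e2, e3, e4]))

/-- The four sides of the product of the walks make one full turn. -/
lemma branches_ne {B : Rect} {a b c d : ℤ × ℤ} {sa sb sc sd : Fin 4} {pa pb pc pd : ℤ}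
    (ha : B.OnSide a sa pa) (hb : B.OnSide b sb pb) (hc : B.OnSide c sc pc)
    (hd : B.OnSide d sd pd) (hab : pa < pb) (hbc : pb < pc) (hcd : pc < pd) :
    (branch (outDir sc) (d - c) - branch (outDir sc) (b - c)) -
        (branch (outDir sa) (d - a) - branch (outDir sa) (b - a)) ≠
      (branch ((outDir sd + 4) % 8) (d - c) - branch ((outDir sd + 4) % 8) (d - a)) -
        (branch ((outDir sb + 4) % 8) (b - c) - branch ((outDir sb + 4) % 8) (b - a)) := by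
  have h1 := (chord hc hd hcd).1
  have h2 := (chord hb hc hbc).2
  have h3 := (chord ha hd (by omega)).1
  have h4 := (chord ha hb hab).1
  simp only [chordVal] at h1 h2 h3 h4
  omega

/-- Two walks in a rectangle with alternating endpoints on its boundary share a vertex. -/
theorem walks_meet (B : Rect) (P Q : ℕ → ℤ × ℤ) (m n : ℕ)
    (hP : ∀ i ≤ m, B.Mem (P i)) (hQ : ∀ j ≤ n, B.Mem (Q j))
    (hPs : ∀ i < m, Adj (P i) (P (i + 1))) (hQs : ∀ j < n, Adj (Q j) (Q (j + 1)))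
    (hP0 : B.Bdry (P 0)) (hPm : B.Bdry (P m)) (hQ0 : B.Bdry (Q 0)) (hQn : B.Bdry (Q n))
    (h1 : B.pos (P 0) < B.pos (Q 0)) (h2 : B.pos (Q 0) < B.pos (P m))
    (h3 : B.pos (P m) < B.pos (Q n)) :
    ∃ i ≤ m, ∃ j ≤ n, P i = Q j := by
  by_contra hno
  push Not at hno
  obtain ⟨sa, ha⟩ := exists_side hP0
  obtain ⟨sc, hc⟩ := exists_side hPm
  obtain ⟨sb, hb⟩ := exists_side hQ0
  obtain ⟨sd, hd⟩ := exists_side hQn
  have hout : ∀ s : Fin 4, outDir s = 0 ∨ outDir s = 2 ∨ outDir s = 4 ∨ outDir s = 6 := by decide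
  have hin : ∀ s : Fin 4, (outDir s + 4) % 8 = 0 ∨ (outDir s + 4) % 8 = 2 ∨
      (outDir s + 4) % 8 = 4 ∨ (outDir s + 4) % 8 = 6 := by decide
  have h0 : ∀ i ≤ m, ∀ j ≤ n, Q j - P i ≠ 0 := fun i hi j hj h =>
    hno i hi j hj (sub_eq_zero.1 h).symm
  have hB : ∀ i ≤ m, ∀ j < n, Adj (Q j - P i) (Q (j + 1) - P i) := fun i _ j hj => by
    have := hQs j hj
    simpa [Adj] using this
  have hA : ∀ i < m, ∀ j ≤ n, Adj (Q j - P i) (Q j - P (i + 1)) := fun i hi j _ => by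
    have := hPs i hi
    simp only [Adj, Prod.fst_sub, Prod.snd_sub, sub_sub_sub_cancel_left] at this ⊢
    rw [abs_sub_comm (P i).1, abs_sub_comm (P i).2] at this
    exact this
  have hw := winding_zero (fun i j => Q j - P i) m n h0 hA hB
  rw [sum_turn (fun j => Q j - P m) n _ (hout sc) (fun j hj => h0 m le_rfl j hj)
      (fun j hj => hB m le_rfl j hj)
      (fun j hj => (dir_from hc (hQ j hj) (fun h => hno m le_rfl j hj h.symm)).1),
    sum_turn (fun j => Q j - P 0) n _ (hout sa) (fun j hj => h0 0 (Nat.zero_le _) j hj)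
      (fun j hj => hB 0 (Nat.zero_le _) j hj)
      (fun j hj => (dir_from ha (hQ j hj) (fun h => hno 0 (Nat.zero_le _) j hj h.symm)).1),
    sum_turn (fun i => Q n - P i) m _ (hin sd) (fun i hi => h0 i hi n le_rfl)
      (fun i hi => hA i hi n le_rfl)
      (fun i hi => (dir_from hd (hP i hi) (hno i hi n le_rfl)).2),
    sum_turn (fun i => Q 0 - P i) m _ (hin sb) (fun i hi => h0 i hi 0 (Nat.zero_le _))
      (fun i hi => hA i hi 0 (Nat.zero_le _))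
      (fun i hi => (dir_from hb (hP i hi) (hno i hi 0 (Nat.zero_le _))).2)] at hw
  exact branches_ne ha hb hc hd h1 h2 h3 hw

end Vale.Agent.P158.Crossing
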