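import Vale.Agent.P158.Translate
import Vale.Agent.P158.Peierls
import Vale.Agent.P158.Meas

/-!
# P158: shared definitions for the chain of `PROOF70.md`

Boxes `box z n`, branch vertices of a root, one edge events, segments of geodesics through an edge
and their margins.
-/

namespace Vale.P158

noncomputable section

open SimpleGraph MeasureTheory
open scoped ENNReal

open Vale.Agent.P158.Crossing (Rect)

/-- The square of radius `n + 1` around `z`. -/
def box (z : Z2) (n : ℕ) : Rect where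
  x0 := z.1 - (n + 1 : ℕ)
  x1 := z.1 + (n + 1 : ℕ)
  y0 := z.2 - (n + 1 : ℕ)
  y1 := z.2 + (n + 1 : ℕ)
  hx := by omega
  hy := by omega

/-- The middle of `box 0 n`. -/
def mid (n : ℕ) : Finset Z2 :=
  Finset.Icc (-((n / 4 : ℕ) : ℤ)) (n / 4 : ℕ) ×ˢ Finset.Icc (-((n / 4 : ℕ) : ℤ)) (n / 4 : ℕ)

/-- `v` is a branch vertex of the root `y` in `B`: the geodesics to `y` from two boundary points
first meet at the interior point `v`. -/
def Branch (t : Sym2 Z2 → ℝ) (B : Rect) (y v : Z2) : Prop :=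
  B.Bdry y ∧ B.Mem v ∧ ¬B.Bdry v ∧
    ∃ (x x' : Z2) (p : lattice.Walk x y) (p' : lattice.Walk x' y) (h : v ∈ p.support),
      B.Bdry x ∧ B.Bdry x' ∧ IsGeoU t {w | B.Mem w} p ∧ IsGeoU t {w | B.Mem w} p' ∧
        v ∈ p'.support ∧ ∀ w ∈ (p.takeUntil v h).support, w ∈ p'.support → w = v

/-- Some root has a branch vertex within distance `r` of `s`. -/
def BranchNear (B : Rect) (s : Z2) (r : ℕ) : Set (Sym2 Z2 → ℝ) :=
  {t | ∃ y v, supDist s v ≤ r ∧ Branch t B y v}

/-- A geodesic `x → y` of `B` uses the edge `e` with margin at least `g` against avoiding it. -/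
def HasMargin (t : Sym2 Z2 → ℝ) (B : Rect) (e : Sym2 Z2) (g : ℝ) (x y : Z2) : Prop :=
  ∃ p : lattice.Walk x y, IsGeoU t {w | B.Mem w} p ∧ e ∈ p.edges ∧
    ∀ q : lattice.Walk x y, q.IsPath → (∀ w ∈ q.support, B.Mem w) → e ∉ q.edges →
      wlen t p + g ≤ wlen t q

/-- Lemma A1's event: one geodesic to the root `y` has margin `g` at `e = {s, s'}`, another comes
within `K` of `s` and avoids `e`. -/
def Split (B : Rect) (y s s' : Z2) (K : ℕ) (g : ℝ) : Set (Sym2 Z2 → ℝ) :=
  {t | ∃ (x x' : Z2) (p' : lattice.Walk x' y), B.Bdry x ∧ B.Bdry x' ∧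
    HasMargin t B s(s, s') g x y ∧ IsGeoU t {w | B.Mem w} p' ∧ s(s, s') ∉ p'.edges ∧
      ∃ b ∈ p'.support, supDist s b ≤ K}

/-- `q` is a possible `R`-segment through the dart `s → s'`: a path through it with both ends at
distance `R` of `s` and all other vertices closer. -/
def IsSeg (s s' : Z2) (R : ℕ) (q : List Z2) : Prop :=
  q.Nodup ∧ q.IsChain lattice.Adj ∧ [s, s'] <:+: q ∧ (∀ v ∈ q.head?, supDist s v = R) ∧
    (∀ v ∈ q.getLast?, supDist s v = R) ∧ ∀ v ∈ q.tail.dropLast, supDist s v < R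

/-- The inner vertices of a segment. -/
def inner (q : List Z2) : Set Z2 := {v | v ∈ q.tail.dropLast}

/-- The geodesic of `B` between the boundary points `x`, `y` runs along `q`. -/
def Carries (t : Sym2 Z2 → ℝ) (B : Rect) (q : List Z2) (x y : Z2) : Prop :=
  B.Bdry x ∧ B.Bdry y ∧ ∃ p : lattice.Walk x y, IsGeoU t {w | B.Mem w} p ∧ q <:+: p.support

/-- The margin of a pair against avoiding the inner vertices of `q`. -/
def margin (t : Sym2 Z2 → ℝ) (B : Rect) (q : List Z2) (x y : Z2) : ℝ :=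
  passU t ({w | B.Mem w} \ inner q) x y - passU t {w | B.Mem w} x y

/-- `q` is carried in the boxes of every size around `s`. -/
def Ext (s : Z2) (R : ℕ) (q : List Z2) : Set (Sym2 Z2 → ℝ) :=
  {t | ∀ n, R ≤ n → ∃ x y, Carries t (box s n) q x y}

/-- The margin of an extendable segment: the infimum over the boxes of the largest margin. -/
def segMargin (t : Sym2 Z2 → ℝ) (s : Z2) (R : ℕ) (q : List Z2) : ℝ≥0∞ :=
  ⨅ (n : ℕ) (_ : R ≤ n), ⨆ (x : Z2) (y : Z2) (_ : Carries t (box s n) q x y),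
    ENNReal.ofReal (margin t (box s n) q x y)

open scoped Classical in
/-- The number of extendable `R`-segments through the dart `s → s'`. -/
def segCount (t : Sym2 Z2 → ℝ) (s s' : Z2) (R : ℕ) : ℝ≥0∞ :=
  ∑' q : List Z2, if IsSeg s s' R q ∧ t ∈ Ext s R q then 1 else 0

open scoped Classical in
/-- The margins of the extendable `R`-segments, capped at `S`. -/
def segBudget (t : Sym2 Z2 → ℝ) (s s' : Z2) (R : ℕ) (S : ℝ≥0∞) : ℝ≥0∞ :=
  ∑' q : List Z2, if IsSeg s s' R q ∧ t ∈ Ext s R q then min (segMargin t s R q) S else 0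

end

end Vale.P158
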