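import Vale.Agent.P158.Length
import Vale.Agent.P158.Blocks

/-!
# P158: good boxes

Outside a union of boundedly many exceptional events of the length bound, the perimeter of a square
of radius `n` (with `R` about `n / (100 k)`) is cut into `8 k` arcs such that the cuts are cheaply joined inside the
square and geodesics between two points of one arc do not visit the middle.
-/

open MeasureTheory Filter Topology
open scoped ENNReal

namespace Vale.P158

open Vale.Agent.P158.Crossing (Rect)

noncomputable section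

/-! ### Squares -/

/-- The square of radius `n` about `c`, as a rectangle. -/
def sqRect (c : Z2) (n : ℕ) : Rect where
  x0 := c.1 - (max n 1 : ℕ)
  x1 := c.1 + (max n 1 : ℕ)
  y0 := c.2 - (max n 1 : ℕ)
  y1 := c.2 + (max n 1 : ℕ)
  hx := by omega
  hy := by omega

variable {c : Z2} {n : ℕ}

lemma mem_sqRect (hn : 0 < n) {v : Z2} : (sqRect c n).Mem v ↔ supDist c v ≤ n := by
  simp only [sqRect, Rect.Mem, supDist]
  omega

lemma bdry_sqRect (hn : 0 < n) {v : Z2} : (sqRect c n).Bdry v ↔ supDist c v = n := by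
  simp only [sqRect, Rect.Bdry, Rect.Mem, supDist]
  omega

lemma perim_sqRect (hn : 0 < n) : perim (sqRect c n) = 8 * n := by
  simp only [perim, sqRect]
  omega

lemma supDist_loop (hn : 0 < n) (p : ℕ) : supDist c ((boundaryLoop (sqRect c n)).x p) = n :=
  (bdry_sqRect hn).1 ((boundaryLoop (sqRect c n)).bdry p)

lemma supDist_loop_add (B : Rect) (p : ℕ) : ∀ d : ℕ,
    supDist ((boundaryLoop B).x p) ((boundaryLoop B).x (p + d)) ≤ d := by
  intro d
  induction d with
  | zero => simp [supDist_self]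
  | succ d ih =>
    exact (supDist_step (z := (boundaryLoop B).x p) (boundaryLoop_adj B (p + d))).trans (by omega)

lemma loop_add_mul (B : Rect) (p j : ℕ) :
    (boundaryLoop B).x (p + j * perim B) = (boundaryLoop B).x p := by
  induction j with
  | zero => simp
  | succ j ih => rw [Nat.succ_mul, ← add_assoc]; exact ((boundaryLoop B).period _).trans ih

lemma supDist_coord {u v : Z2} {d : ℕ} (h : supDist u v ≤ d) :
    u.1 - v.1 ≤ (d : ℤ) ∧ v.1 - u.1 ≤ d ∧ u.2 - v.2 ≤ d ∧ v.2 - u.2 ≤ d := by
  simp only [supDist] at h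
  omega

/-- The position is locally Lipschitz, cyclically. -/
lemma pos_near {B : Rect} {u v : Z2} {su sv : Fin 4} {p q d : ℤ} (hu : B.OnSide u su p)
    (hv : B.OnSide v sv q) (hdx : d < B.x1 - B.x0) (hdy : d < B.y1 - B.y0)
    (h1 : u.1 - v.1 ≤ d) (h2 : v.1 - u.1 ≤ d) (h3 : u.2 - v.2 ≤ d) (h4 : v.2 - u.2 ≤ d) :
    (q ≤ p + 2 * d ∧ p ≤ q + 2 * d) ∨ 2 * ((B.x1 - B.x0) + (B.y1 - B.y0)) ≤ p - q + 2 * d ∨
      2 * ((B.x1 - B.x0) + (B.y1 - B.y0)) ≤ q - p + 2 * d := by
  obtain ⟨⟨u1, u2, u3, u4⟩, hu⟩ := hu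
  obtain ⟨⟨v1, v2, v3, v4⟩, hv⟩ := hv
  rcases hu with ⟨-, hu⟩ | ⟨-, hu⟩ | ⟨-, hu⟩ | ⟨-, hu⟩ <;>
    rcases hv with ⟨-, hv⟩ | ⟨-, hv⟩ | ⟨-, hv⟩ | ⟨-, hv⟩ <;> omega

/-- Nearby boundary points have nearby indices. -/
lemma near_index (hn : 0 < n) {g : Z2} (hg : supDist c g = n) (p : ℕ) {d : ℕ} (hd : d < n)
    (h : supDist ((boundaryLoop (sqRect c n)).x p) g ≤ d) :
    ∃ q, (boundaryLoop (sqRect c n)).x q = g ∧ q ≤ p + perim (sqRect c n) + 2 * d ∧
      p + perim (sqRect c n) ≤ q + 2 * d := by
  obtain ⟨i, hi, hig⟩ := exists_boundaryLoop (sqRect c n) ((bdry_sqRect hn).2 hg)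
  set P := perim (sqRect c n) with hP
  have hP8 : P = 8 * n := perim_sqRect hn
  obtain ⟨w, hw⟩ : ∃ w, w = p % P := ⟨_, rfl⟩
  obtain ⟨l, hl⟩ : ∃ l, l = p / P := ⟨_, rfl⟩
  have hp : p = w + l * P := by rw [hw, hl, mul_comm]; exact (Nat.mod_add_div p P).symm
  have hwP : w < P := hw ▸ Nat.mod_lt _ (perim_pos _)
  rw [hp, loop_add_mul, ← hig] at h
  have key : (i ≤ w + 2 * d ∧ w ≤ i + 2 * d) ∨ P ≤ w + 2 * d - i ∨ P ≤ i + 2 * d - w := by
    have hpos : ∀ j, j < P → ∃ sd, (sqRect c n).OnSide ((boundaryLoop (sqRect c n)).x j) sd j := by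
      intro j hj
      obtain ⟨sd, hsd⟩ := Vale.Agent.P158.Crossing.exists_side
        ((boundaryLoop (sqRect c n)).bdry j)
      have e : (sqRect c n).pos ((boundaryLoop (sqRect c n)).x j) = (j : ℤ) := by
        show (sqRect c n).pos (atPos _ ((j % perim (sqRect c n) : ℕ) : ℤ)) = j
        rw [Nat.mod_eq_of_lt hj]
        exact (atPos_spec _ (by omega) (by have := perim_cast (sqRect c n); omega)).2
      exact ⟨sd, e ▸ hsd⟩
    obtain ⟨su, hu⟩ := hpos w hwP
    obtain ⟨sv, hv⟩ := hpos i hi
    have hdn : (d : ℤ) < (sqRect c n).x1 - (sqRect c n).x0 ∧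
        (d : ℤ) < (sqRect c n).y1 - (sqRect c n).y0 := by
      simp only [sqRect]; constructor <;> omega
    have hc := supDist_coord h
    have hk := pos_near hu hv hdn.1 hdn.2 hc.1 hc.2.1 hc.2.2.1 hc.2.2.2
    rw [← perim_cast, ← hP] at hk
    omega
  rcases key with hk | hk | hk
  · exact ⟨i + (l + 1) * P, (loop_add_mul _ i (l + 1)).trans hig, by rw [hp, Nat.succ_mul]; omega,
      by rw [hp, Nat.succ_mul]; omega⟩
  · exact ⟨i + (l + 2) * P, (loop_add_mul _ i (l + 2)).trans hig, by
      rw [hp, show (l + 2) * P = l * P + P + P by ring]; omega, by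
      rw [hp, show (l + 2) * P = l * P + P + P by ring]; omega⟩
  · exact ⟨i + l * P, (loop_add_mul _ i l).trans hig, by rw [hp]; omega, by rw [hp]; omega⟩

/-- The nearest point of the square of radius `r`. -/
def clampTo (c : Z2) (r : ℕ) (v : Z2) : Z2 :=
  (max (c.1 - r) (min v.1 (c.1 + r)), max (c.2 - r) (min v.2 (c.2 + r)))

/-- The mirror point outside. -/
def outPt (c : Z2) (r : ℕ) (v : Z2) : Z2 :=
  (2 * v.1 - (clampTo c r v).1, 2 * v.2 - (clampTo c r v).2)

lemma clampTo_props {r : ℕ} (hr : r ≤ n) {v : Z2} (hv : supDist c v = n) :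
    supDist c (clampTo c r v) ≤ r ∧ supDist v (clampTo c r v) ≤ n - r ∧
      supDist v (outPt c r v) ≤ n - r ∧ supDist c (outPt c r v) = n + (n - r) := by
  have hcoord : ∀ x z : ℤ, (x - z).natAbs ≤ n →
      (max (z - r) (min x (z + r)) - z).natAbs ≤ r ∧
      (max (z - r) (min x (z + r)) - x).natAbs ≤ n - r ∧
      (2 * x - max (z - r) (min x (z + r)) - x).natAbs ≤ n - r ∧
      (2 * x - max (z - r) (min x (z + r)) - z).natAbs ≤ n + (n - r) ∧
      ((x - z).natAbs = n →
        (2 * x - max (z - r) (min x (z + r)) - z).natAbs = n + (n - r)) := by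
    intro x z hx
    omega
  simp only [supDist] at hv
  obtain ⟨a1, a2, a3, a4, a5⟩ := hcoord v.1 c.1 (by omega)
  obtain ⟨b1, b2, b3, b4, b5⟩ := hcoord v.2 c.2 (by omega)
  simp only [supDist, clampTo, outPt]
  refine ⟨max_le a1 b1, max_le a2 b2, max_le a3 b3, le_antisymm (max_le a4 b4) ?_⟩
  rcases le_total (v.1 - c.1).natAbs (v.2 - c.2).natAbs with h | h
  · rw [max_eq_right h] at hv; exact (b5 hv).ge.trans (le_max_right _ _)
  · rw [max_eq_left h] at hv; exact (a5 hv).ge.trans (le_max_left _ _)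

lemma clampTo_lipschitz (c : Z2) (r : ℕ) (u v : Z2) :
    supDist (clampTo c r u) (clampTo c r v) ≤ supDist u v := by
  have hcoord : ∀ z x y : ℤ,
      (max (z - r) (min y (z + r)) - max (z - r) (min x (z + r))).natAbs ≤ (y - x).natAbs := by
    intro z x y
    omega
  simp only [supDist, clampTo]
  exact max_le_max (hcoord _ _ _) (hcoord _ _ _)

/-- A straight walk from a central point to the side opposite to a boundary point. -/
lemma exists_exit (hn : 0 < n) {X v : Z2} (hX : supDist c X = n) (hv : 2 * supDist c v ≤ n) :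
    ∃ (d : Z2) (r : lattice.Walk v d), supDist c d = n ∧ n ≤ 2 * supDist X d ∧
      ∀ z ∈ r.support, supDist c z ≤ n ∧ n ≤ 2 * supDist X z := by
  obtain ⟨a, b⟩ := v
  simp only [supDist] at hX hv
  have hcase : X.1 - c.1 = n ∨ c.1 - X.1 = n ∨ X.2 - c.2 = n ∨ c.2 - X.2 = n := by omega
  rcases hcase with h | h | h | h
  · obtain ⟨r, -, hr⟩ := exists_hwalk' b a (c.1 - n)
    refine ⟨_, r, by simp only [supDist]; omega, by simp only [supDist]; omega, fun z hz => ?_⟩
    have := hr z hz
    simp only [supDist]; omega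
  · obtain ⟨r, -, hr⟩ := exists_hwalk' b a (c.1 + n)
    refine ⟨_, r, by simp only [supDist]; omega, by simp only [supDist]; omega, fun z hz => ?_⟩
    have := hr z hz
    simp only [supDist]; omega
  · obtain ⟨r, -, hr⟩ := exists_vwalk' a b (c.2 - n)
    refine ⟨_, r, by simp only [supDist]; omega, by simp only [supDist]; omega, fun z hz => ?_⟩
    have := hr z hz
    simp only [supDist]; omega
  · obtain ⟨r, -, hr⟩ := exists_vwalk' a b (c.2 + n)
    refine ⟨_, r, by simp only [supDist]; omega, by simp only [supDist]; omega, fun z hz => ?_⟩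
    have := hr z hz
    simp only [supDist]; omega

variable {t : Sym2 Z2 → ℝ}

/-- The last entrance of a walk into the square. -/
lemma exists_tail (ht : ∀ e, 0 ≤ t e) {a b : Z2} (q : lattice.Walk a b)
    (hb : supDist c b ≤ n) :
    (∀ z ∈ q.support, supDist c z ≤ n) ∨
      ∃ (g : Z2) (p : lattice.Walk g b), supDist c g = n ∧
        (∀ z ∈ p.support, z ∈ q.support ∧ supDist c z ≤ n) ∧ wlen t p ≤ wlen t q := by
  induction q with
  | nil =>
    refine Or.inl fun z hz => ?_
    simp only [SimpleGraph.Walk.support_nil, List.mem_singleton] at hz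
    exact hz ▸ hb
  | @cons a a' b h q ih =>
    rcases ih hb with hall | ⟨g, p, h1, h2, h3⟩
    · by_cases ha : supDist c a ≤ n
      · refine Or.inl fun z hz => ?_
        rcases List.mem_cons.1 hz with rfl | hz
        exacts [ha, hall z hz]
      · have h1 := supDist_step (z := c) h.symm
        have h2 := hall a' q.start_mem_support
        refine Or.inr ⟨a', q, by omega, fun z hz => ⟨List.mem_cons_of_mem _ hz, hall z hz⟩, ?_⟩
        rw [wlen_cons]
        linarith [ht s(a, a')]
    · refine Or.inr ⟨g, p, h1, fun z hz => ⟨List.mem_cons_of_mem _ (h2 z hz).1, (h2 z hz).2⟩, ?_⟩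
      rw [wlen_cons]
      linarith [ht s(a, a')]

lemma Free.mono {bad B B' : Set Z2} {D D' : ℕ} (hB : B ⊆ B') (hD : D ≤ D') {x : Z2}
    (h : Free bad B' D' x) : Free bad B D x := fun w hw hwB =>
  let ⟨y, hy, hj⟩ := h w hw (hB hwB)
  ⟨y, hD.trans_lt hy, hj⟩

lemma clusterScale_mono {R R' : ℕ} (h : R ≤ R') : clusterScale R ≤ clusterScale R' :=
  Nat.div_le_div_right (Nat.sqrt_le_sqrt h)

lemma clusterScale_small {R : ℕ} (hR : 5 ≤ R) : 2 * clusterScale (5 * R) + 1 ≤ R := by
  have h : Nat.sqrt (5 * R) ≤ R :=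
    (Nat.sqrt_le_sqrt (Nat.mul_le_mul_right R hR)).trans (Nat.sqrt_eq R).le
  simp only [clusterScale]
  omega

/-- A free point near every point. -/
lemma exists_free {L a : ℝ} {x : Z2} {R : ℕ} (ht : t ∉ lengthBad L a x R) (v : Z2) :
    ∃ v', supDist v v' ≤ 2 * clusterScale R + 1 ∧
      Free (badSet L t) (sqBall x (8 * R) : Set Z2) (clusterScale R) v' := by
  set D := clusterScale R
  obtain ⟨p, -, hp⟩ := exists_hwalk' v.2 v.1 (v.1 + (2 * D + 1 : ℕ))
  by_contra! h
  have := supDist_le_of_enclosed (badSet L t) _ D (cluster_small ht) p (fun z hz => h z ?_)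
    p.end_mem_support
  · simp only [supDist] at this
    omega
  · have := hp z hz
    simp only [supDist]
    omega

/-! ### The good event -/

/-- The centres of the boundary scale: `800 k` equally spread points of the loop. -/
def boxPoint (c : Z2) (n k j : ℕ) : Z2 := (boundaryLoop (sqRect c n)).x (j * n / (100 * k))

/-- The exceptional weights of the square of radius `n` about `c`, at the scale `R`. -/
def boxBad (L a : ℝ) (c : Z2) (k n R : ℕ) : Set (Sym2 Z2 → ℝ) :=
  (⋃ j ∈ Finset.range (800 * k),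
      lengthBad L a (boxPoint c n k j) (5 * R) ∪
        lengthBad L a (clampTo c (n - 8 * R) (boxPoint c n k j)) R) ∪
    lengthBad L a c (n / 3)

variable {L a : ℝ} {k R : ℕ}

lemma boxPoint_mod (hk : 0 < k) (hn : 0 < n) (j : ℕ) :
    boxPoint c n k (j % (800 * k)) = boxPoint c n k j := by
  simp only [boxPoint]
  conv_rhs => rw [← Nat.mod_add_div j (800 * k)]
  rw [show (j % (800 * k) + 800 * k * (j / (800 * k))) * n =
      j % (800 * k) * n + 100 * k * (j / (800 * k) * (8 * n)) by ring,
    Nat.add_mul_div_left _ _ (by omega), ← perim_sqRect (c := c) hn]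
  exact (loop_add_mul _ _ _).symm

/-- Free outside and inside anchors, and a tail from the perimeter to the inside anchor. -/
theorem exists_anchor (ht : ∀ e, 0 ≤ t e) (hL : 0 ≤ L) (hR : 5 ≤ R) (hnR : 100 * R ≤ n) {j : ℕ}
    (hj : t ∉ lengthBad L a (boxPoint c n k j) (5 * R)) :
    ∃ (g v' : Z2) (p : lattice.Walk g v'), supDist c g = n ∧
      supDist (clampTo c (n - 8 * R) (boxPoint c n k j)) v' ≤ R ∧
      Free (badSet L t) (sqBall (boxPoint c n k j) (8 * (5 * R)) : Set Z2)
        (clusterScale (5 * R)) v' ∧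
      (∀ z ∈ p.support, supDist c z ≤ n ∧ supDist (boxPoint c n k j) z ≤ 20 * R) ∧
      wlen t p ≤ L * (775 * R) := by
  set X := boxPoint c n k j
  have hX : supDist c X = n := supDist_loop (by omega) _
  obtain ⟨h1, h2, h3, h4⟩ := clampTo_props (r := n - 8 * R) (by omega) hX
  obtain ⟨v', hv', hvf⟩ := exists_free hj (clampTo c (n - 8 * R) X)
  obtain ⟨o', ho', hof⟩ := exists_free hj (outPt c (n - 8 * R) X)
  have hs := clusterScale_small hR
  have t1 := supDist_triangle X (clampTo c (n - 8 * R) X) v'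
  have t2 := supDist_triangle X (outPt c (n - 8 * R) X) o'
  have t3 := supDist_triangle c (clampTo c (n - 8 * R) X) v'
  have t4 := supDist_triangle c o' (outPt c (n - 8 * R) X)
  rw [supDist_comm (outPt c (n - 8 * R) X) o'] at ho'
  obtain ⟨q, hqball, hqw⟩ := cheap_walk (show 1 ≤ 5 * R by omega) hL hj
    (a := o') (b := v') (by rw [supDist_comm o'] at ho'; omega) (by omega) hof hvf
  rcases exists_tail (c := c) (n := n) ht q (by omega) with hall | ⟨g, p, hg, hp, hpw⟩
  · have := hall o' q.start_mem_support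
    omega
  · refine ⟨g, v', p, hg, by omega, hvf, fun z hz => ⟨(hp z hz).2, ?_⟩, hpw.trans ?_⟩
    · have := hqball z (hp z hz).1
      omega
    · refine hqw.trans (le_of_eq ?_)
      push_cast
      ring

/-- The cuts, the cheap joins and the absence of visits of the middle by pairs inside one arc. -/
theorem good_box (ht : ∀ e, 0 ≤ t e) (hL : 0 ≤ L) (ha : 0 < a) (hk : 8 ≤ k)
    (hka : 341 * L < k * a) (hR : 10 ≤ R) (hn1 : n ≤ 100 * k * R)
    (hn2 : 100 * k * (R - 1) ≤ n) (hgood : t ∉ boxBad L a c k n R) :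
    ∃ (o : ℕ) (g : ℕ → ℕ), Monotone g ∧ g 0 = 0 ∧ g (8 * k) = perim (sqRect c n) ∧
      (∀ m m', passU t {w | (sqRect c n).Mem w}
          ((boundaryLoop (sqRect c n)).x (o + g m)) ((boundaryLoop (sqRect c n)).x (o + g m')) ≤
        L * ((1550 + 124000 * k) * R)) ∧
      (∀ m < 8 * k, ∀ i j, g m ≤ i → i ≤ g (m + 1) → g m ≤ j → j ≤ g (m + 1) →
        ∀ p : lattice.Walk ((boundaryLoop (sqRect c n)).x (o + i))
            ((boundaryLoop (sqRect c n)).x (o + j)),
          IsGeoU t {w | (sqRect c n).Mem w} p → ∀ v ∈ p.support, n < 2 * supDist c v) := by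
  classical
  set B := sqRect c n with hB
  have hkR : 8 * R ≤ k * R := Nat.mul_le_mul_right R hk
  have h10 : 10 * k ≤ k * R := by rw [mul_comm 10]; exact Nat.mul_le_mul_left k hR
  have hn100 : n ≤ 100 * (k * R) := by rwa [← mul_assoc]
  have hn90 : 90 * (k * R) ≤ n := by
    rw [Nat.mul_sub, mul_one, mul_assoc] at hn2
    omega
  have hn0 : 0 < n := by omega
  set x := (boundaryLoop B).x with hx
  have hP : perim B = 8 * n := by rw [hB, perim_sqRect hn0]
  set X : ℕ → Z2 := fun j => boxPoint c n k j with hXdef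
  have hXx : ∀ j, X j = x (j * n / (100 * k)) := fun j => rfl
  set V : ℕ → Z2 := fun j => clampTo c (n - 8 * R) (X j) with hVdef
  have hXmod : ∀ j, X (j % (800 * k)) = X j := fun j => boxPoint_mod (by omega) hn0 j
  simp only [boxBad, Set.mem_union, Set.mem_iUnion, Finset.mem_range, not_or, not_exists] at hgood
  have hev : ∀ j, t ∉ lengthBad L a (X j) (5 * R) ∧ t ∉ lengthBad L a (V j) R := fun j => by
    have h := hgood.1 (j % (800 * k)) (Nat.mod_lt _ (by omega))
    rw [show boxPoint c n k (j % (800 * k)) = X j from hXmod j] at h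
    exact h
  have hanc : ∀ j, ∃ (g v' : Z2) (p : lattice.Walk g v'), supDist c g = n ∧
      supDist (V j) v' ≤ R ∧
      Free (badSet L t) (sqBall (X j) (8 * (5 * R)) : Set Z2) (clusterScale (5 * R)) v' ∧
      (∀ z ∈ p.support, supDist c z ≤ n ∧ supDist (X j) z ≤ 20 * R) ∧
      wlen t p ≤ L * (775 * R) := fun j =>
    exists_anchor ht hL (by omega) (by omega) (hev j).1
  choose G₀ A₀ P₀ hG₀ hA₀ hF₀ hS₀ hW₀ using hanc
  set G : ℕ → Z2 := fun j => G₀ (j % (800 * k)) with hGdef
  set A : ℕ → Z2 := fun j => A₀ (j % (800 * k)) with hAdef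
  set Pw : (j : ℕ) → lattice.Walk (G j) (A j) := fun j => P₀ (j % (800 * k)) with hPdef
  have hG : ∀ j, supDist c (G j) = n := fun j => hG₀ _
  have hA : ∀ j, supDist (V j) (A j) ≤ R := fun j => by
    have h := hA₀ (j % (800 * k))
    simp only [hVdef, hXmod] at h ⊢
    exact h
  have hF : ∀ j, Free (badSet L t) (sqBall (X j) (8 * (5 * R)) : Set Z2) (clusterScale (5 * R))
      (A j) := fun j => by
    have h := hF₀ (j % (800 * k))
    rwa [hXmod] at h
  have hS : ∀ j, ∀ z ∈ (Pw j).support, supDist c z ≤ n ∧ supDist (X j) z ≤ 20 * R :=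
    fun j z hz => by
    have h := hS₀ (j % (800 * k)) z hz
    rwa [hXmod] at h
  have hW : ∀ j, wlen t (Pw j) ≤ L * (775 * R) := fun j => hW₀ _
  have hXn : ∀ j, supDist c (X j) = n := fun j => supDist_loop hn0 _
  have hXV : ∀ j, supDist (X j) (V j) ≤ 8 * R ∧ supDist c (V j) ≤ n - 8 * R := fun j => by
    obtain ⟨h1, h2, -, -⟩ := clampTo_props (r := n - 8 * R) (by omega) (hXn j)
    exact ⟨h2.trans (by omega), h1⟩
  have hpos : ∀ j d, j * n / (100 * k) ≤ (j + d) * n / (100 * k) ∧
      (j + d) * n / (100 * k) ≤ j * n / (100 * k) + d * R := fun j d => by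
    refine ⟨Nat.div_le_div_right (Nat.mul_le_mul_right n (Nat.le_add_right j d)), ?_⟩
    rw [← Nat.add_mul_div_left _ _ (show 0 < 100 * k by omega)]
    refine Nat.div_le_div_right ?_
    rw [Nat.add_mul, show 100 * k * (d * R) = d * (100 * k * R) by ring]
    exact Nat.add_le_add_left (Nat.mul_le_mul_left d hn1) _
  have hXd : ∀ j d, supDist (X j) (X (j + d)) ≤ d * R := fun j d => by
    obtain ⟨e1, e2⟩ := hpos j d
    have h := supDist_loop_add B (j * n / (100 * k)) ((j + d) * n / (100 * k) - j * n / (100 * k))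
    rw [Nat.add_sub_cancel' e1, ← hx, ← hXx, ← hXx] at h
    omega
  -- one hop between neighbouring inside anchors
  have hop : ∀ j, ∃ q : lattice.Walk (A j) (A (j + 1)),
      (∀ z ∈ q.support, supDist c z ≤ n ∧ supDist (X j) z ≤ 12 * R) ∧
        wlen t q ≤ L * (155 * R) := by
    intro j
    have h1 := hXV j
    have h2 := hXV (j + 1)
    have h3 := hA j
    have h4 := hA (j + 1)
    have h5 := hXd j 1
    have h6 : supDist (V j) (V (j + 1)) ≤ supDist (X j) (X (j + 1)) := clampTo_lipschitz _ _ _ _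
    have hb : supDist (V j) (A (j + 1)) ≤ 2 * R := by
      have := supDist_triangle (V j) (V (j + 1)) (A (j + 1))
      omega
    have hsub : ∀ i, supDist (X i) (V j) ≤ 32 * R →
        (sqBall (V j) (8 * R) : Set Z2) ⊆ (sqBall (X i) (8 * (5 * R)) : Set Z2) := by
      intro i hi z hz
      rw [Finset.mem_coe, mem_sqBall] at hz ⊢
      have := supDist_triangle (X i) (V j) z
      omega
    obtain ⟨q, hq, hqw⟩ := cheap_walk (show 1 ≤ R by omega) hL (hev j).2
      (show supDist (V j) (A j) ≤ 2 * R by omega) hb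
      ((hF j).mono (hsub j (by omega)) (clusterScale_mono (by omega)))
      ((hF (j + 1)).mono (hsub (j + 1) (by
        have h7 := supDist_triangle (X (j + 1)) (X j) (V j)
        rw [supDist_comm (X (j + 1)) (X j)] at h7
        omega)) (clusterScale_mono (by omega)))
    refine ⟨q, fun z hz => ⟨?_, ?_⟩, hqw⟩
    · have := hq z hz
      have := supDist_triangle c (V j) z
      omega
    · have := hq z hz
      have := supDist_triangle (X j) (V j) z
      omega
  -- chains of hops
  have chain : ∀ j d, ∃ q : lattice.Walk (A j) (A (j + d)),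
      (∀ z ∈ q.support, supDist c z ≤ n ∧ supDist (X j) z ≤ d * R + 12 * R) ∧
        wlen t q ≤ d * (L * (155 * R)) := by
    intro j d
    induction d with
    | zero =>
      refine ⟨.nil, fun z hz => ?_, by simp [wlen]⟩
      simp only [SimpleGraph.Walk.support_nil, List.mem_singleton] at hz
      subst hz
      have h1 := hXV j
      have h2 := hA j
      have := supDist_triangle c (V j) (A j)
      have := supDist_triangle (X j) (V j) (A j)
      omega
    | succ d ih =>
      obtain ⟨q, hq, hqw⟩ := ih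
      obtain ⟨q', hq', hq'w⟩ := hop (j + d)
      refine ⟨q.append q', fun z hz => ?_, ?_⟩
      · rcases (SimpleGraph.Walk.mem_support_append_iff _ _).1 hz with h | h
        · have := hq z h
          rw [Nat.succ_mul]
          omega
        · have := hq' z h
          have := hXd j d
          have := supDist_triangle (X j) (X (j + d)) z
          rw [Nat.succ_mul]
          omega
      · rw [wlen_append]
        push_cast
        linarith
  have hjoin : ∀ j d, ∃ Γ : lattice.Walk (G j) (G (j + d)),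
      (∀ z ∈ Γ.support, B.Mem z ∧ supDist (X j) z ≤ d * R + 20 * R) ∧
        wlen t Γ ≤ L * ((1550 + 155 * d) * R) := by
    intro j d
    obtain ⟨q, hq, hqw⟩ := chain j d
    refine ⟨(Pw j).append (q.append (Pw (j + d)).reverse), fun z hz => ?_, ?_⟩
    · rw [mem_sqRect hn0]
      rcases (SimpleGraph.Walk.mem_support_append_iff _ _).1 hz with h | h
      · have := hS j z h
        omega
      rcases (SimpleGraph.Walk.mem_support_append_iff _ _).1 h with h | h
      · have := hq z h
        omega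
      · rw [SimpleGraph.Walk.support_reverse, List.mem_reverse] at h
        have := hS (j + d) z h
        have := hXd j d
        have := supDist_triangle (X j) (X (j + d)) z
        omega
    · rw [wlen_append, wlen_append, wlen_reverse]
      have h1 := hW j
      have h2 := hW (j + d)
      nlinarith
  -- the indices of the cuts
  obtain ⟨base, hbase⟩ : ∃ base : ℕ → ℕ, base = fun m => 100 * m * n / (100 * k) := ⟨_, rfl⟩
  have hXb : ∀ m, X (100 * m) = x (base m) := fun m => by rw [hXx, hbase]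
  have hbstep : ∀ m, base m + 100 * (R - 1) ≤ base (m + 1) ∧
      base (m + 1) ≤ base m + 100 * R := fun m => by
    simp only [hbase]
    rw [Nat.mul_add 100 m 1, mul_one]
    refine ⟨?_, (hpos _ _).2⟩
    rw [← Nat.add_mul_div_left _ _ (show 0 < 100 * k by omega)]
    refine Nat.div_le_div_right ?_
    rw [Nat.add_mul, show 100 * k * (100 * (R - 1)) = 100 * (100 * k * (R - 1)) by ring]
    exact Nat.add_le_add_left (Nat.mul_le_mul_left 100 hn2) _
  have hb8 : base (8 * k) = perim B := by
    simp only [hbase]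
    rw [show 100 * (8 * k) * n = 100 * k * (8 * n) by ring,
      Nat.mul_div_cancel_left _ (by omega), hP]
  have hidx : ∀ m, ∃ q, x q = G (100 * m) ∧ q ≤ base m + perim B + 40 * R ∧
      base m + perim B ≤ q + 40 * R := fun m => by
    obtain ⟨q, h1, h2, h3⟩ := near_index (c := c) hn0 (hG (100 * m)) (base m) (d := 20 * R)
      (by omega) (by
        have h := (hS (100 * m) _ (Pw (100 * m)).start_mem_support).2
        rwa [hXb m] at h)
    rw [← hB] at h2 h3
    exact ⟨q, h1, by omega, by omega⟩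
  choose Q hQx hQ1 hQ2 using hidx
  set q : ℕ → ℕ := fun m => if m < 8 * k then Q m else Q 0 + perim B with hq
  have hqx : ∀ m ≤ 8 * k, x (q m) = G (100 * m) ∧ q m ≤ base m + perim B + 40 * R ∧
      base m + perim B ≤ q m + 40 * R := by
    intro m hm
    simp only [hq]
    split_ifs with h
    · exact ⟨hQx m, hQ1 m, hQ2 m⟩
    · have hm' : m = 8 * k := by omega
      subst hm'
      refine ⟨((boundaryLoop B).period (Q 0)).trans ((hQx 0).trans ?_), ?_, ?_⟩
      · simp only [hGdef]
        congr 1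
        rw [show 100 * (8 * k) = 800 * k by ring, Nat.mod_self]
        simp
      · have h := hQ1 0
        have e0 : base 0 = 0 := by simp [hbase]
        omega
      · have h := hQ2 0
        have e0 : base 0 = 0 := by simp [hbase]
        omega
  have hqge : ∀ m, 8 * k ≤ m → q m = q (8 * k) := fun m hm => by
    simp only [hq]
    rw [if_neg (by omega), if_neg (by omega)]
  have hstep : ∀ m, q m ≤ q (m + 1) := by
    intro m
    rcases lt_or_ge m (8 * k) with hm | hm
    · have h1 := (hqx m (by omega)).2.1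
      have h2 := (hqx (m + 1) (by omega)).2.2
      have := (hbstep m).1
      omega
    · rw [hqge m hm, hqge (m + 1) (by omega)]
  have hqmono : Monotone q := monotone_nat_of_le_succ hstep
  have hq0 : ∀ m, q 0 ≤ q m := fun m => hqmono (Nat.zero_le m)
  refine ⟨q 0, fun m => q m - q 0, fun m m' h => Nat.sub_le_sub_right (hqmono h) _,
    by simp, ?_, ?_, ?_⟩
  · simp only [hq]
    rw [if_neg (by omega), if_pos (by omega)]
    omega
  · -- passage times between cuts
    have key : ∀ m m', m ≤ m' → m' ≤ 8 * k →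
        passU t {w | B.Mem w} (x (q m)) (x (q m')) ≤ L * ((1550 + 124000 * k) * R) := by
      intro m m' hmm hm'
      obtain ⟨Γ, hΓ, hΓw⟩ := hjoin (100 * m) (100 * (m' - m))
      rw [(hqx m (by omega)).1, (hqx m' hm').1,
        show 100 * m' = 100 * m + 100 * (m' - m) by omega]
      refine (passU_le ht Γ fun z hz => (hΓ z hz).1).trans (hΓw.trans ?_)
      refine mul_le_mul_of_nonneg_left (mul_le_mul_of_nonneg_right ?_ (Nat.cast_nonneg R)) hL
      have : ((100 * (m' - m) : ℕ) : ℝ) ≤ ((800 * k : ℕ) : ℝ) := Nat.cast_le.2 (by omega)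
      push_cast at this ⊢
      linarith
    intro m m'
    simp only [Nat.add_sub_cancel' (hq0 m), Nat.add_sub_cancel' (hq0 m')]
    obtain ⟨l, hl, hlq⟩ : ∃ l ≤ 8 * k, q m = q l :=
      (le_total m (8 * k)).elim (fun h => ⟨m, h, rfl⟩) fun h => ⟨8 * k, le_rfl, hqge m h⟩
    obtain ⟨l', hl', hlq'⟩ : ∃ l ≤ 8 * k, q m' = q l :=
      (le_total m' (8 * k)).elim (fun h => ⟨m', h, rfl⟩) fun h => ⟨8 * k, le_rfl, hqge m' h⟩
    rw [hlq, hlq']
    rcases le_total l l' with h | h
    · exact key l l' h hl'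
    · rw [passU_comm ht]
      exact key l' l h hl
  · -- no visits of the middle
    intro m hm i j hi1 hi2 hj1 hj2 p hp v hv
    simp only at hi1 hi2 hj1 hj2
    by_contra! hvc
    have hqm := hqx m hm.le
    have hqm1 := hqx (m + 1) (by omega)
    have hbm := hbstep m
    have hq0m := hq0 m
    have hq0m1 := hq0 (m + 1)
    set u := q m with hu
    set w := q (m + 1) with hw
    obtain ⟨Γ₀, hΓ, hΓw⟩ := hjoin (100 * m) 100
    set Γ : lattice.Walk (x u) (x w) :=
      Γ₀.copy hqm.1.symm (by rw [hqm1.1, Nat.mul_add, Nat.mul_one]) with hΓdef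
    have hΓ' : ∀ z ∈ Γ.support, B.Mem z ∧ supDist (X (100 * m)) z ≤ 120 * R := fun z hz => by
      have := hΓ z (by simpa [hΓdef] using hz)
      exact ⟨this.1, by omega⟩
    have hΓw' : wlen t Γ ≤ L * (17050 * R) := by
      have e : wlen t Γ = wlen t Γ₀ := by simp [hΓdef, wlen]
      rw [e]
      refine hΓw.trans (le_of_eq ?_)
      push_cast
      ring
    obtain ⟨d, r, hd, hdX, hr⟩ := exists_exit hn0 (hXn (100 * m)) hvc
    have hr' : ∀ z ∈ r.support, B.Mem z ∧ z ∉ Γ.support := fun z hz => by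
      refine ⟨(mem_sqRect hn0).2 (hr z hz).1, fun h => ?_⟩
      have := (hΓ' z h).2
      have := (hr z hz).2
      omega
    -- the exit is outside the arc
    obtain ⟨s, hs, hsd⟩ := exists_boundaryLoop B ((bdry_sqRect hn0).2 hd)
    obtain ⟨e, he, he1, he2⟩ : ∃ e, x e = d ∧ u ≤ e ∧ e < u + perim B := by
      have hPpos := perim_pos B
      obtain ⟨l, hl⟩ : ∃ l, l = (u + perim B - s - 1) / perim B := ⟨_, rfl⟩
      refine ⟨s + l * perim B, (loop_add_mul B s l).trans hsd, ?_, ?_⟩
      · have := Nat.lt_div_mul_add (a := u + perim B - s - 1) hPpos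
        rw [← hl] at this
        omega
      · have := Nat.div_mul_le_self (u + perim B - s - 1) (perim B)
        rw [← hl] at this
        omega
    have hwe : w < e := by
      by_contra! hle
      have hshift : X (100 * m) = x (base m + perim B) := by
        rw [hXb]
        exact ((boundaryLoop B).period _).symm
      rcases le_total e (base m + perim B) with h | h
      · have h' := supDist_loop_add B e (base m + perim B - e)
        rw [Nat.add_sub_cancel' h, ← hx, ← hshift, he, supDist_comm] at h'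
        omega
      · have h' := supDist_loop_add B (base m + perim B) (e - (base m + perim B))
        rw [Nat.add_sub_cancel' h, ← hx, ← hshift, he] at h'
        omega
    have harc : ∀ l, q m - q 0 ≤ l → l ≤ q (m + 1) - q 0 → x (q 0 + l) = x u ∨
        x (q 0 + l) = x w ∨
        CycOrd (B.pos (x u)) (B.pos (x (q 0 + l))) (B.pos (x w)) (B.pos d) := by
      intro l h1 h2
      rcases eq_or_lt_of_le (show u ≤ q 0 + l by omega) with h | h
      · exact Or.inl (by rw [← h])
      rcases eq_or_lt_of_le (show q 0 + l ≤ w by omega) with h' | h'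
      · exact Or.inr (Or.inl (by rw [h']))
      · refine Or.inr (Or.inr ?_)
        rw [← he]
        exact (boundaryLoop B).cycOrd h h' hwe (by rw [boundaryLoop_n]; exact he2)
    have hb : ∀ l, B.Bdry (x l) := (boundaryLoop B).bdry
    obtain ⟨w₁, w₂, hw₁, hw₂, hle⟩ := visit_bound ht B Γ (fun z hz => (hΓ' z hz).1) (hb u) (hb w)
      ((bdry_sqRect hn0).2 hd) (hb _) (hb _) (harc i hi1 hi2) (harc j hj1 hj2) r
      (fun z hz => (hr' z hz).1) (fun z hz => (hr' z hz).2) hp hv
    -- a trip between the middle and the arc is long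
    have htrip : ∀ z ∈ Γ.support, a * ((n / 3 : ℕ) : ℝ) ≤
        passU t {w | B.Mem w} v z := by
      intro z hz
      refine le_passU (joinedIn_box B (hp.mem hv) (hΓ' z hz).1) fun π _ => ?_
      refine le_trans ?_ (wlen_bypass_le ht π)
      have hlen : n / 3 ≤ π.bypass.length := by
        have hlip : ∀ {r s : Z2} (π : lattice.Walk r s), supDist r s ≤ π.length := by
          intro r s π
          induction π with
          | nil => simp [supDist_self]
          | @cons r' s' u' h π ih =>
            have := supDist_step (z := r') h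
            have := supDist_triangle r' s' u'
            rw [supDist_self] at *
            simp only [SimpleGraph.Walk.length_cons]
            omega
        have h1 := hlip π.bypass
        have h2 := (hΓ' z hz).2
        have h3 := hXn (100 * m)
        have := supDist_triangle c v z
        have := supDist_triangle c z (X (100 * m))
        rw [supDist_comm z (X (100 * m))] at this
        omega
      by_contra! hlt
      refine hgood.2 (Or.inr (Or.inr (Set.mem_iUnion₂.2 ⟨v, mem_sqBall.2 (by
        omega), z, π.bypass, π.bypass_isPath, hlen, hlt.trans_le ?_⟩)))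
      exact mul_le_mul_of_nonneg_left (Nat.cast_le.2 hlen) ha.le
    have h1 := htrip w₁ hw₁
    have h2 := htrip w₂ hw₂
    rw [passU_comm ht {w | B.Mem w} w₁ v] at hle
    have hRpos : (0 : ℝ) < R := Nat.cast_pos.2 (by omega)
    have hkey : L * (17050 * (R : ℝ)) < 60 * ((k : ℝ) * a) * R := by
      linarith [mul_lt_mul_of_pos_right hka hRpos, mul_nonneg hL hRpos.le]
    have hn3 : (30 : ℝ) * k * R ≤ ((n / 3 : ℕ) : ℝ) := by
      have h : 30 * k * R ≤ n / 3 := by rw [mul_assoc]; omega
      exact_mod_cast h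
    have h3 := mul_le_mul_of_nonneg_left hn3 ha.le
    linarith

/-! ### Its probability -/

variable (μ : Measure ℝ) [IsProbabilityMeasure μ]

theorem measure_boxBad_le {b : ℝ} (hL : HighQuantile μ L) (hb : LowQuantile μ b) (hb0 : 0 ≤ b)
    (hμ : ∀ᵐ s ∂μ, 0 ≤ s) (hn : 3 ≤ n) (hR : 1 ≤ R) :
    iidLaw (Sym2 Z2) μ (boxBad L (b / 2) c k n R) ≤
      (800 * k : ℕ) * (lengthErr (5 * R) + lengthErr R) + lengthErr (n / 3) := by
  refine (measure_union_le _ _).trans (add_le_add ((measure_biUnion_finset_le _ _).trans ?_)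
    (measure_lengthBad_le μ hL hb hb0 hμ c (by omega)))
  refine (Finset.sum_le_sum (g := fun _ => lengthErr (5 * R) + lengthErr R) fun j _ =>
    (measure_union_le _ _).trans (add_le_add (measure_lengthBad_le μ hL hb hb0 hμ _ (by omega))
      (measure_lengthBad_le μ hL hb hb0 hμ _ hR))).trans ?_
  rw [Finset.sum_const, Finset.card_range, nsmul_eq_mul]

/-- The scale of the square of radius `n`. -/
def boxR (k n : ℕ) : ℕ := n / (100 * k) + 1

lemma boxR_spec (hk : 0 < k) : n ≤ 100 * k * boxR k n ∧ 100 * k * (boxR k n - 1) ≤ n := by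
  refine ⟨?_, ?_⟩
  · rw [boxR, Nat.mul_add, mul_one]
    exact (Nat.lt_div_mul_add (show 0 < 100 * k by omega)).le.trans_eq
      (by rw [mul_comm (n / (100 * k))])
  · rw [boxR, Nat.add_sub_cancel]
    exact Nat.mul_div_le n _

/-- For every atomless law some `k` makes all large squares good. -/
theorem exists_goodBox [NullSingletonClass μ] (hμ : ∀ᵐ s ∂μ, 0 ≤ s) :
    ∃ (L a : ℝ) (k : ℕ), 0 ≤ L ∧ 0 < a ∧ 8 ≤ k ∧ 341 * L < k * a ∧
      ∃ δ : ℕ → ℝ≥0∞, Tendsto δ atTop (𝓝 0) ∧
        ∀ (c : Z2) (n : ℕ), iidLaw (Sym2 Z2) μ (boxBad L a c k n (boxR k n)) ≤ δ n := by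
  have h0 : μ (Set.Iic (0 : ℝ)) = 0 := by
    rw [← measure_congr Iio_ae_eq_Iic]
    refine measure_eq_zero_iff_ae_notMem.2 ?_
    filter_upwards [hμ] with s hs
    simp [hs]
  obtain ⟨a, b, hba, ha, hb⟩ := exists_quantile μ
    (pos_iff_ne_zero.2 (pow_ne_zero _ (by simp)) : (0 : ℝ≥0∞) < (32⁻¹ : ℝ≥0∞) ^ 2)
  have hapos : 0 < a := by
    by_contra! hle
    exact hb.ne' (measure_mono_null (Set.Iic_subset_Iic.2 (hba.le.trans hle)) h0)
  obtain ⟨L, hL0, hL⟩ : ∃ L : ℝ, 0 ≤ L ∧ HighQuantile μ L := by
    have hlim : Tendsto (fun n : ℕ => μ (Set.Ioi (n : ℝ))) atTop (𝓝 0) := by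
      have hi : (⋂ n : ℕ, Set.Ioi (n : ℝ)) = ∅ := by
        ext s
        simp only [Set.mem_iInter, Set.mem_Ioi, Set.mem_empty_iff_false, iff_false, not_forall,
          not_lt]
        exact exists_nat_ge s
      rw [← measure_empty (μ := μ), ← hi]
      exact tendsto_measure_iInter_atTop (fun n => measurableSet_Ioi.nullMeasurableSet)
        (fun m n hmn => Set.Ioi_subset_Ioi (by exact_mod_cast hmn)) ⟨0, measure_ne_top _ _⟩
    obtain ⟨n, hn⟩ := (hlim.eventually (eventually_le_nhds
      (pos_iff_ne_zero.2 (pow_ne_zero _ (by simp)) :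
        (0 : ℝ≥0∞) < ((2 ^ 13 : ℝ≥0∞)⁻¹) ^ 2))).exists
    exact ⟨n, Nat.cast_nonneg n, hn⟩
  obtain ⟨k, hk⟩ := exists_nat_gt (341 * L / (a / 2) + 8)
  have hq : 0 ≤ 341 * L / (a / 2) := by positivity
  have hk8 : 8 ≤ k := by
    exact_mod_cast (show (8 : ℝ) ≤ k by linarith)
  refine ⟨L, a / 2, k, hL0, half_pos hapos, hk8, ?_, fun n => if 3 ≤ n then
    (800 * k : ℕ) * (lengthErr (5 * boxR k n) + lengthErr (boxR k n)) + lengthErr (n / 3) else 1,
    ?_, fun c n => ?_⟩
  · exact (div_lt_iff₀ (half_pos hapos)).1 (by linarith)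
  · refine Tendsto.congr' ((eventually_ge_atTop 3).mono fun n hn => (if_pos hn).symm) ?_
    have hR : Tendsto (boxR k) atTop atTop := tendsto_atTop.2 fun b =>
      (eventually_ge_atTop (100 * k * b)).mono fun n hn => by
        have hb : b ≤ n / (100 * k) := by
          rw [Nat.le_div_iff_mul_le (show 0 < 100 * k by omega), mul_comm]
          exact hn
        simp only [boxR]
        omega
    have h5 : Tendsto (fun n => lengthErr (5 * boxR k n)) atTop (𝓝 0) :=
      tendsto_lengthErr.comp
        (tendsto_atTop_mono (fun n => Nat.le_mul_of_pos_left _ (by omega)) hR)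
    have h3 : Tendsto (fun n => lengthErr (n / 3)) atTop (𝓝 0) :=
      tendsto_lengthErr.comp (tendsto_atTop.2 fun b =>
        (eventually_ge_atTop (3 * b)).mono fun n hn => by omega)
    simpa using (ENNReal.Tendsto.const_mul (a := ((800 * k : ℕ) : ℝ≥0∞))
      (h5.add (tendsto_lengthErr.comp hR)) (Or.inr (ENNReal.natCast_ne_top _))).add h3
  · dsimp only
    split_ifs with hn
    · exact measure_boxBad_le μ hL ha hapos.le hμ hn (Nat.le_add_left 1 _)
    · exact prob_le_one

end

end Vale.P158
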