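import Vale.Agent.P158.Base

/-!
P158: the square lattice, bigeodesics, and the almost sure properties of finite geodesics for an
atomless law.
-/

open MeasureTheory ProbabilityTheory

namespace Vale.P158

noncomputable section

/-- Vertices of the square lattice. -/
abbrev Z2 := ℤ × ℤ

/-- The square lattice. -/
def lattice : SimpleGraph Z2 where
  Adj x y := |x.1 - y.1| + |x.2 - y.2| = 1
  symm := ⟨fun x y h => by rw [abs_sub_comm y.1, abs_sub_comm y.2]; exact h⟩
  loopless := ⟨fun x h => by simp at h⟩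

/-- The four neighbours of a vertex. -/
def nbrs (x : Z2) : Finset Z2 :=
  {(x.1 + 1, x.2), (x.1 - 1, x.2), (x.1, x.2 + 1), (x.1, x.2 - 1)}

lemma card_nbrs (x : Z2) : (nbrs x).card ≤ 4 := Finset.card_le_four

lemma mem_nbrs {x y : Z2} (h : lattice.Adj x y) : y ∈ nbrs x := by
  obtain ⟨a, b⟩ := x
  obtain ⟨c, d⟩ := y
  simp only [lattice] at h
  simp only [nbrs, Finset.mem_insert, Finset.mem_singleton, Prod.mk.injEq]
  rcases abs_cases (a - c) with h1 | h1 <;> rcases abs_cases (b - d) with h2 | h2 <;> omega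

lemma lattice_connected : lattice.Preconnected := by
  have h1 : ∀ (b : ℤ) (n : ℕ) (a : ℤ), lattice.Reachable (a, b) (a + n, b) := by
    intro b n
    induction n with
    | zero => intro a; simp
    | succ n ih =>
      intro a
      refine (ih a).trans (SimpleGraph.Adj.reachable ?_)
      simp [lattice]
  have h2 : ∀ (a : ℤ) (n : ℕ) (b : ℤ), lattice.Reachable (a, b) (a, b + n) := by
    intro a n
    induction n with
    | zero => intro b; simp
    | succ n ih =>
      intro b
      refine (ih b).trans (SimpleGraph.Adj.reachable ?_)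
      simp [lattice]
  rintro ⟨a, b⟩ ⟨c, d⟩
  have hx : lattice.Reachable (a, b) (c, b) := by
    rcases le_total a c with h | h
    · have := h1 b (c - a).toNat a
      rwa [show a + ((c - a).toNat : ℤ) = c by omega] at this
    · have := h1 b (a - c).toNat c
      rw [show c + ((a - c).toNat : ℤ) = a by omega] at this
      exact this.symm
  refine hx.trans ?_
  rcases le_total b d with h | h
  · have := h2 c (d - b).toNat b
    rwa [show b + ((d - b).toNat : ℤ) = d by omega] at this
  · have := h2 c (b - d).toNat d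
    rw [show d + ((b - d).toNat : ℤ) = b by omega] at this
    exact this.symm

/-- The passage time. -/
def passage (t : Sym2 Z2 → ℝ) (x y : Z2) : ℝ := ⨅ p : lattice.Walk x y, wlen t p

/-- A bigeodesic. -/
def IsBigeodesic (t : Sym2 Z2 → ℝ) (v : ℤ → Z2) : Prop :=
  Function.Injective v ∧ (∀ i, lattice.Adj (v i) (v (i + 1))) ∧
    ∀ i j : ℤ, i < j → ∑ k ∈ Finset.Ico i j, t s(v k, v (k + 1)) = passage t (v i) (v j)

lemma IsGeo.wlen_eq_passage {t : Sym2 Z2 → ℝ} (ht : ∀ e, 0 ≤ t e) {x y : Z2}
    {p : lattice.Walk x y} (hp : IsGeo t p) : wlen t p = passage t x y := by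
  have : Nonempty (lattice.Walk x y) := ⟨p⟩
  exact le_antisymm (le_ciInf fun q => hp.le_walk ht q)
    (ciInf_le ⟨wlen t p, by rintro _ ⟨q, rfl⟩; exact hp.le_walk ht q⟩ p)

/-- Almost surely all weights are positive and every two vertices are joined by exactly one
geodesic, whose weight is the passage time. -/
theorem ae_geodesics (μ : Measure ℝ) [IsProbabilityMeasure μ] [NullSingletonClass μ]
    (hμ : ∀ᵐ s ∂μ, 0 ≤ s) :
    ∀ᵐ t ∂iidLaw (Sym2 Z2) μ, (∀ e, 0 < t e) ∧ ∀ x y : Z2, ∃ p : lattice.Walk x y, IsGeo t p ∧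
      wlen t p = passage t x y ∧ ∀ q : lattice.Walk x y, IsGeo t q → q = p := by
  filter_upwards [ae_pos (ι := Sym2 Z2) μ hμ,
    ae_exists_geo (G := lattice) nbrs (fun _ _ h => mem_nbrs h) card_nbrs μ hμ,
    ae_geo_unique (G := lattice) μ] with t hpos hex hu
  refine ⟨hpos, fun x y => ?_⟩
  obtain ⟨p, hp⟩ := hex x y (lattice_connected x y)
  exact ⟨p, hp, hp.wlen_eq_passage fun e => (hpos e).le, fun q hq => hu x y q p hq hp⟩

end

end Vale.P158
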