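import Vale.Agent.P158.Monge

/-!
P158: detours around bad clusters. The part of the boundary of a `*`-connected set of lattice points
that lies in one complementary component is lattice-connected, so a walk can be rerouted around the
bad clusters that it meets through their neighbours.
-/

set_option linter.unreachableTactic false
set_option linter.unusedTactic false

namespace Vale.P158

noncomputable section

/-- Adjacency with diagonals. -/
def SAdj (x y : Z2) : Prop :=
  x ≠ y ∧ |x.1 - y.1| ≤ 1 ∧ |x.2 - y.2| ≤ 1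

lemma SAdj.symm {x y : Z2} (h : SAdj x y) : SAdj y x :=
  ⟨h.1.symm, by rw [abs_sub_comm]; exact h.2.1, by rw [abs_sub_comm]; exact h.2.2⟩

lemma SAdj.of_adj {x y : Z2} (h : lattice.Adj x y) : SAdj x y := by
  refine ⟨h.ne, ?_, ?_⟩ <;>
  · have h' : |x.1 - y.1| + |x.2 - y.2| = 1 := h
    have := abs_nonneg (x.1 - y.1)
    have := abs_nonneg (x.2 - y.2)
    linarith

/-- A `*`-connected set. -/
def StarConn (K : Set Z2) : Prop :=
  ∀ x ∈ K, ∀ y ∈ K, Relation.ReflTransGen (fun a b => a ∈ K ∧ b ∈ K ∧ SAdj a b) x y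

lemma JoinedIn.trans {U : Set Z2} {x y z : Z2} (h1 : JoinedIn U x y) (h2 : JoinedIn U y z) :
    JoinedIn U x z := by
  obtain ⟨p, hp⟩ := h1
  obtain ⟨q, hq⟩ := h2
  exact ⟨p.append q, fun v hv => ((SimpleGraph.Walk.mem_support_append_iff p q).1 hv).elim
    (hp v) (hq v)⟩

lemma JoinedIn.mono {U W : Set Z2} (h : U ⊆ W) {x y : Z2} (h1 : JoinedIn U x y) :
    JoinedIn W x y := h1.imp fun _ hp v hv => h (hp v hv)

lemma JoinedIn.of_adj {U : Set Z2} {x y : Z2} (h : lattice.Adj x y) (hx : x ∈ U) (hy : y ∈ U) :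
    JoinedIn U x y :=
  ⟨h.toWalk, fun v hv => by
    simp only [SimpleGraph.Adj.toWalk, SimpleGraph.Walk.support_cons, SimpleGraph.Walk.support_nil,
      List.mem_cons, List.not_mem_nil, or_false] at hv
    rcases hv with rfl | rfl <;> assumption⟩

lemma JoinedIn.mem_left {U : Set Z2} {x y : Z2} (h : JoinedIn U x y) : x ∈ U := by
  obtain ⟨p, hp⟩ := h
  exact hp x p.start_mem_support

/-! ### A primitive of a closed function on the edges -/

/-- Sum of `g` between `0` and `n`, modulo two. -/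
def between (g : ℤ → ZMod 2) (n : ℤ) : ZMod 2 :=
  ∑ k ∈ Finset.Ico 0 n, g k + ∑ k ∈ Finset.Ico n 0, g k

lemma between_succ (g : ℤ → ZMod 2) (n : ℤ) : between g (n + 1) = between g n + g n := by
  rcases le_or_gt 0 n with h | h
  · rw [between, between, Finset.Ico_eq_empty (show ¬(n + 1 < 0) by omega),
      Finset.Ico_eq_empty (show ¬(n < 0) by omega),
      show Finset.Ico 0 (n + 1) = insert n (Finset.Ico 0 n) by ext x; simp; omega,
      Finset.sum_insert (by simp)]
    simp [add_comm]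
  · rw [between, between, Finset.Ico_eq_empty (show ¬(0 < n + 1) by omega),
      Finset.Ico_eq_empty (show ¬(0 < n) by omega),
      show Finset.Ico n 0 = insert n (Finset.Ico (n + 1) 0) by ext x; simp; omega,
      Finset.sum_insert (by simp)]
    simp only [Finset.sum_empty, zero_add]
    rw [add_right_comm, CharTwo.add_self_eq_zero, zero_add]

lemma between_zero (g : ℤ → ZMod 2) : between g 0 = 0 := by simp [between]

/-- A function on the edges with even sum on every square is a difference. -/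
theorem exists_primitive {f : Z2 → Z2 → ZMod 2} (hf : ∀ x y, f x y = f y x)
    (hsq : ∀ i j, f (i, j) (i + 1, j) + f (i + 1, j) (i + 1, j + 1) + f (i, j + 1) (i + 1, j + 1) +
      f (i, j) (i, j + 1) = 0) :
    ∃ φ : Z2 → ZMod 2, ∀ x y, lattice.Adj x y → φ x + φ y = f x y := by
  set φ : Z2 → ZMod 2 := fun x => between (fun k => f (k, 0) (k + 1, 0)) x.1 +
    between (fun k => f (x.1, k) (x.1, k + 1)) x.2 with hφ
  have hv : ∀ i j, φ (i, j) + φ (i, j + 1) = f (i, j) (i, j + 1) := fun i j => by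
    simp only [hφ, between_succ]
    grind
  have hh : ∀ i j, φ (i, j) + φ (i + 1, j) = f (i, j) (i + 1, j) := by
    intro i j
    induction j using Int.induction_on with
    | zero => simp only [hφ, between_zero, between_succ]; grind
    | succ n ih =>
      have h1 := hv i n
      have h2 := hv (i + 1) n
      have h3 := hsq i n
      grind
    | pred n ih =>
      have h1 := hv i (-(n : ℤ) - 1)
      have h2 := hv (i + 1) (-(n : ℤ) - 1)
      have h3 := hsq i (-(n : ℤ) - 1)
      simp only [show -(n : ℤ) - 1 + 1 = -(n : ℤ) by ring] at h1 h2 h3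
      grind
  refine ⟨φ, fun x y hxy => ?_⟩
  obtain ⟨a, b⟩ := x
  obtain ⟨c, d⟩ := y
  have hm := mem_nbrs hxy
  simp only [nbrs, Finset.mem_insert, Finset.mem_singleton, Prod.mk.injEq] at hm
  rcases hm with ⟨rfl, rfl⟩ | ⟨rfl, rfl⟩ | ⟨rfl, rfl⟩ | ⟨rfl, rfl⟩
  · exact hh a d
  · have h := hh (a - 1) d
    rw [show a - 1 + 1 = a by ring] at h
    rw [add_comm, h, hf]
  · exact hv c b
  · have h := hv c (b - 1)
    rw [show b - 1 + 1 = b by ring] at h
    rw [add_comm, h, hf]

/-! ### The boundary in one component -/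

variable {K O : Set Z2}

/-- The points of `O` next to `K`. -/
def bdry (K O : Set Z2) : Set Z2 := {o | o ∈ O ∧ ∃ k ∈ K, SAdj o k}

lemma sadj_step {i j i' j' : ℤ} (h1 : i' = i ∨ i' = i + 1 ∨ i' = i - 1)
    (h2 : j' = j ∨ j' = j + 1 ∨ j' = j - 1) (h : ¬(i = i' ∧ j = j')) : SAdj (i, j) (i', j') := by
  refine ⟨fun e => h (Prod.mk.injEq _ _ _ _ ▸ e), ?_, ?_⟩ <;>
  · rw [abs_le]; constructor <;> simp <;> omega

lemma adj_h (i j : ℤ) : lattice.Adj (i, j) (i + 1, j) := by simp [lattice]

lemma adj_v (i j : ℤ) : lattice.Adj (i, j) (i, j + 1) := by simp [lattice]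

open scoped Classical in
/-- In one complementary component the boundary of a `*`-connected set is connected. -/
theorem bdry_connected (hK : StarConn K) (hdis : ∀ o ∈ O, o ∉ K)
    (hconn : ∀ x ∈ O, ∀ y ∈ O, JoinedIn O x y)
    (hmax : ∀ x y, x ∈ O → lattice.Adj x y → y ∉ K → y ∈ O)
    {a b : Z2} (ha : a ∈ bdry K O) (hb : b ∈ bdry K O) : JoinedIn (bdry K O) a b := by
  set P : Set Z2 := {o | o ∈ bdry K O ∧ JoinedIn (bdry K O) a o} with hP
  have hPB : ∀ {x y}, x ∈ P → lattice.Adj x y → y ∈ bdry K O → y ∈ P := fun {x y} hx hxy hy =>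
    ⟨hy, hx.2.trans (.of_adj hxy hx.1 hy)⟩
  have hPO : ∀ {x}, x ∈ P → x ∈ O ∧ x ∉ K := fun {x} hx => ⟨hx.1.1, hdis x hx.1.1⟩
  set ind : Prop → ZMod 2 := fun p => if p then 1 else 0 with hind
  set f : Z2 → Z2 → ZMod 2 := fun x y => ind (x ∈ P ∧ y ∈ K) + ind (y ∈ P ∧ x ∈ K) with hf
  have hsq : ∀ i j, f (i, j) (i + 1, j) + f (i + 1, j) (i + 1, j + 1) +
      f (i, j + 1) (i + 1, j + 1) + f (i, j) (i, j + 1) = 0 := by
    intro i j
    set A : Z2 := (i, j) with hA
    set B : Z2 := (i + 1, j) with hB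
    set C : Z2 := (i + 1, j + 1) with hC
    set D : Z2 := (i, j + 1) with hD
    have eAB : lattice.Adj A B := adj_h i j
    have eDC : lattice.Adj D C := adj_h i (j + 1)
    have eAD : lattice.Adj A D := adj_v i j
    have eBC : lattice.Adj B C := adj_v (i + 1) j
    have sAC : SAdj A C := sadj_step (by omega) (by omega) (by omega)
    have sBD : SAdj B D := sadj_step (by omega) (by omega) (by omega)
    have touch : ∀ {y}, y ∈ O → ∀ {k}, k ∈ K → SAdj y k → y ∈ bdry K O :=
      fun hy _ hk h => ⟨hy, _, hk, h⟩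
    -- a corner in `P` spreads to a neighbouring corner outside `K`, if `K` meets the square
    have spread : ∀ {x y}, lattice.Adj x y → x ∈ P → y ∉ K → (∃ k ∈ K, SAdj y k) → y ∈ P :=
      fun h hx hy ⟨k, hk, hs⟩ => hPB hx h (touch (hmax _ _ (hPO hx).1 h hy) hk hs)
    by_cases kA : A ∈ K <;> by_cases kB : B ∈ K <;> by_cases kC : C ∈ K <;> by_cases kD : D ∈ K
    all_goals
      simp only [hf, hind]
      by_cases pA : A ∈ P <;> by_cases pB : B ∈ P <;> by_cases pC : C ∈ P <;> by_cases pD : D ∈ P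
      all_goals
        first
        | (exfalso; exact (hPO pA).2 kA)
        | (exfalso; exact (hPO pB).2 kB)
        | (exfalso; exact (hPO pC).2 kC)
        | (exfalso; exact (hPO pD).2 kD)
        | (simp [kA, kB, kC, kD, pA, pB, pC, pD]; done)
        | (simp [kA, kB, kC, kD, pA, pB, pC, pD]; decide)
        | (exfalso; apply pB; refine spread eAB pA kB ?_
           first
           | exact ⟨A, kA, (SAdj.of_adj eAB).symm⟩ | exact ⟨C, kC, SAdj.of_adj eBC⟩
           | exact ⟨D, kD, sBD⟩)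
        | (exfalso; apply pD; refine spread eAD pA kD ?_
           first
           | exact ⟨A, kA, (SAdj.of_adj eAD).symm⟩ | exact ⟨C, kC, SAdj.of_adj eDC⟩
           | exact ⟨B, kB, sBD.symm⟩)
        | (exfalso; apply pA; refine spread eAB.symm pB kA ?_
           first
           | exact ⟨B, kB, SAdj.of_adj eAB⟩ | exact ⟨C, kC, sAC⟩
           | exact ⟨D, kD, SAdj.of_adj eAD⟩)
        | (exfalso; apply pC; refine spread eBC pB kC ?_
           first
           | exact ⟨B, kB, (SAdj.of_adj eBC).symm⟩ | exact ⟨A, kA, sAC.symm⟩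
           | exact ⟨D, kD, (SAdj.of_adj eDC).symm⟩)
        | (exfalso; apply pB; refine spread eBC.symm pC kB ?_
           first
           | exact ⟨A, kA, (SAdj.of_adj eAB).symm⟩ | exact ⟨C, kC, SAdj.of_adj eBC⟩
           | exact ⟨D, kD, sBD⟩)
        | (exfalso; apply pD; refine spread eDC.symm pC kD ?_
           first
           | exact ⟨A, kA, (SAdj.of_adj eAD).symm⟩ | exact ⟨C, kC, SAdj.of_adj eDC⟩
           | exact ⟨B, kB, sBD.symm⟩)
        | (exfalso; apply pA; refine spread eAD.symm pD kA ?_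
           first
           | exact ⟨B, kB, SAdj.of_adj eAB⟩ | exact ⟨C, kC, sAC⟩
           | exact ⟨D, kD, SAdj.of_adj eAD⟩)
        | (exfalso; apply pC; refine spread eDC pD kC ?_
           first
           | exact ⟨B, kB, (SAdj.of_adj eBC).symm⟩ | exact ⟨A, kA, sAC.symm⟩
           | exact ⟨D, kD, (SAdj.of_adj eDC).symm⟩)
  obtain ⟨φ, hφ⟩ := exists_primitive (f := f) (fun x y => add_comm _ _) hsq
  -- `φ` is constant on `O`
  have hcO : ∀ x ∈ O, ∀ y ∈ O, φ x = φ y := by
    intro x hx y hy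
    obtain ⟨p, hp⟩ := hconn x hx y hy
    clear hx hy
    induction p with
    | nil => rfl
    | @cons u w z h p ih =>
      have hu : u ∈ O := hp u (by simp)
      have hw : w ∈ O := hp w (by simp [p.start_mem_support])
      have h0 : f u w = 0 := by
        simp [hf, hind, hdis u hu, hdis w hw]
      have h1 := hφ u w h
      rw [h0] at h1
      rw [CharTwo.add_eq_zero.1 h1]
      exact ih fun v hv => hp v (by simp [hv])
  -- `φ` is constant on `K`
  have hcK : ∀ x ∈ K, ∀ y ∈ K, φ x = φ y := by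
    intro x hx y hy
    refine Relation.ReflTransGen.head_induction_on (motive := fun u _ => φ u = φ y) (hK x hx y hy)
      rfl ?_
    rintro u w ⟨hu, hw, hs⟩ - ih
    rw [← ih]
    have hPK : ∀ {z}, z ∈ K → z ∉ P := fun hz hzP => (hPO hzP).2 hz
    by_cases hl : lattice.Adj u w
    · have h1 := hφ u w hl
      rw [show f u w = 0 by simp [hf, hind, hPK hu, hPK hw]] at h1
      exact CharTwo.add_eq_zero.1 h1
    · have hc1 : lattice.Adj u (w.1, u.2) ∧ lattice.Adj (w.1, u.2) w := by
        obtain ⟨h0, h1, h2⟩ := hs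
        have hne : u.1 ≠ w.1 ∨ u.2 ≠ w.2 := by
          by_contra! hcon
          exact h0 (Prod.ext hcon.1 hcon.2)
        simp only [lattice] at hl ⊢
        rcases abs_cases (u.1 - w.1) with h3 | h3 <;> rcases abs_cases (u.2 - w.2) with h4 | h4 <;>
          constructor <;> simp <;> omega
      have h1 := hφ _ _ hc1.1
      have h2 := hφ _ _ hc1.2
      have h3 : f u (w.1, u.2) = f (w.1, u.2) w := by
        simp [hf, hind, hPK hu, hPK hw, hu, hw]
      grind
  -- an attached point in the same part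
  have attach : ∀ o ∈ bdry K O, ∃ c ∈ bdry K O, JoinedIn (bdry K O) o c ∧
      ∃ k ∈ K, lattice.Adj c k := by
    intro o ho
    obtain ⟨hoO, k, hk, hs⟩ := ho
    have ho : o ∈ bdry K O := ⟨hoO, k, hk, hs⟩
    by_cases hl : lattice.Adj o k
    · exact ⟨o, ho, .refl ho, k, hk, hl⟩
    · have hc : lattice.Adj o (k.1, o.2) ∧ lattice.Adj (k.1, o.2) k := by
        obtain ⟨h0, h1, h2⟩ := hs
        have hne : o.1 ≠ k.1 ∨ o.2 ≠ k.2 := by
          by_contra! hcon
          exact h0 (Prod.ext hcon.1 hcon.2)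
        simp only [lattice] at hl ⊢
        rcases abs_cases (o.1 - k.1) with h3 | h3 <;> rcases abs_cases (o.2 - k.2) with h4 | h4 <;>
          constructor <;> simp <;> omega
      by_cases hcK' : (k.1, o.2) ∈ K
      · exact ⟨o, ho, .refl ho, _, hcK', hc.1⟩
      · have hcB : (k.1, o.2) ∈ bdry K O :=
          ⟨hmax _ _ hoO hc.1 hcK', k, hk, SAdj.of_adj hc.2⟩
        exact ⟨_, hcB, .of_adj hc.1 ho hcB, k, hk, hc.2⟩
  obtain ⟨a', ha', haa', ka, hka, haka⟩ := attach a ha
  obtain ⟨b', hb', hbb', kb, hkb, hbkb⟩ := attach b hb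
  have ha'P : a' ∈ P := ⟨ha', haa'⟩
  have h1 := hφ a' ka haka
  have h2 := hφ b' kb hbkb
  have fa : f a' ka = 1 := by
    simp [hf, hind, ha'P, hka, hdis a' ha'.1]
  have fb : f b' kb = ind (b' ∈ P) := by
    simp [hf, hind, hkb, hdis b' hb'.1]
  rw [fa] at h1
  rw [fb, hcO b' hb'.1 a' ha'.1, hcK kb hkb ka hka, h1] at h2
  by_cases hb'P : b' ∈ P
  · exact hb'P.2.trans hbb'.symm
  · simp [hind, hb'P] at h2

/-! ### Detours -/

variable (bad : Set Z2)

/-- The `*`-cluster of a bad point. -/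
def cluster (x : Z2) : Set Z2 :=
  {y | Relation.ReflTransGen (fun a b => a ∈ bad ∧ b ∈ bad ∧ SAdj a b) x y}

lemma mem_cluster_self (x : Z2) : x ∈ cluster bad x := Relation.ReflTransGen.refl

lemma cluster_subset {x : Z2} (hx : x ∈ bad) : cluster bad x ⊆ bad := by
  intro y hy
  rcases Relation.ReflTransGen.cases_tail hy with rfl | ⟨c, -, h⟩
  exacts [hx, h.2.1]

lemma cluster_eq {x y : Z2} (hy : y ∈ cluster bad x) : cluster bad y = cluster bad x := by
  have hrev : Relation.ReflTransGen (fun a b => a ∈ bad ∧ b ∈ bad ∧ SAdj a b) y x := by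
    refine Relation.ReflTransGen.head_induction_on
      (motive := fun u _ => Relation.ReflTransGen (fun a b => a ∈ bad ∧ b ∈ bad ∧ SAdj a b) y u)
      hy .refl ?_
    rintro u w ⟨hu, hw, hs⟩ - ih
    exact ih.tail ⟨hw, hu, hs.symm⟩
  ext z
  exact ⟨fun hz => Relation.ReflTransGen.trans hy hz, fun hz => hrev.trans hz⟩

lemma starConn_cluster {x : Z2} : StarConn (cluster bad x) := by
  intro u hu v hv
  have huv : v ∈ cluster bad u := by rwa [cluster_eq bad hu]
  suffices h : Relation.ReflTransGen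
      (fun a b => a ∈ cluster bad u ∧ b ∈ cluster bad u ∧ SAdj a b) u v by
    rwa [cluster_eq bad hu] at h
  clear hv
  induction huv with
  | refl => exact .refl
  | tail h1 h2 ih => exact ih.tail ⟨h1, h1.tail h2, h2.2.2⟩

lemma mem_cluster_of_sadj {x y z : Z2} (hy : y ∈ cluster bad x) (hx : x ∈ bad) (hz : z ∈ bad)
    (h : SAdj y z) : z ∈ cluster bad x :=
  Relation.ReflTransGen.tail hy ⟨cluster_subset bad hx hy, hz, h⟩

/-- The good points on the walk or next to a bad cluster that it meets. -/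
def detourSet {x y : Z2} (p : lattice.Walk x y) : Set Z2 :=
  {v | v ∉ bad ∧ (v ∈ p.support ∨
    ∃ w ∈ p.support, w ∈ bad ∧ ∃ k ∈ cluster bad w, SAdj v k)}

/-- A walk between good points is rerouted through its detour set, unless a cluster on it
separates its ends. -/
theorem detour {u v : Z2} (p : lattice.Walk u v) (hu : u ∉ bad) (hv : v ∉ bad)
    (hsep : ∀ w ∈ p.support, w ∈ bad → JoinedIn (cluster bad w)ᶜ u v) :
    JoinedIn (detourSet bad p) u v := by
  classical
  induction hn : p.length using Nat.strong_induction_on generalizing u with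
  | _ n IH =>
  by_cases hall : ∀ w ∈ p.support, w ∉ bad
  · exact ⟨p, fun w hw => ⟨hall w hw, Or.inl hw⟩⟩
  push Not at hall
  obtain ⟨w₀, hw₀, hw₀b⟩ := hall
  obtain ⟨m, hm, hmle⟩ := (SimpleGraph.Walk.mem_support_iff_exists_getVert).1 hw₀
  have hex : ∃ i, p.getVert i ∈ bad := ⟨m, hm ▸ hw₀b⟩
  set i := Nat.find hex with hi
  have hib : p.getVert i ∈ bad := Nat.find_spec hex
  have hibefore : ∀ k < i, p.getVert k ∉ bad := fun k hk => Nat.find_min hex hk
  have hi0 : 0 < i := by
    by_contra! h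
    rw [Nat.le_zero.1 h, p.getVert_zero] at hib
    exact hu hib
  have hile : i ≤ p.length := (Nat.find_min' hex (hm ▸ hw₀b)).trans hmle
  set K := cluster bad (p.getVert i) with hKdef
  have hKbad : K ⊆ bad := cluster_subset bad hib
  set j := Nat.findGreatest (fun k => p.getVert k ∈ K) p.length with hj
  have hjK : p.getVert j ∈ K :=
    Nat.findGreatest_spec (P := fun k => p.getVert k ∈ K) hile (mem_cluster_self bad _)
  have hjlt : j < p.length := by
    refine lt_of_le_of_ne (Nat.findGreatest_le _) fun h => hv (hKbad ?_)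
    rw [h, p.getVert_length] at hjK
    exact hjK
  have hjafter : ∀ k, j < k → k ≤ p.length → p.getVert k ∉ K := fun k h1 h2 =>
    Nat.findGreatest_is_greatest (P := fun k => p.getVert k ∈ K) h1 h2
  have hij : i ≤ j := Nat.le_findGreatest hile (mem_cluster_self bad _)
  set a := p.getVert (i - 1) with ha
  set b := p.getVert (j + 1) with hb
  have hab : a ∉ bad := hibefore _ (by omega)
  have hadja : lattice.Adj a (p.getVert i) := by
    have := p.adj_getVert_succ (show i - 1 < p.length by omega)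
    rwa [show i - 1 + 1 = i by omega] at this
  have hadjb : lattice.Adj (p.getVert j) b := p.adj_getVert_succ hjlt
  have hbb : b ∉ bad := fun h => hjafter (j + 1) (by omega) (by omega)
    (mem_cluster_of_sadj bad hjK hib h (SAdj.of_adj hadjb))
  -- the walk before `a` and after `b`
  have hpre : JoinedIn {x | x ∉ bad ∧ x ∈ p.support} u a :=
    ⟨p.take (i - 1), fun x hx => by
      obtain ⟨k, rfl, hk⟩ := (SimpleGraph.Walk.mem_support_iff_exists_getVert).1 hx
      rw [SimpleGraph.Walk.take_length] at hk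
      rw [SimpleGraph.Walk.take_getVert]
      exact ⟨hibefore _ (by omega), p.getVert_mem_support _⟩⟩
  set p' := p.drop (j + 1) with hp'
  have hp'sup : ∀ x ∈ p'.support, x ∈ p.support ∧ x ∉ K := by
    intro x hx
    obtain ⟨k, rfl, hk⟩ := (SimpleGraph.Walk.mem_support_iff_exists_getVert).1 hx
    rw [SimpleGraph.Walk.drop_length] at hk
    rw [SimpleGraph.Walk.drop_getVert]
    exact ⟨p.getVert_mem_support _, hjafter _ (by omega) (by omega)⟩
  set O : Set Z2 := {x | JoinedIn Kᶜ u x} with hO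
  have hOdis : ∀ o ∈ O, o ∉ K := fun o ho => ho.symm.mem_left
  have hOconn : ∀ x ∈ O, ∀ y ∈ O, JoinedIn O x y := by
    intro x hx y hy
    have key : ∀ z, JoinedIn Kᶜ u z → JoinedIn O u z := by
      rintro z ⟨q, hq⟩
      exact ⟨q, fun w hw => ⟨q.takeUntil w hw, fun s hs =>
        hq s (q.support_takeUntil_subset_support hw hs)⟩⟩
    exact (key x hx).symm.trans (key y hy)
  have hOmax : ∀ x y, x ∈ O → lattice.Adj x y → y ∉ K → y ∈ O := fun x y hx h hy =>
    JoinedIn.trans hx (.of_adj h hx.symm.mem_left hy)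
  have hua : JoinedIn Kᶜ u a := hpre.mono fun x hx => fun h => hx.1 (hKbad h)
  have huv : JoinedIn Kᶜ u v := hsep _ (p.getVert_mem_support i) hib
  have hbv : JoinedIn Kᶜ b v := ⟨p', fun x hx => (hp'sup x hx).2⟩
  have haB : a ∈ bdry K O := ⟨hua, _, mem_cluster_self bad _, SAdj.of_adj hadja⟩
  have hbB : b ∈ bdry K O := ⟨huv.trans hbv.symm, _, hjK, (SAdj.of_adj hadjb).symm⟩
  have hB : bdry K O ⊆ {x | x ∉ bad ∧ ∃ k ∈ K, SAdj x k} := fun x ⟨hxO, k, hk, hs⟩ =>
    ⟨fun hx => hOdis x hxO (mem_cluster_of_sadj bad hk hib hx hs.symm), k, hk, hs⟩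
  have hmid : JoinedIn {x | x ∉ bad ∧ ∃ k ∈ K, SAdj x k} a b :=
    (bdry_connected (starConn_cluster bad) hOdis hOconn hOmax haB hbB).mono hB
  have hrest : JoinedIn (detourSet bad p') b v := by
    refine IH p'.length ?_ p' hbb (fun w hw hwb => ?_) rfl
    · rw [← hn, hp', SimpleGraph.Walk.drop_length]; omega
    · have hav : ∀ {U : Set Z2}, U ⊆ {x | x ∉ bad} → U ⊆ (cluster bad w)ᶜ := fun hU x hx h =>
        hU hx (cluster_subset bad hwb h)
      refine ((hmid.mono (hav fun x hx => hx.1)).symm.trans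
        ((hpre.mono (hav fun x hx => hx.1)).symm)).trans ?_
      exact hsep w (hp'sup w hw).1 hwb
  have h1 : {x | x ∉ bad ∧ x ∈ p.support} ⊆ detourSet bad p := fun x hx => ⟨hx.1, Or.inl hx.2⟩
  have h2 : {x | x ∉ bad ∧ ∃ k ∈ K, SAdj x k} ⊆ detourSet bad p := fun x ⟨hx, k, hk, hs⟩ =>
    ⟨hx, Or.inr ⟨_, p.getVert_mem_support i, hib, k, hk, hs⟩⟩
  refine ((hpre.mono h1).trans (hmid.mono h2)).trans (hrest.mono ?_)
  rintro x ⟨hx, h | ⟨w, hw, hwb, hk⟩⟩
  · exact ⟨hx, Or.inl (hp'sup x h).1⟩
  · exact ⟨hx, Or.inr ⟨w, (hp'sup w hw).1, hwb, hk⟩⟩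

end

end Vale.P158
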