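import Vale.Agent.P158.Peierls
import Vale.Agent.P158.StarBoundary

/-!
P158: Kesten's length bound without moments. For every atomless law, with probability tending to
one, every geodesic between two points of a square of radius `R` has at most `C R` edges.
-/

open MeasureTheory ProbabilityTheory Filter Topology
open scoped ENNReal

namespace Vale.P158

noncomputable section

/-! ### Rare bad clusters -/

/-- Points with an edge heavier than `L`. -/
def badSet (L : ℝ) (t : Sym2 Z2 → ℝ) : Set Z2 := {v | ∃ w ∈ nbrs v, L < t s(v, w)}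

lemma le_of_notMem_badSet {L : ℝ} {t : Sym2 Z2 → ℝ} {v w : Z2} (hv : v ∉ badSet L t)
    (h : lattice.Adj v w) : t s(v, w) ≤ L :=
  not_lt.1 fun hlt => hv ⟨w, mem_nbrs h, hlt⟩

/-- The eight surrounding points. -/
def star8 (x : Z2) : Finset Z2 :=
  {(x.1 + 1, x.2), (x.1 - 1, x.2), (x.1, x.2 + 1), (x.1, x.2 - 1), (x.1 + 1, x.2 + 1),
    (x.1 + 1, x.2 - 1), (x.1 - 1, x.2 + 1), (x.1 - 1, x.2 - 1)}

lemma card_star8 (x : Z2) : (star8 x).card ≤ 8 := by
  refine (Finset.card_insert_le _ _).trans (Nat.succ_le_succ ?_)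
  refine (Finset.card_insert_le _ _).trans (Nat.succ_le_succ ?_)
  refine (Finset.card_insert_le _ _).trans (Nat.succ_le_succ ?_)
  refine (Finset.card_insert_le _ _).trans (Nat.succ_le_succ ?_)
  exact Finset.card_le_four

lemma mem_star8 {x y : Z2} (h : SAdj x y) : y ∈ star8 x := by
  obtain ⟨a, b⟩ := x
  obtain ⟨c, d⟩ := y
  obtain ⟨hne, h1, h2⟩ := h
  simp only [ne_eq, Prod.mk.injEq] at hne
  simp only [abs_le] at h1 h2
  simp only [star8, Finset.mem_insert, Finset.mem_singleton, Prod.mk.injEq]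
  omega

/-- The surroundings of a finite set. -/
def starNbhd (S : Finset Z2) : Finset Z2 := S.biUnion star8

lemma card_starNbhd (S : Finset Z2) : (starNbhd S).card ≤ 8 * S.card := by
  rw [mul_comm]
  exact Finset.card_biUnion_le_card_mul _ _ _ fun x _ => card_star8 x

/-- `u` is joined to `W` inside `S`, with diagonal steps. -/
def Linked (S : Set Z2) (W : Finset Z2) (u : Z2) : Prop :=
  ∃ w ∈ W, Relation.ReflTransGen (fun a b => a ∈ S ∧ b ∈ S ∧ SAdj a b) u w

lemma linked_mono {S S' : Finset Z2} (h : S ⊆ S') {x y : Z2}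
    (hxy : Relation.ReflTransGen
      (fun a b => a ∈ (S : Set Z2) ∧ b ∈ (S : Set Z2) ∧ SAdj a b) x y) :
    Relation.ReflTransGen (fun a b => a ∈ (S' : Set Z2) ∧ b ∈ (S' : Set Z2) ∧ SAdj a b) x y := by
  induction hxy with
  | refl => exact .refl
  | tail _ hb ih =>
    exact ih.tail ⟨Finset.mem_coe.2 (h (Finset.mem_coe.1 hb.1)),
      Finset.mem_coe.2 (h (Finset.mem_coe.1 hb.2.1)), hb.2.2⟩

lemma linked_lift {K U : Set Z2} (h : K ⊆ U) {x y : Z2}
    (hxy : Relation.ReflTransGen (fun a b => a ∈ K ∧ b ∈ K ∧ SAdj a b) x y) :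
    Relation.ReflTransGen (fun a b => a ∈ U ∧ b ∈ U ∧ SAdj a b) x y := by
  induction hxy with
  | refl => exact .refl
  | tail _ hb ih => exact ih.tail ⟨h hb.1, h hb.2.1, hb.2.2⟩

lemma exists_linked_subset {U : Set Z2} {W : Finset Z2} (hU : ∀ u ∈ U, Linked U W u) :
    ∀ (m : ℕ) (T : Finset Z2), (T : Set Z2) ⊆ U → m ≤ T.card →
      ∃ S : Finset Z2, (S : Set Z2) ⊆ U ∧ S.card = m ∧ ∀ s ∈ S, Linked (S : Set Z2) W s := by
  intro m
  induction m with
  | zero => exact fun _ _ _ => ⟨∅, by simp, by simp, by simp⟩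
  | succ m ih =>
    intro T hT hcard
    obtain ⟨S, hSU, hSc, hS⟩ := ih T hT (by omega)
    obtain ⟨u, huT, huS⟩ := Finset.exists_mem_notMem_of_card_lt_card (show S.card < T.card by omega)
    obtain ⟨w, hwW, hw⟩ := hU u (hT huT)
    have key : u ∉ S → ∃ v, v ∈ U ∧ v ∉ S ∧ Linked (↑(insert v S) : Set Z2) W v := by
      have huU : u ∈ U := hT huT
      clear huT huS
      have hends : u ∈ U → u ∉ S → ∃ v, v ∈ U ∧ v ∉ S ∧
          Linked (↑(insert v S) : Set Z2) W v := by
        refine Relation.ReflTransGen.head_induction_on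
          (motive := fun x _ => x ∈ U → x ∉ S → ∃ v, v ∈ U ∧ v ∉ S ∧
            Linked (↑(insert v S) : Set Z2) W v) hw ?_ ?_
        · exact fun hwU hwS => ⟨w, hwU, hwS, w, hwW, .refl⟩
        · rintro x y ⟨hx, hy, hs⟩ - ihy - hxS
          by_cases hyS : y ∈ S
          · obtain ⟨w', hw', hyw'⟩ := hS y hyS
            refine ⟨x, hx, hxS, w', hw', .head ⟨by simp, by simp [hyS], hs⟩ ?_⟩
            exact linked_mono (Finset.subset_insert _ _) hyw'
          · exact ihy hy hyS
      exact hends huU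
    obtain ⟨v, hvU, hvS, hv⟩ := key huS
    refine ⟨insert v S, ?_, by rw [Finset.card_insert_of_notMem hvS, hSc], fun s hs => ?_⟩
    · rw [Finset.coe_insert]; exact Set.insert_subset hvU hSU
    · rcases Finset.mem_insert.1 hs with rfl | hs
      · exact hv
      · obtain ⟨w', hw', hsw'⟩ := hS s hs
        exact ⟨w', hw', linked_mono (Finset.subset_insert _ _) hsw'⟩

open scoped Classical in
/-- The candidates for a set of `m` points linked to `W`, built layer by layer. -/
def animals : ℕ → Finset Z2 → Finset (Finset Z2)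
  | 0, _ => {∅}
  | m + 1, W =>
      W.powerset.biUnion fun S₀ =>
        if _h : 0 < S₀.card ∧ S₀.card ≤ m + 1 then
          (animals (m + 1 - S₀.card) (starNbhd S₀)).image (S₀ ∪ ·)
        else ∅
  termination_by m => m
  decreasing_by all_goals omega

lemma card_animals_le : ∀ (m : ℕ) (W : Finset Z2),
    (animals m W).card ≤ 2 ^ W.card * 2 ^ (9 * m) := by
  classical
  intro m
  induction m using Nat.strong_induction_on with
  | _ m IH =>
    intro W
    cases m with
    | zero => simp [animals]; exact Nat.one_le_two_pow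
    | succ m =>
      rw [animals]
      refine Finset.card_biUnion_le.trans ?_
      refine (Finset.sum_le_sum (g := fun _ => 2 ^ (9 * (m + 1))) fun S₀ _ => ?_).trans_eq ?_
      · split_ifs with h
        · refine Finset.card_image_le.trans ((IH _ (by omega) _).trans ?_)
          rw [← pow_add]
          exact Nat.pow_le_pow_right (by norm_num) (by have := card_starNbhd S₀; omega)
        · simp
      · rw [Finset.sum_const, smul_eq_mul, Finset.card_powerset]

lemma mem_animals : ∀ (m : ℕ) (W S : Finset Z2), S.card = m →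
    (∀ s ∈ S, Linked (S : Set Z2) W s) → S ∈ animals m W := by
  classical
  intro m
  induction m using Nat.strong_induction_on with
  | _ m IH =>
    intro W S hS hl
    cases m with
    | zero => simp [animals, Finset.card_eq_zero.1 hS]
    | succ m =>
      rw [animals]
      set S₀ := S ∩ W with hS₀
      obtain ⟨s, hs⟩ := Finset.card_pos.1 (show 0 < S.card by omega)
      obtain ⟨w, hw, hsw⟩ := hl s hs
      have hwS : w ∈ S := by
        rcases Relation.ReflTransGen.cases_tail hsw with rfl | ⟨c, -, h⟩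
        exacts [hs, Finset.mem_coe.1 h.2.1]
      have h0 : 0 < S₀.card := Finset.card_pos.2 ⟨w, Finset.mem_inter.2 ⟨hwS, hw⟩⟩
      have hle : S₀.card ≤ m + 1 := hS ▸ Finset.card_le_card Finset.inter_subset_left
      refine Finset.mem_biUnion.2 ⟨S₀, Finset.mem_powerset.2 Finset.inter_subset_right, ?_⟩
      rw [dif_pos ⟨h0, hle⟩]
      refine Finset.mem_image.2 ⟨S \ S₀, IH _ (by omega) _ _ ?_ ?_, ?_⟩
      · rw [Finset.card_sdiff_of_subset Finset.inter_subset_left, hS]
      · intro x hx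
        obtain ⟨hxS, hx0⟩ := Finset.mem_sdiff.1 hx
        obtain ⟨w', hw', hxw'⟩ := hl x hxS
        refine (Relation.ReflTransGen.head_induction_on
          (motive := fun y _ => y ∈ S → y ∉ S₀ →
            Linked (↑(S \ S₀) : Set Z2) (starNbhd S₀) y) hxw' ?_ ?_) hxS hx0
        · exact fun h1 h2 => absurd (Finset.mem_inter.2 ⟨h1, hw'⟩) h2
        · rintro y z ⟨hy, hz, hyz⟩ - ihz hyS hy0
          by_cases hz0 : z ∈ S₀
          · exact ⟨y, Finset.mem_biUnion.2 ⟨z, hz0, mem_star8 hyz.symm⟩, .refl⟩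
          · obtain ⟨w'', hw'', hzw''⟩ := ihz (Finset.mem_coe.1 hz) hz0
            exact ⟨w'', hw'', .head ⟨by simp [hyS, hy0], by simp [Finset.mem_coe.1 hz, hz0], hyz⟩
              hzw''⟩
      · exact Finset.union_sdiff_of_subset Finset.inter_subset_left

/-- There are `m` bad points linked to `W`. -/
def bigBad (L : ℝ) (W : Finset Z2) (m : ℕ) : Set (Sym2 Z2 → ℝ) :=
  {t | ∃ S : Finset Z2, (S : Set Z2) ⊆ badSet L t ∧ S.card = m ∧
    ∀ s ∈ S, Linked (S : Set Z2) W s}

variable (μ : Measure ℝ) [IsProbabilityMeasure μ]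

lemma measure_all_bad_le {L : ℝ} {q : ℝ≥0∞} (hq : μ (Set.Ioi L) ≤ q ^ 2) (hq1 : q ≤ 1)
    (S : Finset Z2) :
    iidLaw (Sym2 Z2) μ {t | (S : Set Z2) ⊆ badSet L t} ≤ (4 * q) ^ S.card := by
  classical
  set P := S.pi fun v => nbrs v
  set edge : ((v : Z2) → v ∈ S → Z2) → Finset (Sym2 Z2) := fun g =>
    S.attach.image fun v => s(v.1, g v.1 v.2) with hedge
  calc iidLaw (Sym2 Z2) μ {t | (S : Set Z2) ⊆ badSet L t}
      ≤ iidLaw (Sym2 Z2) μ (⋃ g ∈ P, (edge g : Set (Sym2 Z2)).pi fun _ => Set.Ioi L) := by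
        refine measure_mono fun t ht => ?_
        have hw : ∀ v, v ∈ S → ∃ w, w ∈ nbrs v ∧ L < t s(v, w) := fun v hv => ht hv
        choose g hg1 hg2 using hw
        refine Set.mem_iUnion₂.2 ⟨g, Finset.mem_pi.2 hg1, fun e he => ?_⟩
        obtain ⟨v, -, rfl⟩ := Finset.mem_image.1 (Finset.mem_coe.1 he)
        exact hg2 v.1 v.2
    _ ≤ ∑ g ∈ P, iidLaw (Sym2 Z2) μ ((edge g : Set (Sym2 Z2)).pi fun _ => Set.Ioi L) :=
        measure_biUnion_finset_le _ _
    _ ≤ ∑ _g ∈ P, q ^ S.card := Finset.sum_le_sum fun g _ => by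
        rw [iidLaw, Measure.infinitePi_pi _ fun _ _ => measurableSet_Ioi, Finset.prod_const]
        refine (pow_le_pow_left' hq _).trans ?_
        rw [← pow_mul]
        refine pow_le_pow_right_of_le_one' hq1 ?_
        have hfib : ∀ e ∈ edge g,
            (S.attach.filter fun v => s(v.1, g v.1 v.2) = e).card ≤ 2 := by
          intro e _
          induction e using Sym2.ind with
          | _ a b =>
            refine le_trans ?_ (Finset.card_le_two (a := a) (b := b))
            rw [← Finset.card_map (Function.Embedding.subtype _)]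
            refine Finset.card_le_card fun v hv => ?_
            obtain ⟨⟨w, hw⟩, hwe, rfl⟩ := Finset.mem_map.1 hv
            rcases Sym2.eq_iff.1 (Finset.mem_filter.1 hwe).2 with ⟨h, -⟩ | ⟨h, -⟩ <;> simp [← h]
        have := Finset.card_le_mul_card_image S.attach 2 hfib
        rwa [Finset.card_attach] at this
    _ ≤ (4 * q) ^ S.card := by
        rw [Finset.sum_const, nsmul_eq_mul, mul_pow]
        refine mul_le_mul_left ?_ _
        rw [Finset.card_pi]
        exact_mod_cast Finset.prod_le_pow_card _ _ _ fun v _ => card_nbrs v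

/-- The threshold above which a weight is rare enough. -/
def HighQuantile (μ : Measure ℝ) (L : ℝ) : Prop := μ (Set.Ioi L) ≤ ((2 ^ 13 : ℝ≥0∞)⁻¹) ^ 2

theorem measure_bigBad_le {L : ℝ} (hL : HighQuantile μ L) (W : Finset Z2) (m : ℕ) :
    iidLaw (Sym2 Z2) μ (bigBad L W m) ≤ (2 : ℝ≥0∞) ^ W.card * (4⁻¹ : ℝ≥0∞) ^ m := by
  classical
  set q : ℝ≥0∞ := (2 ^ 13 : ℝ≥0∞)⁻¹ with hq
  have hq1 : q ≤ 1 := ENNReal.inv_le_one.2 (by norm_num)
  calc iidLaw (Sym2 Z2) μ (bigBad L W m)
      ≤ iidLaw (Sym2 Z2) μ (⋃ S ∈ (animals m W).filter fun S => S.card = m,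
          {t | (S : Set Z2) ⊆ badSet L t}) := measure_mono fun t ⟨S, h1, h2, h3⟩ =>
        Set.mem_iUnion₂.2 ⟨S, Finset.mem_filter.2 ⟨mem_animals m W S h2 h3, h2⟩, h1⟩
    _ ≤ ∑ _S ∈ (animals m W).filter fun S => S.card = m, (4 * q) ^ m :=
        (measure_biUnion_finset_le _ _).trans (Finset.sum_le_sum fun S hS =>
          (Finset.mem_filter.1 hS).2 ▸ measure_all_bad_le μ hL hq1 S)
    _ ≤ (2 ^ W.card * 2 ^ (9 * m) : ℕ) * (4 * q) ^ m := by
        rw [Finset.sum_const, nsmul_eq_mul]
        exact mul_le_mul_left (Nat.cast_le.2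
          ((Finset.card_filter_le _ _).trans (card_animals_le m W))) _
    _ = (2 : ℝ≥0∞) ^ W.card * (4⁻¹ : ℝ≥0∞) ^ m := by
        push_cast
        rw [mul_assoc, pow_mul, ← mul_pow]
        congr 2
        rw [hq, show (2 : ℝ≥0∞) ^ 13 = 2 ^ 9 * 4 * 4 by norm_num,
          ENNReal.mul_inv (by simp) (by simp), ← mul_assoc ((2 : ℝ≥0∞) ^ 9) 4, ← mul_assoc,
          ENNReal.mul_inv_cancel (by simp) (by finiteness), one_mul]

/-! ### Free points -/

lemma supDist_comm (x y : Z2) : supDist x y = supDist y x := by simp only [supDist]; omega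

lemma supDist_triangle (x y z : Z2) : supDist x z ≤ supDist x y + supDist y z := by
  simp only [supDist]; omega

lemma supDist_self (x : Z2) : supDist x x = 0 := by simp [supDist]

lemma supDist_sadj {z u v : Z2} (h : SAdj u v) : supDist z v ≤ supDist z u + 1 := by
  obtain ⟨-, h1, h2⟩ := h
  simp only [abs_le] at h1 h2
  simp only [supDist]
  omega

/-- A straight horizontal walk. -/
lemma exists_hwalk (b : ℤ) : ∀ (n : ℕ) (a : ℤ), ∃ p : lattice.Walk (a, b) (a + n, b),
    p.length = n ∧ ∀ v ∈ p.support, v.2 = b ∧ a ≤ v.1 ∧ v.1 ≤ a + n := by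
  intro n
  induction n with
  | zero =>
    intro a
    exact ⟨(SimpleGraph.Walk.nil : lattice.Walk (a, b) (a, b)).copy rfl (by simp), by simp,
      by simp⟩
  | succ n ih =>
    intro a
    obtain ⟨p, hp, hv⟩ := ih (a + 1)
    refine ⟨(p.cons (adj_h a b)).copy rfl (by push_cast; ring_nf), by simp [hp], ?_⟩
    intro v hv'
    simp only [SimpleGraph.Walk.support_copy, SimpleGraph.Walk.support_cons, List.mem_cons] at hv'
    rcases hv' with rfl | hv'
    · exact ⟨rfl, le_rfl, by simp; omega⟩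
    · have := hv v hv'
      refine ⟨this.1, by omega, by push_cast; omega⟩

/-- A straight vertical walk. -/
lemma exists_vwalk (a : ℤ) : ∀ (n : ℕ) (b : ℤ), ∃ p : lattice.Walk (a, b) (a, b + n),
    p.length = n ∧ ∀ v ∈ p.support, v.1 = a ∧ b ≤ v.2 ∧ v.2 ≤ b + n := by
  intro n
  induction n with
  | zero =>
    intro b
    exact ⟨(SimpleGraph.Walk.nil : lattice.Walk (a, b) (a, b)).copy rfl (by simp), by simp,
      by simp⟩
  | succ n ih =>
    intro b
    obtain ⟨p, hp, hv⟩ := ih (b + 1)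
    refine ⟨(p.cons (adj_v a b)).copy rfl (by push_cast; ring_nf), by simp [hp], ?_⟩
    intro v hv'
    simp only [SimpleGraph.Walk.support_copy, SimpleGraph.Walk.support_cons, List.mem_cons] at hv'
    rcases hv' with rfl | hv'
    · exact ⟨rfl, le_rfl, by simp; omega⟩
    · have := hv v hv'
      refine ⟨this.1, by omega, by push_cast; omega⟩

lemma exists_hwalk' (b a c : ℤ) : ∃ p : lattice.Walk (a, b) (c, b),
    p.length = (c - a).natAbs ∧ ∀ v ∈ p.support, v.2 = b ∧ min a c ≤ v.1 ∧ v.1 ≤ max a c := by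
  rcases le_total a c with h | h
  · obtain ⟨p, hp, hv⟩ := exists_hwalk b (c - a).toNat a
    refine ⟨p.copy rfl (Prod.ext (by simp; omega) rfl), by simp [hp]; omega, fun v hv' => ?_⟩
    have := hv v (by simpa using hv')
    omega
  · obtain ⟨p, hp, hv⟩ := exists_hwalk b (a - c).toNat c
    refine ⟨p.reverse.copy (Prod.ext (by simp; omega) rfl) rfl, by simp [hp]; omega,
      fun v hv' => ?_⟩
    have := hv v (by simpa using hv')
    omega

lemma exists_vwalk' (a b d : ℤ) : ∃ p : lattice.Walk (a, b) (a, d),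
    p.length = (d - b).natAbs ∧ ∀ v ∈ p.support, v.1 = a ∧ min b d ≤ v.2 ∧ v.2 ≤ max b d := by
  rcases le_total b d with h | h
  · obtain ⟨p, hp, hv⟩ := exists_vwalk a (d - b).toNat b
    refine ⟨p.copy rfl (Prod.ext rfl (by simp; omega)), by simp [hp]; omega, fun v hv' => ?_⟩
    have := hv v (by simpa using hv')
    omega
  · obtain ⟨p, hp, hv⟩ := exists_vwalk a (b - d).toNat d
    refine ⟨p.reverse.copy (Prod.ext rfl (by simp; omega)) rfl, by simp [hp]; omega,
      fun v hv' => ?_⟩
    have := hv v (by simpa using hv')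
    omega

/-- The outside of a square is connected. -/
lemma joined_outside (w : Z2) (D : ℕ) {x y : Z2} (hx : D < supDist w x) (hy : D < supDist w y) :
    JoinedIn {z | D < supDist w z} x y := by
  suffices h : ∀ z, D < supDist w z →
      JoinedIn {z | D < supDist w z} z (w.1 + (D + 1), w.2 + (D + 1)) from
    (h x hx).trans (h y hy).symm
  rintro ⟨a, b⟩ hz
  simp only [supDist] at hz
  by_cases hc : D < (a - w.1).natAbs
  · obtain ⟨p, -, hp⟩ := exists_vwalk' a b (w.2 + (D + 1))
    obtain ⟨q, -, hq⟩ := exists_hwalk' (w.2 + (D + 1)) a (w.1 + (D + 1))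
    refine JoinedIn.trans ⟨p, fun v hv => ?_⟩ ⟨q, fun v hv => ?_⟩
    · have := hp v hv; simp only [Set.mem_ofPred_eq, supDist]; omega
    · have := hq v hv; simp only [Set.mem_ofPred_eq, supDist]; omega
  · obtain ⟨p, -, hp⟩ := exists_hwalk' b a (w.1 + (D + 1))
    obtain ⟨q, -, hq⟩ := exists_vwalk' (w.1 + (D + 1)) b (w.2 + (D + 1))
    refine JoinedIn.trans ⟨p, fun v hv => ?_⟩ ⟨q, fun v hv => ?_⟩
    · have := hp v hv; simp only [Set.mem_ofPred_eq, supDist]; omega
    · have := hq v hv; simp only [Set.mem_ofPred_eq, supDist]; omega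

section enclosure

variable (bad : Set Z2) (B : Set Z2) (D : ℕ)

/-- `x` escapes from the cluster of `w`. -/
def Escapes (w x : Z2) : Prop :=
  ∃ y, D < supDist w y ∧ JoinedIn (cluster bad w)ᶜ x y

/-- `x` escapes from every bad cluster rooted in `B`. -/
def Free (x : Z2) : Prop := ∀ w ∈ bad, w ∈ B → Escapes bad D w x

variable (hD : ∀ w ∈ bad, w ∈ B → ∀ y ∈ cluster bad w, supDist w y ≤ D)

lemma outside_subset {w : Z2} (hw : w ∈ bad) (hwB : w ∈ B)
    (hD : ∀ w ∈ bad, w ∈ B → ∀ y ∈ cluster bad w, supDist w y ≤ D) :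
    {z | D < supDist w z} ⊆ (cluster bad w)ᶜ := fun z hz hc =>
  absurd (hD w hw hwB z hc) (not_le.2 hz)

include hD in
lemma escapes_joined {w x y : Z2} (hw : w ∈ bad) (hwB : w ∈ B) (hx : Escapes bad D w x)
    (hy : Escapes bad D w y) : JoinedIn (cluster bad w)ᶜ x y := by
  obtain ⟨x', hx', hxx'⟩ := hx
  obtain ⟨y', hy', hyy'⟩ := hy
  exact (hxx'.trans ((joined_outside w D hx' hy').mono (outside_subset bad B D hw hwB hD))).trans
    hyy'.symm

lemma Free.notMem {x : Z2} (h : Free bad B D x) (hB : x ∈ B) : x ∉ bad := fun hx =>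
  let ⟨_, _, hj⟩ := h x hx hB
  hj.mem_left (mem_cluster_self bad x)

lemma escapes_of_far {w x : Z2} (hw : w ∈ bad) (hwB : w ∈ B)
    (hD : ∀ w ∈ bad, w ∈ B → ∀ y ∈ cluster bad w, supDist w y ≤ D) (h : D < supDist w x) :
    Escapes bad D w x :=
  ⟨x, h, .refl fun hc => absurd (hD w hw hwB x hc) (not_le.2 h)⟩

include hD in
/-- The points enclosed along a walk are enclosed by one cluster. -/
theorem exists_enclosing {u v : Z2} (p : lattice.Walk u v)
    (hp : ∀ z ∈ p.support, ¬Free bad B D z) :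
    ∃ w ∈ bad, w ∈ B ∧ ∀ z ∈ p.support, ¬Escapes bad D w z := by
  induction p with
  | @nil x =>
    have := hp x (by simp)
    simp only [Free, not_forall, exists_prop] at this
    obtain ⟨w, hw, hwB, h⟩ := this
    exact ⟨w, hw, hwB, by simpa using h⟩
  | @cons y x z hyx p ih =>
    obtain ⟨w, hw, hwB, hK⟩ := ih fun s hs => hp s (by simp [hs])
    by_cases hy : Escapes bad D w y
    swap
    · exact ⟨w, hw, hwB, by simpa [hy] using hK⟩
    have := hp y (by simp)
    simp only [Free, not_forall, exists_prop] at this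
    obtain ⟨w', hw', hw'B, hy'⟩ := this
    have hx : ¬Escapes bad D w x := hK x p.start_mem_support
    obtain ⟨y₁, hy₁, hyj⟩ := hy
    have hxK : x ∈ cluster bad w := by
      by_contra hxK
      exact hx ⟨y₁, hy₁, (JoinedIn.of_adj hyx.symm hxK hyj.mem_left).trans hyj⟩
    set far : Z2 := (w.1 + (D + 1 : ℤ) + (supDist w w' + D + 1 : ℕ), w.2) with hfar
    have hf : D < supDist w far := by simp only [hfar, supDist]; omega
    have hf' : D < supDist w' far := by
      have := supDist_triangle w w' far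
      have h3 : supDist w w' + D < supDist w far := by simp only [hfar, supDist]; omega
      omega
    have hne : ∀ {s}, s ∈ cluster bad w → s ∉ cluster bad w' := by
      intro s hs hs'
      have e : cluster bad w = cluster bad w' := (cluster_eq bad hs).symm.trans (cluster_eq bad hs')
      refine hy' ⟨far, hf', ?_⟩
      rw [← e]
      exact hyj.trans ((joined_outside w D hy₁ hf).mono (outside_subset bad B D hw hwB hD))
    have hKy' : ∀ s ∈ cluster bad w, ¬Escapes bad D w' s := by
      intro s hs hesc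
      have hsx : x ∈ cluster bad s := by rw [cluster_eq bad hs]; exact hxK
      have hxesc : Escapes bad D w' x := by
        refine Relation.ReflTransGen.head_induction_on
          (motive := fun a _ => a ∈ cluster bad w → Escapes bad D w' a → Escapes bad D w' x)
          hsx (fun _ h => h) ?_ hs hesc
        rintro a b ⟨ha, hb, hab⟩ - ihb haK ⟨r, hr, haj⟩
        have hbK : b ∈ cluster bad w := mem_cluster_of_sadj bad haK hw hb hab
        refine ihb hbK ⟨r, hr, JoinedIn.trans ?_ haj⟩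
        by_cases hl : lattice.Adj a b
        · exact .of_adj hl.symm (hne hbK) (hne haK)
        · have hc : lattice.Adj a (b.1, a.2) ∧ lattice.Adj (b.1, a.2) b := by
            obtain ⟨h0, h1, h2⟩ := hab
            have hne' : a.1 ≠ b.1 ∨ a.2 ≠ b.2 := by
              by_contra! hcon
              exact h0 (Prod.ext hcon.1 hcon.2)
            simp only [lattice] at hl ⊢
            rcases abs_cases (a.1 - b.1) with h3 | h3 <;>
              rcases abs_cases (a.2 - b.2) with h4 | h4 <;> constructor <;> simp <;> omega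
          have hcK : (b.1, a.2) ∉ cluster bad w' := fun hcc =>
            hne hbK (mem_cluster_of_sadj bad hcc hw' hb (SAdj.of_adj hc.2))
          exact (JoinedIn.of_adj hc.2.symm (hne hbK) hcK).trans (.of_adj hc.1.symm hcK (hne haK))
      obtain ⟨r, hr, hxj⟩ := hxesc
      refine hy' ⟨r, hr, JoinedIn.trans (.of_adj hyx ?_ hxj.mem_left) hxj⟩
      intro hyK'
      have hxbad : x ∈ bad := cluster_subset bad hw hxK
      exact hne hxK (mem_cluster_of_sadj bad hyK' hw' hxbad (SAdj.of_adj hyx))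
    refine ⟨w', hw', hw'B, ?_⟩
    intro s hs
    simp only [SimpleGraph.Walk.support_cons, List.mem_cons] at hs
    rcases hs with rfl | hs
    · exact hy'
    intro ⟨r, hr, q, hq⟩
    -- an escape route from the outer cluster cannot meet the inner one
    have hqK : ∀ c ∈ q.support, c ∉ cluster bad w := fun c hc hcK =>
      hKy' c hcK ⟨r, hr, q.dropUntil c hc, fun d hd =>
        hq d (q.support_dropUntil_subset_support hc hd)⟩
    refine hK s hs ?_
    obtain ⟨q', hq'⟩ := joined_outside w' D hr hf'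
    refine ⟨far, hf, JoinedIn.trans ⟨q, hqK⟩ ⟨q', fun c hc hcK => ?_⟩⟩
    exact hKy' c hcK (escapes_of_far bad B D hw' hw'B hD (hq' c hc))

include hD in
/-- A walk of enclosed points stays close to its start. -/
theorem supDist_le_of_enclosed {u v : Z2} (p : lattice.Walk u v)
    (hp : ∀ z ∈ p.support, ¬Free bad B D z) {z : Z2} (hz : z ∈ p.support) :
    supDist u z ≤ 2 * D := by
  obtain ⟨w, hw, hwB, h⟩ := exists_enclosing bad B D hD p hp
  have hbound : ∀ s ∈ p.support, supDist w s ≤ D := fun s hs =>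
    not_lt.1 fun hlt => h s hs (escapes_of_far bad B D hw hwB hD hlt)
  have := supDist_triangle u w z
  have h1 := hbound u p.start_mem_support
  have h2 := hbound z hz
  rw [supDist_comm] at h1
  omega


end enclosure

/-! ### The length bound -/

/-- The square of radius `r` about `x`. -/
def sqBall (x : Z2) (r : ℕ) : Finset Z2 :=
  Finset.Icc (x.1 - r) (x.1 + r) ×ˢ Finset.Icc (x.2 - r) (x.2 + r)

lemma mem_sqBall {x z : Z2} {r : ℕ} : z ∈ sqBall x r ↔ supDist x z ≤ r := by
  simp only [sqBall, Finset.mem_product, Finset.mem_Icc, supDist]; omega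

lemma card_sqBall (x : Z2) (r : ℕ) : (sqBall x r).card = (2 * r + 1) * (2 * r + 1) := by
  simp only [sqBall, Finset.card_product, Int.card_Icc]
  congr 1 <;> omega

lemma exists_lwalk (a b : Z2) : ∃ p : lattice.Walk a b, p.length ≤ 2 * supDist a b ∧
    ∀ v ∈ p.support, min a.1 b.1 ≤ v.1 ∧ v.1 ≤ max a.1 b.1 ∧ min a.2 b.2 ≤ v.2 ∧
      v.2 ≤ max a.2 b.2 := by
  obtain ⟨a1, a2⟩ := a
  obtain ⟨b1, b2⟩ := b
  obtain ⟨p, hp, hpv⟩ := exists_hwalk' a2 a1 b1
  obtain ⟨q, hq, hqv⟩ := exists_vwalk' b1 a2 b2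
  refine ⟨p.append q, ?_, fun v hv => ?_⟩
  · simp only [SimpleGraph.Walk.length_append, hp, hq, supDist]; omega
  · rcases (SimpleGraph.Walk.mem_support_iff _).1 hv with rfl | hv
    · simp
    · rcases (SimpleGraph.Walk.mem_support_append_iff p q).1 (List.mem_of_mem_tail hv) with h | h
      · have := hpv v h; simp only; omega
      · have := hqv v h; simp only; omega

/-- The chosen walk between two points: horizontal, then vertical. -/
def lwalk (a b : Z2) : lattice.Walk a b := Classical.choose (exists_lwalk a b)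

lemma lwalk_length (a b : Z2) : (lwalk a b).length ≤ 2 * supDist a b :=
  (Classical.choose_spec (exists_lwalk a b)).1

lemma lwalk_mem {x a b v : Z2} {r : ℕ} (ha : supDist x a ≤ r) (hb : supDist x b ≤ r)
    (hv : v ∈ (lwalk a b).support) : supDist x v ≤ r := by
  have := (Classical.choose_spec (exists_lwalk a b)).2 v hv
  simp only [supDist] at ha hb ⊢; omega

/-- A scale for the clusters. -/
def clusterScale (R : ℕ) : ℕ := Nat.sqrt R / 4

open scoped Classical in
/-- The exceptional weights for the length bound at scale `R` about `x`. -/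
def lengthBad (L c : ℝ) (x : Z2) (R : ℕ) : Set (Sym2 Z2 → ℝ) :=
  (⋃ w ∈ sqBall x (8 * R), bigBad L {w} (clusterScale R + 1)) ∪
  ((⋃ a ∈ sqBall x (2 * R), ⋃ b ∈ sqBall x (2 * R),
      bigBad L (lwalk a b).support.toFinset (16 * R + 2)) ∪
  ⋃ a ∈ sqBall x (2 * R), {t | ∃ (y : Z2) (p : lattice.Walk a y), p.IsPath ∧ R ≤ p.length ∧
      wlen t p < c * p.length})

lemma supDist_cluster {L : ℝ} {t : Sym2 Z2 → ℝ} {w : Z2} {m : ℕ} (hw : w ∈ badSet L t)
    (hno : t ∉ bigBad L {w} (m + 1)) {y : Z2} (hy : y ∈ cluster (badSet L t) w) :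
    supDist w y ≤ m := by
  classical
  by_contra! hlt
  refine hno ?_
  set K := cluster (badSet L t) w
  have hKl : ∀ u ∈ K, Linked K {w} u := fun u hu =>
    ⟨w, Finset.mem_singleton_self w,
      starConn_cluster (badSet L t) u hu w (mem_cluster_self _ w)⟩
  have hlev : ∀ k, k ≤ supDist w y → ∃ z ∈ K, supDist w z = k := by
    clear hlt
    induction hy with
    | refl =>
      intro k hk
      exact ⟨w, mem_cluster_self _ w, by rw [supDist_self] at hk ⊢; omega⟩
    | @tail b c h1 h2 ih =>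
      intro k hk
      by_cases hkb : k ≤ supDist w b
      · exact ih k hkb
      · exact ⟨c, h1.tail h2, by have := supDist_sadj (z := w) h2.2.2; omega⟩
  choose f hf hfd using hlev
  set T := (Finset.range (m + 1)).attach.image fun k =>
    f k.1 (by have := Finset.mem_range.1 k.2; omega)
  have hT : (T : Set Z2) ⊆ K := fun z hz => by
    obtain ⟨k, -, rfl⟩ := Finset.mem_image.1 (Finset.mem_coe.1 hz)
    exact hf _ _
  have hTc : m + 1 ≤ T.card := by
    rw [Finset.card_image_of_injective _ fun i j hij => Subtype.ext (by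
      have := congrArg (supDist w) hij
      simpa only [hfd] using this), Finset.card_attach, Finset.card_range]
  obtain ⟨S, hS, hSc, hSl⟩ := exists_linked_subset hKl (m + 1) T hT hTc
  exact ⟨S, hS.trans (cluster_subset _ hw), hSc, hSl⟩

lemma card_path_le {u v : Z2} {p : lattice.Walk u v} (hp : p.IsPath) {S : Finset Z2}
    (h : ∀ z ∈ p.support, z ∈ S) : p.length < S.card := by
  have h2 := Finset.card_le_card (show p.support.toFinset ⊆ S from
    fun z hz => h z (List.mem_toFinset.1 hz))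
  rw [List.toFinset_card_of_nodup hp.support_nodup, SimpleGraph.Walk.length_support] at h2
  omega

section deterministic

variable {L c : ℝ} {x : Z2} {R : ℕ} {t : Sym2 Z2 → ℝ}

lemma cluster_small (ht : t ∉ lengthBad L c x R) :
    ∀ w ∈ badSet L t, w ∈ (sqBall x (8 * R) : Set Z2) →
      ∀ y ∈ cluster (badSet L t) w, supDist w y ≤ clusterScale R := fun w hw hwB y hy =>
  supDist_cluster hw (fun h => ht (Or.inl (Set.mem_iUnion₂.2 ⟨w, Finset.mem_coe.1 hwB, h⟩))) hy

/-- Free points of the square are joined cheaply. -/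
theorem cheap_walk (hR : 1 ≤ R) (hL : 0 ≤ L) (ht : t ∉ lengthBad L c x R) {a b : Z2}
    (ha : supDist x a ≤ 2 * R) (hb : supDist x b ≤ 2 * R)
    (haf : Free (badSet L t) (sqBall x (8 * R)) (clusterScale R) a)
    (hbf : Free (badSet L t) (sqBall x (8 * R)) (clusterScale R) b) :
    ∃ q : lattice.Walk a b, (∀ z ∈ q.support, supDist x z ≤ 4 * R) ∧
      wlen t q ≤ L * (155 * R) := by
  classical
  set bad := badSet L t
  set B : Set Z2 := ↑(sqBall x (8 * R))
  set D := clusterScale R
  have hD := cluster_small ht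
  have hDR : D ≤ R := le_trans (Nat.div_le_self _ _) (Nat.sqrt_le_self R)
  set p := lwalk a b
  have hpB : ∀ z ∈ p.support, supDist x z ≤ 2 * R := fun z hz => lwalk_mem ha hb hz
  have hBmem : ∀ {z}, supDist x z ≤ 2 * R → z ∈ B := fun h =>
    Finset.mem_coe.2 (mem_sqBall.2 (by omega))
  obtain ⟨q, hq⟩ := detour bad p (haf.notMem bad B D (hBmem ha)) (hbf.notMem bad B D (hBmem hb))
    fun w hw hwb => escapes_joined bad B D hD hwb (hBmem (hpB w hw))
      (haf w hwb (hBmem (hpB w hw))) (hbf w hwb (hBmem (hpB w hw)))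
  set W := p.support.toFinset
  set Us : Set Z2 := {z | ∃ w ∈ W, w ∈ bad ∧ z ∈ cluster bad w} with hUs
  have hUl : ∀ u ∈ Us, Linked Us W u := fun u ⟨w, hwW, hwb, hu⟩ => by
    refine ⟨w, hwW, ?_⟩
    have h := starConn_cluster bad u hu w (mem_cluster_self bad w)
    exact linked_lift (U := Us) (fun z hz => ⟨w, hwW, hwb, hz⟩) h
  have hUbad : Us ⊆ bad := fun z ⟨w, _, hwb, hz⟩ => cluster_subset bad hwb hz
  have hUball : ∀ z ∈ Us, supDist x z ≤ 3 * R := fun z ⟨w, hwW, hwb, hz⟩ => by
    have h1 := hpB w (List.mem_toFinset.1 hwW)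
    have h2 := hD w hwb (hBmem h1) z hz
    have := supDist_triangle x w z
    omega
  set Uf := (sqBall x (3 * R)).filter fun z => z ∈ Us
  have hUf : (Uf : Set Z2) ⊆ Us := fun z hz => (Finset.mem_filter.1 (Finset.mem_coe.1 hz)).2
  have hUcard : Uf.card < 16 * R + 2 := by
    by_contra! hge
    obtain ⟨S, hS, hSc, hSl⟩ := exists_linked_subset hUl _ Uf hUf hge
    exact ht (Or.inr (Or.inl (Set.mem_iUnion₂.2 ⟨a, mem_sqBall.2 ha, Set.mem_iUnion₂.2
      ⟨b, mem_sqBall.2 hb, S, hS.trans hUbad, hSc, hSl⟩⟩)))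
  set Sf := W ∪ starNbhd Uf
  have hSf : ∀ z ∈ q.bypass.support, z ∈ Sf ∧ z ∉ bad ∧ supDist x z ≤ 4 * R := by
    intro z hz
    obtain ⟨hzb, h | ⟨w, hw, hwb, k, hk, hzk⟩⟩ := hq z (q.support_bypass_subset_support hz)
    · exact ⟨Finset.mem_union_left _ (List.mem_toFinset.2 h), hzb, (hpB z h).trans (by omega)⟩
    · have hkU : k ∈ Us := ⟨w, List.mem_toFinset.2 hw, hwb, hk⟩
      have := hUball k hkU
      have := supDist_sadj (z := x) hzk.symm
      exact ⟨Finset.mem_union_right _ (Finset.mem_biUnion.2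
        ⟨k, Finset.mem_filter.2 ⟨mem_sqBall.2 (by omega), hkU⟩, mem_star8 hzk.symm⟩), hzb,
        by omega⟩
  refine ⟨q.bypass, fun z hz => (hSf z hz).2.2, ?_⟩
  have hlen : q.bypass.length ≤ 155 * R := by
    have h1 := card_path_le q.bypass_isPath fun z hz => (hSf z hz).1
    have h2 : W.card ≤ 8 * R + 1 := by
      refine (List.toFinset_card_le _).trans ?_
      rw [SimpleGraph.Walk.length_support]
      have : p.length ≤ 2 * supDist a b := lwalk_length a b
      have := supDist_triangle a x b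
      rw [supDist_comm] at ha
      omega
    have h3 := card_starNbhd Uf
    have h4 : Sf.card ≤ W.card + (starNbhd Uf).card := Finset.card_union_le _ _
    omega
  refine le_trans ?_ (mul_le_mul_of_nonneg_left
    (show (q.bypass.length : ℝ) ≤ 155 * R by exact_mod_cast hlen) hL)
  rw [wlen, ← SimpleGraph.Walk.length_edges, mul_comm]
  refine le_trans (List.sum_le_card_nsmul _ L fun y hy => ?_) (by simp)
  obtain ⟨e, he, rfl⟩ := List.mem_map.1 hy
  induction e using Sym2.ind with
  | _ u v =>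
    exact le_of_notMem_badSet (hSf u (SimpleGraph.Walk.fst_mem_support_of_mem_edges _ he)).2.1
      (SimpleGraph.Walk.adj_of_mem_edges _ he)

/-- The deterministic length bound. -/
theorem geodesic_length_le (hR : 4 ≤ R) (hL : 0 ≤ L) (hc : 0 < c)
    (ht : t ∉ lengthBad L c x R) {U : Set Z2} (hU : ∀ z, supDist x z ≤ 4 * R → z ∈ U) {u v : Z2}
    (hu : supDist x u ≤ R) (hv : supDist x v ≤ R) {π : lattice.Walk u v} (hπ : π.IsPath)
    (hπU : ∀ z ∈ π.support, z ∈ U)
    (hmin : ∀ q : lattice.Walk u v, (∀ z ∈ q.support, z ∈ U) → wlen t π ≤ wlen t q) :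
    (π.length : ℝ) ≤ (11 + 155 * L / c) * R := by
  classical
  set bad := badSet L t
  set B : Set Z2 := ↑(sqBall x (8 * R))
  set D := clusterScale R with hDdef
  have hD := cluster_small ht
  have hD4 : 4 * D ≤ Nat.sqrt R := by rw [hDdef, clusterScale]; omega
  have hsq : Nat.sqrt R * Nat.sqrt R ≤ R := Nat.sqrt_le R
  have hsqR := Nat.sqrt_le_self R
  have harea : (4 * D + 1) * (4 * D + 1) ≤ 4 * R := by nlinarith
  have hnone : ∀ {r s : Z2} (p : lattice.Walk r s), p.IsPath →
      (∀ z ∈ p.support, ¬Free bad B D z) →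
      p.length < 4 * R ∧ ∀ z ∈ p.support, supDist r z ≤ 2 * D := by
    intro r s p hp hall
    have hd : ∀ z ∈ p.support, supDist r z ≤ 2 * D := fun z hz =>
      supDist_le_of_enclosed bad B D hD p hall hz
    refine ⟨?_, hd⟩
    have h := card_path_le hp fun z hz => mem_sqBall.2 (hd z hz)
    rw [card_sqBall] at h
    nlinarith
  have hpos : 0 ≤ 155 * L / c := by positivity
  have hR0 : (0 : ℝ) ≤ R := Nat.cast_nonneg R
  by_cases hex : ∃ k, k ≤ π.length ∧ Free bad B D (π.getVert k)
  swap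
  · have h := (hnone π hπ fun z hz hf => by
      obtain ⟨k, rfl, hk⟩ := SimpleGraph.Walk.mem_support_iff_exists_getVert.1 hz
      exact hex ⟨k, hk, hf⟩).1
    have : (π.length : ℝ) ≤ 4 * R := by exact_mod_cast h.le
    nlinarith
  set i := Nat.find hex with hi
  obtain ⟨hilen, hif⟩ := Nat.find_spec hex
  set j := Nat.findGreatest (fun k => Free bad B D (π.getVert k)) π.length with hj
  have hjf : Free bad B D (π.getVert j) :=
    Nat.findGreatest_spec (P := fun k => Free bad B D (π.getVert k)) hilen hif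
  have hjlen : j ≤ π.length := Nat.findGreatest_le _
  have hij : i ≤ j := Nat.le_findGreatest hilen hif
  -- the ends are short and close to the endpoints
  have hfirst : i ≤ 4 * R ∧ supDist x (π.getVert i) ≤ 2 * R := by
    rcases Nat.eq_zero_or_pos i with h0 | h0
    · rw [h0, π.getVert_zero]; omega
    · have h := hnone (π.take (i - 1)) (hπ.take _) fun z hz hf => by
        obtain ⟨k, rfl, hk⟩ := SimpleGraph.Walk.mem_support_iff_exists_getVert.1 hz
        rw [SimpleGraph.Walk.take_length] at hk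
        rw [SimpleGraph.Walk.take_getVert] at hf
        exact Nat.find_min hex (show min (i - 1) k < i by omega) ⟨by omega, hf⟩
      obtain ⟨h1, h2⟩ := h
      rw [SimpleGraph.Walk.take_length] at h1
      have h3 := h2 _ (SimpleGraph.Walk.end_mem_support _)
      have h4 := supDist_step (z := u) (π.adj_getVert_succ (show i - 1 < π.length by omega))
      rw [show i - 1 + 1 = i by omega] at h4
      have := supDist_triangle x u (π.getVert i)
      omega
  have hlast : π.length - j ≤ 4 * R ∧ supDist x (π.getVert j) ≤ 2 * R := by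
    rcases Nat.eq_or_lt_of_le hjlen with h0 | h0
    · rw [h0, π.getVert_length]; omega
    · have h := hnone (π.drop (j + 1)).reverse (hπ.drop _).reverse fun z hz hf => by
        simp only [SimpleGraph.Walk.support_reverse, List.mem_reverse] at hz
        obtain ⟨k, rfl, hk⟩ := SimpleGraph.Walk.mem_support_iff_exists_getVert.1 hz
        rw [SimpleGraph.Walk.drop_length] at hk
        rw [SimpleGraph.Walk.drop_getVert] at hf
        exact Nat.findGreatest_is_greatest (P := fun k => Free bad B D (π.getVert k))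
          (show j < j + 1 + k by omega) (by omega) hf
      obtain ⟨h1, h2⟩ := h
      rw [SimpleGraph.Walk.length_reverse, SimpleGraph.Walk.drop_length] at h1
      have h3 := h2 _ (SimpleGraph.Walk.end_mem_support _)
      have h4 := supDist_step (z := v) (π.adj_getVert_succ h0).symm
      have := supDist_triangle x v (π.getVert j)
      omega
  -- the middle is light
  set mid := ((π.drop i).take (j - i)).copy rfl
    (show (π.drop i).getVert (j - i) = π.getVert j by
      rw [SimpleGraph.Walk.drop_getVert, Nat.add_sub_cancel' hij]) with hmiddef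
  have hmid : mid.IsPath := by
    rw [hmiddef, SimpleGraph.Walk.isPath_copy]; exact (hπ.drop i).take _
  have hmidlen : mid.length = j - i := by
    rw [hmiddef, SimpleGraph.Walk.length_copy, SimpleGraph.Walk.take_length,
      SimpleGraph.Walk.drop_length]
    omega
  obtain ⟨q, hqball, hqw⟩ :=
    cheap_walk (by omega) hL ht hfirst.2 hlast.2 hif hjf
  have hedges : π.edges = (π.take i).edges ++ (mid.edges ++ (π.drop j).edges) := by
    rw [hmiddef, SimpleGraph.Walk.edges_copy, SimpleGraph.Walk.edges_take,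
      SimpleGraph.Walk.edges_take, SimpleGraph.Walk.edges_drop, SimpleGraph.Walk.edges_drop]
    conv_lhs => rw [← List.take_append_drop i π.edges,
      ← List.take_append_drop (j - i) (π.edges.drop i), List.drop_drop,
      Nat.add_sub_cancel' hij]
  have hw : wlen t π = wlen t (π.take i) + (wlen t mid + wlen t (π.drop j)) := by
    simp only [wlen, hedges, List.map_append, List.sum_append]
  have hsub : ∀ z, z ∈ ((π.take i).append (q.append (π.drop j))).support → z ∈ U := by
    intro z hz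
    rcases (SimpleGraph.Walk.mem_support_append_iff _ _).1 hz with h | h
    · obtain ⟨k, rfl, -⟩ := SimpleGraph.Walk.mem_support_iff_exists_getVert.1 h
      rw [SimpleGraph.Walk.take_getVert]
      exact hπU _ (π.getVert_mem_support _)
    rcases (SimpleGraph.Walk.mem_support_append_iff _ _).1 h with h | h
    · exact hU z (hqball z h)
    · obtain ⟨k, rfl, -⟩ := SimpleGraph.Walk.mem_support_iff_exists_getVert.1 h
      rw [SimpleGraph.Walk.drop_getVert]
      exact hπU _ (π.getVert_mem_support _)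
  have hle := hmin _ hsub
  rw [hw, wlen_append, wlen_append] at hle
  have hmidle : ((j - i : ℕ) : ℝ) ≤ (1 + 155 * L / c) * R := by
    rcases lt_or_ge (j - i) R with h | h
    · have : ((j - i : ℕ) : ℝ) ≤ R := by exact_mod_cast h.le
      nlinarith
    · have hheavy : c * mid.length ≤ wlen t mid := by
        by_contra! hlt
        exact ht (Or.inr (Or.inr (Set.mem_iUnion₂.2 ⟨π.getVert i, mem_sqBall.2 hfirst.2, _, mid,
          hmid, hmidlen.symm ▸ h, hlt⟩)))
      rw [hmidlen] at hheavy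
      have hb : c * ((j - i : ℕ) : ℝ) ≤ L * (155 * R) := hheavy.trans (by linarith)
      calc ((j - i : ℕ) : ℝ) ≤ L * (155 * R) / c := by rw [le_div_iff₀ hc]; linarith
        _ ≤ (1 + 155 * L / c) * R := by
            rw [mul_comm L, mul_div_assoc]; field_simp; nlinarith
  have h1 : (π.length : ℝ) = (i : ℝ) + ((j - i : ℕ) : ℝ) + ((π.length - j : ℕ) : ℝ) := by
    rw [← Nat.cast_add, ← Nat.cast_add]
    exact congrArg _ (by omega)
  have h2 : (i : ℝ) ≤ 4 * R := by exact_mod_cast hfirst.1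
  have h3 : ((π.length - j : ℕ) : ℝ) ≤ 4 * R := by exact_mod_cast hlast.1
  rw [h1]
  nlinarith

end deterministic

/-! ### Its probability -/

/-- The error bound. -/
def lengthErr (R : ℕ) : ℝ≥0∞ :=
  ((12 : ℕ) * (16 * R + 1) ^ 4 : ℕ) * (4⁻¹ : ℝ≥0∞) ^ (clusterScale R + 1)

theorem measure_lengthBad_le {L a : ℝ} (hL : HighQuantile μ L) (ha : LowQuantile μ a)
    (ha0 : 0 ≤ a) (hμ : ∀ᵐ s ∂μ, 0 ≤ s) (x : Z2) {R : ℕ} (hR : 1 ≤ R) :
    iidLaw (Sym2 Z2) μ (lengthBad L (a / 2) x R) ≤ lengthErr R := by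
  classical
  set r : ℝ≥0∞ := (4⁻¹ : ℝ≥0∞) ^ (clusterScale R + 1)
  set P : ℝ≥0∞ := (((16 * R + 1) ^ 4 : ℕ) : ℝ≥0∞)
  have hr1 : (4⁻¹ : ℝ≥0∞) ≤ 1 := ENNReal.inv_le_one.2 (by norm_num)
  have hDR : clusterScale R + 1 ≤ R + 1 :=
    Nat.add_le_add_right ((Nat.div_le_self _ _).trans (Nat.sqrt_le_self R)) 1
  have hcard : ∀ k, k ≤ 8 * R → ((sqBall x k).card : ℝ≥0∞) ≤ P := by
    intro k hk
    refine Nat.cast_le.2 ?_
    rw [card_sqBall, show (16 * R + 1) ^ 4 = (16 * R + 1) * (16 * R + 1) *
      ((16 * R + 1) * (16 * R + 1)) by ring]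
    have : 2 * k + 1 ≤ 16 * R + 1 := by omega
    exact (Nat.mul_le_mul this this).trans (Nat.le_mul_of_pos_right _ (by positivity))
  have h1 : iidLaw (Sym2 Z2) μ (⋃ w ∈ sqBall x (8 * R), bigBad L {w} (clusterScale R + 1)) ≤
      P * (2 * r) := by
    refine (measure_biUnion_finset_le _ _).trans ((Finset.sum_le_sum (g := fun _ => 2 * r)
      fun w _ => (measure_bigBad_le μ hL _ _).trans_eq (by simp [r])).trans ?_)
    rw [Finset.sum_const, nsmul_eq_mul]
    exact mul_le_mul_left (hcard _ le_rfl) _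
  have h2 : iidLaw (Sym2 Z2) μ (⋃ a ∈ sqBall x (2 * R), ⋃ b ∈ sqBall x (2 * R),
      bigBad L (lwalk a b).support.toFinset (16 * R + 2)) ≤ P * (2 * r) := by
    refine (measure_biUnion_finset_le _ _).trans ((Finset.sum_le_sum
      (g := fun _ => ((sqBall x (2 * R)).card : ℝ≥0∞) * (2 * r)) fun a ha' => ?_).trans ?_)
    · refine (measure_biUnion_finset_le _ _).trans ((Finset.sum_le_sum (g := fun _ => 2 * r)
        fun b hb' => (measure_bigBad_le μ hL _ _).trans ?_).trans_eq
          (by rw [Finset.sum_const, nsmul_eq_mul]))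
      have hW : (lwalk a b).support.toFinset.card ≤ 8 * R + 1 := by
        refine (List.toFinset_card_le _).trans ?_
        rw [SimpleGraph.Walk.length_support]
        have := lwalk_length a b
        have := supDist_triangle a x b
        have := mem_sqBall.1 ha'
        have := mem_sqBall.1 hb'
        rw [supDist_comm x a] at *
        omega
      calc (2 : ℝ≥0∞) ^ (lwalk a b).support.toFinset.card * (4⁻¹ : ℝ≥0∞) ^ (16 * R + 2)
          ≤ (2 : ℝ≥0∞) ^ (8 * R + 1) * (4⁻¹ : ℝ≥0∞) ^ (16 * R + 2) :=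
            mul_le_mul_left (pow_le_pow_right₀ (by norm_num) hW) _
        _ ≤ (4 : ℝ≥0∞) ^ (8 * R + 1) * (4⁻¹ : ℝ≥0∞) ^ (16 * R + 2) :=
            mul_le_mul_left (pow_le_pow_left' (by norm_num) _) _
        _ = (4⁻¹ : ℝ≥0∞) ^ (8 * R + 1) := by
            rw [show 16 * R + 2 = (8 * R + 1) + (8 * R + 1) by ring, pow_add (4⁻¹ : ℝ≥0∞) (8 * R + 1),
              ← mul_assoc,
              ← mul_pow, ENNReal.mul_inv_cancel (by simp) (by simp), one_pow, one_mul]
        _ ≤ r := pow_le_pow_right_of_le_one' hr1 (by omega)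
        _ ≤ 2 * r := le_mul_of_one_le_left zero_le (by norm_num)
    · rw [Finset.sum_const, nsmul_eq_mul, ← mul_assoc]
      refine mul_le_mul_left ?_ _
      rw [← Nat.cast_mul]
      refine Nat.cast_le.2 ?_
      rw [card_sqBall, show (16 * R + 1) ^ 4 = (16 * R + 1) * (16 * R + 1) *
        ((16 * R + 1) * (16 * R + 1)) by ring]
      have : 2 * (2 * R) + 1 ≤ 16 * R + 1 := by omega
      exact Nat.mul_le_mul (Nat.mul_le_mul this this) (Nat.mul_le_mul this this)
  have h3 : iidLaw (Sym2 Z2) μ (⋃ u ∈ sqBall x (2 * R), {t | ∃ (y : Z2) (p : lattice.Walk u y),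
      p.IsPath ∧ R ≤ p.length ∧ wlen t p < a / 2 * p.length}) ≤ P * (4 * (2 * r)) := by
    refine (measure_biUnion_finset_le _ _).trans ((Finset.sum_le_sum
      (g := fun _ => 4 * (2 * r)) fun u _ => (measure_long_light_le nbrs (fun _ _ h => mem_nbrs h)
        card_nbrs μ ha ha0 hμ u R).trans ?_).trans ?_)
    · rw [mul_left_comm]
      refine mul_le_mul_right ?_ _
      calc (4⁻¹ : ℝ≥0∞) ^ R = 4 * (4⁻¹ : ℝ≥0∞) ^ (R + 1) := by
            rw [pow_succ', ← mul_assoc, ENNReal.mul_inv_cancel (by simp) (by simp), one_mul]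
        _ ≤ 4 * r := mul_le_mul_right (pow_le_pow_right_of_le_one' hr1 hDR) _
    · rw [Finset.sum_const, nsmul_eq_mul]
      exact mul_le_mul_left (hcard _ (by omega)) _
  refine (measure_union_le _ _).trans ((add_le_add h1 ((measure_union_le _ _).trans
    (add_le_add h2 h3))).trans ?_)
  rw [lengthErr, Nat.cast_mul]
  change _ ≤ ((12 : ℕ) : ℝ≥0∞) * P * r
  calc P * (2 * r) + (P * (2 * r) + P * (4 * (2 * r))) = 12 * (P * r) := by ring
    _ ≤ _ := le_of_eq (by push_cast; ring)

theorem tendsto_lengthErr : Tendsto lengthErr atTop (𝓝 0) := by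
  have hD : Tendsto clusterScale atTop atTop :=
    tendsto_atTop.2 fun b => (eventually_ge_atTop ((4 * b) * (4 * b))).mono fun R hR => by
      have := Nat.le_sqrt.2 hR
      simp only [clusterScale]; omega
  set g : ℕ → ℝ≥0∞ := fun k =>
    (12 * (16 * (4 * k + 4) ^ 2 + 1) ^ 4 : ℕ) * (4⁻¹ : ℝ≥0∞) ^ (k + 1)
  have hg : Tendsto g atTop (𝓝 0) := by
    have h0 : ∀ j : ℕ, Tendsto (fun k : ℕ => ((k + 1 : ℕ) : ℝ) ^ j * (1 / 4 : ℝ) ^ (k + 1))
        atTop (𝓝 0) := fun j =>
      (tendsto_pow_const_mul_const_pow_of_lt_one j (by norm_num) (by norm_num)).comp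
        (tendsto_add_atTop_nat 1)
    have h1 : Tendsto (fun k : ℕ => (12 * 257 ^ 4 : ℝ) *
        (((k + 1 : ℕ) : ℝ) ^ 8 * (1 / 4 : ℝ) ^ (k + 1))) atTop (𝓝 0) := by
      simpa using (h0 8).const_mul (12 * 257 ^ 4 : ℝ)
    refine tendsto_of_tendsto_of_tendsto_of_le_of_le tendsto_const_nhds
      (ENNReal.ofReal_zero ▸ ENNReal.tendsto_ofReal h1) (fun k => zero_le) fun k => ?_
    simp only [g]
    rw [show (4⁻¹ : ℝ≥0∞) = ENNReal.ofReal (1 / 4) by
        rw [one_div, ENNReal.ofReal_inv_of_pos (by norm_num), ENNReal.ofReal_ofNat],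
      ← ENNReal.ofReal_natCast, ← ENNReal.ofReal_pow (by norm_num),
      ← ENNReal.ofReal_mul (by positivity)]
    refine ENNReal.ofReal_le_ofReal ?_
    rw [← mul_assoc]
    refine mul_le_mul_of_nonneg_right ?_ (by positivity)
    push_cast
    have hk : (1 : ℝ) ≤ ((k : ℝ) + 1) ^ 2 := one_le_pow₀ (by linarith [Nat.cast_nonneg (α := ℝ) k])
    calc (12 : ℝ) * (16 * (4 * (k : ℝ) + 4) ^ 2 + 1) ^ 4
        ≤ 12 * (257 * ((k : ℝ) + 1) ^ 2) ^ 4 := by
          refine mul_le_mul_of_nonneg_left (pow_le_pow_left₀ (by positivity) ?_ _) (by norm_num)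
          nlinarith
      _ = _ := by ring
  refine tendsto_of_tendsto_of_tendsto_of_le_of_le tendsto_const_nhds (hg.comp hD)
    (fun R => zero_le) fun R => ?_
  simp only [lengthErr, Function.comp_apply, g]
  refine mul_le_mul_left (Nat.cast_le.2 ?_) _
  have h := Nat.lt_succ_sqrt R
  have h4 : Nat.sqrt R + 1 ≤ 4 * clusterScale R + 4 := by simp only [clusterScale]; omega
  gcongr
  calc R ≤ (Nat.sqrt R + 1) * (Nat.sqrt R + 1) := h.le
    _ ≤ (4 * clusterScale R + 4) ^ 2 := by rw [sq]; exact Nat.mul_le_mul h4 h4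

/-- The geodesics inside some domain between two points of a square are too long. -/
def longGeodesic (x : Z2) (R n : ℕ) : Set (Sym2 Z2 → ℝ) :=
  {t | ∃ (U : Set Z2) (u v : Z2) (π : lattice.Walk u v), (∀ z, supDist x z ≤ n → z ∈ U) ∧
    supDist x u ≤ R ∧ supDist x v ≤ R ∧ π.IsPath ∧ (∀ z ∈ π.support, z ∈ U) ∧
    (∀ q : lattice.Walk u v, (∀ z ∈ q.support, z ∈ U) → wlen t π ≤ wlen t q) ∧ n < π.length}

/-- Every atomless law has the two thresholds needed. -/
theorem exists_thresholds [NullSingletonClass μ] (hμ : ∀ᵐ s ∂μ, 0 ≤ s) :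
    ∃ a L : ℝ, 0 < a ∧ 0 ≤ L ∧ LowQuantile μ a ∧ HighQuantile μ L := by
  -- a positive low quantile
  obtain ⟨a, hapos, ha⟩ : ∃ a : ℝ, 0 < a ∧ LowQuantile μ a := by
    have h0 : μ (Set.Iic (0 : ℝ)) = 0 := by
      rw [← measure_congr Iio_ae_eq_Iic]
      refine measure_eq_zero_iff_ae_notMem.2 ?_
      filter_upwards [hμ] with s hs
      simp [hs]
    have hlim : Tendsto (fun n : ℕ => μ (Set.Iic (1 / ((n : ℝ) + 1)))) atTop (𝓝 0) := by
      rw [← h0]
      have hi : (⋂ n : ℕ, Set.Iic (1 / ((n : ℝ) + 1))) = Set.Iic 0 := by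
        ext s
        simp only [Set.mem_iInter, Set.mem_Iic]
        refine ⟨fun h => ?_, fun h n => h.trans (by positivity)⟩
        by_contra! hs
        obtain ⟨n, hn⟩ := exists_nat_one_div_lt hs
        exact absurd (h n) (not_le.2 hn)
      rw [← hi]
      refine tendsto_measure_iInter_atTop (fun n => measurableSet_Iic.nullMeasurableSet)
        (fun m n hmn => Set.Iic_subset_Iic.2 ?_) ⟨0, measure_ne_top _ _⟩
      exact one_div_le_one_div_of_le (by positivity) (by simpa using hmn)
    obtain ⟨n, hn⟩ := (hlim.eventually (eventually_le_nhds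
      (pos_iff_ne_zero.2 (pow_ne_zero _ (by simp)) : (0 : ℝ≥0∞) < (32⁻¹ : ℝ≥0∞) ^ 2))).exists
    exact ⟨_, by positivity, hn⟩
  obtain ⟨L, hL0, hL⟩ : ∃ L : ℝ, 0 ≤ L ∧ HighQuantile μ L := by
    have hlim : Tendsto (fun n : ℕ => μ (Set.Ioi (n : ℝ))) atTop (𝓝 0) := by
      have hi : (⋂ n : ℕ, Set.Ioi (n : ℝ)) = ∅ := by
        ext s
        simp only [Set.mem_iInter, Set.mem_Ioi, Set.mem_empty_iff_false, iff_false, not_forall,
          not_lt]
        exact exists_nat_ge s
      rw [← measure_empty (μ := μ), ← hi]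
      exact tendsto_measure_iInter_atTop (fun n => measurableSet_Ioi.nullMeasurableSet)
        (fun m n hmn => Set.Ioi_subset_Ioi (by exact_mod_cast hmn)) ⟨0, measure_ne_top _ _⟩
    obtain ⟨n, hn⟩ := (hlim.eventually (eventually_le_nhds
      (pos_iff_ne_zero.2 (pow_ne_zero _ (by simp)) :
        (0 : ℝ≥0∞) < ((2 ^ 13 : ℝ≥0∞)⁻¹) ^ 2))).exists
    exact ⟨n, Nat.cast_nonneg n, hn⟩
  exact ⟨a, L, hapos, hL0, ha, hL⟩

/-- Kesten's length bound for every atomless law, without moments. -/
theorem kesten_length [NullSingletonClass μ] (hμ : ∀ᵐ s ∂μ, 0 ≤ s) :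
    ∃ C : ℕ, ∃ δ : ℕ → ℝ≥0∞, Tendsto δ atTop (𝓝 0) ∧
      ∀ (x : Z2) (R : ℕ), iidLaw (Sym2 Z2) μ (longGeodesic x R (C * R)) ≤ δ R := by
  obtain ⟨a, L, hapos, hL0, ha, hL⟩ := exists_thresholds μ hμ
  refine ⟨⌈11 + 155 * L / (a / 2)⌉₊ + 4, fun R => if 4 ≤ R then lengthErr R else 1, ?_,
    fun x R => ?_⟩
  · refine tendsto_lengthErr.congr' ((eventually_ge_atTop 4).mono fun R hR => ?_)
    simp only [if_pos hR]
  dsimp only
  split_ifs with hR
  swap
  · exact prob_le_one
  refine (measure_mono fun t ht => ?_).trans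
    (measure_lengthBad_le μ hL ha hapos.le hμ x (show 1 ≤ R by omega))
  by_contra hgood
  obtain ⟨U, u, v, π, hU, hu, hv, hπ, hπU, hmin, hlong⟩ := ht
  have hCR : 4 * R ≤ (⌈11 + 155 * L / (a / 2)⌉₊ + 4) * R := Nat.mul_le_mul_right R (by omega)
  have hb := geodesic_length_le hR hL0 (half_pos hapos) hgood
    (fun z hz => hU z (hz.trans hCR)) hu hv hπ hπU hmin
  have hceil := mul_le_mul_of_nonneg_right
    (Nat.le_ceil (11 + 155 * L / (a / 2))) (Nat.cast_nonneg (α := ℝ) R)
  have hlong' : (((⌈11 + 155 * L / (a / 2)⌉₊ + 4) * R : ℕ) : ℝ) < π.length := by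
    exact_mod_cast hlong
  push_cast at hlong'
  nlinarith [Nat.cast_nonneg (α := ℝ) R]

/-- For every fixed square the lengths of its geodesics are tight, uniformly in the domain. -/
theorem exists_length_tight [NullSingletonClass μ] (hμ : ∀ᵐ s ∂μ, 0 ≤ s) (R : ℕ) {ε : ℝ≥0∞}
    (hε : 0 < ε) : ∃ n : ℕ, ∀ x : Z2, iidLaw (Sym2 Z2) μ (longGeodesic x R n) ≤ ε := by
  obtain ⟨C, δ, hδ, h⟩ := kesten_length μ hμ
  obtain ⟨R', hR'⟩ := eventually_atTop.1 (hδ.eventually (eventually_le_nhds hε))
  refine ⟨C * max R R', fun x => le_trans (measure_mono ?_)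
    ((h x (max R R')).trans (hR' _ (le_max_right _ _)))⟩
  rintro t ⟨U, u, v, π, hU, hu, hv, hrest⟩
  exact ⟨U, u, v, π, hU, hu.trans (le_max_left _ _), hv.trans (le_max_left _ _), hrest⟩


end

end Vale.P158
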