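import Vale.Agent.P158.Length
import Vale.Agent.P158.GeoU

/-!
# P158: geodesics of a box in its middle

If a square of radius `4 R` lies inside the domain, then with probability tending to one every
geodesic of the domain, whatever its ends, has at most `C R` vertices and `C R` edges in the
square of radius `R`.
-/

open MeasureTheory ProbabilityTheory Filter Topology
open scoped ENNReal

namespace Vale.P158

noncomputable section

/-- The first vertex with property `P`. -/
lemma exists_first {P : Z2 → Prop} : ∀ {u v : Z2} (p : lattice.Walk u v),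
    (∃ z ∈ p.support, P z) → ∃ (a : Z2) (ha : a ∈ p.support), P a ∧
      ∀ z ∈ p.support, P z → z ∈ (p.dropUntil a ha).support := by
  classical
  intro u v p
  induction p with
  | nil =>
    rintro ⟨z, hz, hP⟩
    obtain rfl : z = _ := List.mem_singleton.1 (by simpa using hz)
    exact ⟨z, by simp, hP, fun w hw _ => by simp_all⟩
  | @cons a b c h p ih =>
    rintro ⟨z, hz, hP⟩
    by_cases hPa : P a
    · refine ⟨a, SimpleGraph.Walk.start_mem_support _, hPa, fun w hw _ => ?_⟩
      rw [(SimpleGraph.Walk.cons h p).dropUntil_first (SimpleGraph.Walk.start_mem_support _)]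
      exact hw
    · have hmem : ∀ w ∈ (SimpleGraph.Walk.cons h p).support, P w → w ∈ p.support := by
        intro w hw hPw
        rcases List.mem_cons.1 (by simpa using hw) with rfl | hw
        exacts [absurd hPw hPa, hw]
      obtain ⟨w, hw, hPw, hall⟩ := ih ⟨z, hmem z hz hP, hP⟩
      refine ⟨w, by simp [hw], hPw, fun s hs hPs => ?_⟩
      have hne : a ≠ w := fun e => hPa (e ▸ hPw)
      simpa [SimpleGraph.Walk.dropUntil, hne] using hall s (hmem s hs hPs) hPs

open scoped Classical in
/-- The vertices of a walk in the square of radius `R`. -/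
def midVerts (x : Z2) (R : ℕ) {u v : Z2} (p : lattice.Walk u v) : Finset Z2 :=
  p.support.toFinset.filter fun z => supDist x z ≤ R

open scoped Classical in
/-- The edges of a walk which meet the square of radius `R`. -/
def midEdges (x : Z2) (R : ℕ) {u v : Z2} (p : lattice.Walk u v) : Finset (Sym2 Z2) :=
  p.edges.toFinset.filter fun e => ∃ z ∈ e, supDist x z ≤ R

lemma card_midEdges_le (x : Z2) (R : ℕ) {u v : Z2} (p : lattice.Walk u v) :
    (midEdges x R p).card ≤ 4 * (midVerts x R p).card := by
  classical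
  refine (Finset.card_le_card (t := (midVerts x R p).biUnion fun z =>
    (nbrs z).image fun w => s(z, w)) fun e he => ?_).trans ?_
  · obtain ⟨he, z, hze, hz⟩ := Finset.mem_filter.1 he
    rw [List.mem_toFinset] at he
    obtain ⟨w, rfl⟩ : ∃ w, e = s(z, w) := ⟨_, (Sym2.other_spec hze).symm⟩
    exact Finset.mem_biUnion.2 ⟨z, Finset.mem_filter.2
      ⟨List.mem_toFinset.2 (p.fst_mem_support_of_mem_edges he), hz⟩,
      Finset.mem_image.2 ⟨w, mem_nbrs (p.adj_of_mem_edges he), rfl⟩⟩
  · rw [mul_comm]
    exact Finset.card_biUnion_le_card_mul _ _ _ fun z _ =>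
      Finset.card_image_le.trans (card_nbrs z)

variable {L c : ℝ} {x : Z2} {R : ℕ} {t : Sym2 Z2 → ℝ}

/-- The deterministic bound. -/
theorem midVerts_le (hR : 4 ≤ R) (hL : 0 ≤ L) (hc : 0 < c) (htn : ∀ e, 0 ≤ t e)
    (ht : t ∉ lengthBad L c x R) {U : Set Z2} (hU : ∀ z, supDist x z ≤ 4 * R → z ∈ U)
    {u v : Z2} {π : lattice.Walk u v} (hπ : IsGeoU t U π) :
    ((midVerts x R π).card : ℝ) ≤ (12 + 155 * L / c) * R := by
  classical
  by_cases hne : ∃ z ∈ π.support, supDist x z ≤ R
  swap
  · rw [midVerts, Finset.filter_false_of_mem fun z hz h => hne ⟨z, List.mem_toFinset.1 hz, h⟩]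
    simp; positivity
  obtain ⟨a, ha, hPa, hafter⟩ := exists_first π hne
  set π₁ := (π.dropUntil a ha).reverse with hπ₁
  have hg₁ : IsGeoU t U π₁ := (hπ.right htn ha).reverse
  obtain ⟨b, hb, hPb, hbefore⟩ :=
    exists_first (P := fun z => supDist x z ≤ R) π₁ ⟨a, π₁.end_mem_support, hPa⟩
  have hg₂ : IsGeoU t U (π₁.dropUntil b hb) := hg₁.right htn hb
  have hlen := geodesic_length_le hR hL hc ht hU hPb hPa hg₂.isPath (fun z hz => hg₂.mem hz)
    (fun q hq => hg₂.le_walk htn q hq)
  have hcard : (midVerts x R π).card ≤ (π₁.dropUntil b hb).length + 1 := by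
    rw [← SimpleGraph.Walk.length_support]
    refine le_trans (Finset.card_le_card fun z hz => ?_) (List.toFinset_card_le _)
    obtain ⟨hz, hPz⟩ := Finset.mem_filter.1 hz
    rw [List.mem_toFinset] at hz ⊢
    exact hbefore z (by simpa [hπ₁] using hafter z hz hPz) hPz
  have h1 : (1 : ℝ) ≤ R := by exact_mod_cast (show 1 ≤ R by omega)
  have hcard' : ((midVerts x R π).card : ℝ) ≤ ((π₁.dropUntil b hb).length : ℝ) + 1 := by
    exact_mod_cast hcard
  linarith

/-- Some geodesic of a domain containing the square of radius `4 R` has more than `n` vertices or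
edges in the square of radius `R`. -/
def middleLong (x : Z2) (R n : ℕ) : Set (Sym2 Z2 → ℝ) :=
  {t | ∃ (U : Set Z2) (u v : Z2) (π : lattice.Walk u v), (∀ z, supDist x z ≤ 4 * R → z ∈ U) ∧
    IsGeoU t U π ∧ (n < (midVerts x R π).card ∨ n < (midEdges x R π).card)}

/-- With probability tending to one no geodesic has more than `C R` edges in the middle. -/
theorem exists_middle_length (μ : Measure ℝ) [IsProbabilityMeasure μ] [NullSingletonClass μ]
    (hμ : ∀ᵐ s ∂μ, 0 ≤ s) :
    ∃ C : ℕ, ∃ δ : ℕ → ℝ≥0∞, Tendsto δ atTop (𝓝 0) ∧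
      ∀ (x : Z2) (R : ℕ), iidLaw (Sym2 Z2) μ (middleLong x R (C * R)) ≤ δ R := by
  obtain ⟨a, L, hapos, hL0, ha, hL⟩ := exists_thresholds μ hμ
  set K : ℕ := ⌈12 + 155 * L / (a / 2)⌉₊ with hK
  refine ⟨4 * K, fun R => if 4 ≤ R then lengthErr R else 1, ?_, fun x R => ?_⟩
  · refine tendsto_lengthErr.congr' ((eventually_ge_atTop 4).mono fun R hR => ?_)
    simp only [if_pos hR]
  dsimp only
  split_ifs with hR
  swap
  · exact prob_le_one
  refine le_trans ?_ (measure_lengthBad_le μ hL ha hapos.le hμ x (show 1 ≤ R by omega))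
  refine measure_mono_ae ?_
  filter_upwards [ae_pos μ hμ] with t htp
  rintro ⟨U, u, v, π, hU, hπ, hbig⟩
  by_contra hgood
  have hb := midVerts_le hR hL0 (half_pos hapos) (fun e => (htp e).le) hgood hU hπ
  have hv : (midVerts x R π).card ≤ K * R := by
    exact_mod_cast hb.trans (mul_le_mul_of_nonneg_right (Nat.le_ceil _) (Nat.cast_nonneg _))
  have he := card_midEdges_le x R π
  rcases hbig with h | h <;> nlinarith

end

end Vale.P158
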