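import Vale.Agent.P158.Crossing
import Vale.Agent.P158.Lattice

/-!
# P158, step 1: planar Monge inequality and the telescoping budget

`passU t U x y` is the passage time over walks inside `U`: for `U` a box this is the box metric `T`,
for a box minus an avoid set it is `T_A`. On boundary points listed in cyclic order both satisfy
the Monge inequality, and a telescoping bounds `T_A - T` by the mixed differences of `T` on the
charged cells, whose total is the boundary cost.
-/

namespace Vale.P158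

open Finset

noncomputable section

variable {t : Sym2 Z2 → ℝ} {U : Set Z2}

/-- The passage time inside `U`. -/
def passU (t : Sym2 Z2 → ℝ) (U : Set Z2) (x y : Z2) : ℝ :=
  ⨅ p : {p : lattice.Walk x y // ∀ v ∈ p.support, v ∈ U}, wlen t p.1

/-- Some walk inside `U` joins `x` and `y`. -/
def JoinedIn (U : Set Z2) (x y : Z2) : Prop := ∃ p : lattice.Walk x y, ∀ v ∈ p.support, v ∈ U

lemma JoinedIn.symm {x y : Z2} (h : JoinedIn U x y) : JoinedIn U y x := by
  obtain ⟨p, hp⟩ := h
  exact ⟨p.reverse, by simpa using hp⟩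

lemma JoinedIn.refl {x : Z2} (h : x ∈ U) : JoinedIn U x x := ⟨.nil, by simpa using h⟩

lemma wlen_nonneg (ht : ∀ e, 0 ≤ t e) {x y : Z2} (p : lattice.Walk x y) : 0 ≤ wlen t p :=
  List.sum_nonneg fun _ h => by
    obtain ⟨e, _, rfl⟩ := List.mem_map.1 h
    exact ht e

lemma passU_nonneg (ht : ∀ e, 0 ≤ t e) (U : Set Z2) (x y : Z2) : 0 ≤ passU t U x y :=
  Real.iInf_nonneg fun p => wlen_nonneg ht p.1

lemma passU_le (ht : ∀ e, 0 ≤ t e) {x y : Z2} (p : lattice.Walk x y)
    (hp : ∀ v ∈ p.support, v ∈ U) : passU t U x y ≤ wlen t p :=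
  ciInf_le (f := fun p : {p : lattice.Walk x y // ∀ v ∈ p.support, v ∈ U} => wlen t p.1)
    ⟨0, by rintro _ ⟨q, rfl⟩; exact wlen_nonneg ht q.1⟩ ⟨p, hp⟩

lemma le_passU {x y : Z2} (h : JoinedIn U x y) {c : ℝ}
    (hc : ∀ p : lattice.Walk x y, (∀ v ∈ p.support, v ∈ U) → c ≤ wlen t p) :
    c ≤ passU t U x y := by
  obtain ⟨p, hp⟩ := h
  have : Nonempty {p : lattice.Walk x y // ∀ v ∈ p.support, v ∈ U} := ⟨⟨p, hp⟩⟩
  exact le_ciInf fun q => hc q.1 q.2

lemma passU_self (ht : ∀ e, 0 ≤ t e) {x : Z2} (h : x ∈ U) : passU t U x x = 0 :=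
  le_antisymm ((passU_le ht .nil (by simpa using h)).trans_eq (wlen_nil t x))
    (passU_nonneg ht U x x)

lemma passU_comm (ht : ∀ e, 0 ≤ t e) (U : Set Z2) (x y : Z2) :
    passU t U x y = passU t U y x := by
  by_cases h : JoinedIn U x y
  · refine le_antisymm (le_passU h.symm fun p hp => ?_) (le_passU h fun p hp => ?_) <;>
    · rw [← wlen_reverse t p]
      exact passU_le ht _ (by simpa using hp)
  · have h1 : IsEmpty {p : lattice.Walk x y // ∀ v ∈ p.support, v ∈ U} :=
      ⟨fun p => h ⟨p.1, p.2⟩⟩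
    have h2 : IsEmpty {p : lattice.Walk y x // ∀ v ∈ p.support, v ∈ U} :=
      ⟨fun p => h (JoinedIn.symm ⟨p.1, p.2⟩)⟩
    rw [passU, passU, Real.iInf_of_isEmpty, Real.iInf_of_isEmpty]

lemma passU_triangle (ht : ∀ e, 0 ≤ t e) {x y z : Z2} (h1 : JoinedIn U x y)
    (h2 : JoinedIn U y z) : passU t U x z ≤ passU t U x y + passU t U y z := by
  have : passU t U x z - passU t U y z ≤ passU t U x y := le_passU h1 fun p hp => by
    have : passU t U x z - wlen t p ≤ passU t U y z := le_passU h2 fun q hq => by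
      have := passU_le (U := U) ht (p.append q) fun v hv => by
        rcases (SimpleGraph.Walk.mem_support_append_iff p q).1 hv with h | h
        exacts [hp v h, hq v h]
      rw [wlen_append] at this
      linarith
    linarith
  linarith

/-- Fewer allowed vertices, larger passage time. -/
lemma passU_mono (ht : ∀ e, 0 ≤ t e) {V : Set Z2} (hVU : V ⊆ U) {x y : Z2}
    (h : JoinedIn V x y) : passU t U x y ≤ passU t V x y :=
  le_passU h fun p hp => passU_le ht p fun v hv => hVU (hp v hv)

/-- If an optimal walk stays in `V`, avoiding costs nothing. -/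
lemma passU_eq_of_avoids (ht : ∀ e, 0 ≤ t e) {V : Set Z2} (hVU : V ⊆ U) {x y : Z2}
    (p : lattice.Walk x y) (hp : ∀ v ∈ p.support, v ∈ V)
    (hopt : wlen t p = passU t U x y) : passU t V x y = passU t U x y :=
  le_antisymm ((passU_le ht p hp).trans_eq hopt) (passU_mono ht hVU ⟨p, hp⟩)

lemma passU_le_edge (ht : ∀ e, 0 ≤ t e) {x y : Z2} (hxy : lattice.Adj x y) (hx : x ∈ U)
    (hy : y ∈ U) : passU t U x y ≤ t s(x, y) := by
  refine (passU_le ht (SimpleGraph.Walk.cons hxy .nil) ?_).trans_eq ?_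
  · simp [hx, hy]
  · rw [wlen_cons, wlen_nil, add_zero]

/-! ### Crossing -/

/-- `a, b, c, d` occur in this cyclic order. -/
def CycOrd (a b c d : ℤ) : Prop :=
  (a < b ∧ b < c ∧ c < d) ∨ (b < c ∧ c < d ∧ d < a) ∨ (c < d ∧ d < a ∧ a < b) ∨
    (d < a ∧ a < b ∧ b < c)

lemma monge_ordered (ht : ∀ e, 0 ≤ t e) (B : Vale.Agent.P158.Crossing.Rect)
    (hU : ∀ v ∈ U, B.Mem v) {a b c d : Z2} (ha : B.Bdry a) (hb : B.Bdry b) (hc : B.Bdry c)
    (hd : B.Bdry d) (h : B.pos a < B.pos b ∧ B.pos b < B.pos c ∧ B.pos c < B.pos d)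
    (hac : JoinedIn U a c) (hbd : JoinedIn U b d) :
    passU t U a d + passU t U b c ≤ passU t U a c + passU t U b d ∧
      passU t U a b + passU t U c d ≤ passU t U a c + passU t U b d := by
  have key : ∀ (p : lattice.Walk a c), (∀ v ∈ p.support, v ∈ U) →
      ∀ (q : lattice.Walk b d), (∀ v ∈ q.support, v ∈ U) →
      passU t U a d + passU t U b c ≤ wlen t p + wlen t q ∧
        passU t U a b + passU t U c d ≤ wlen t p + wlen t q := by
    intro p hp q hq
    obtain ⟨i, hi, j, hj, hij⟩ := Vale.Agent.P158.Crossing.walks_meet B p.getVert q.getVert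
      p.length q.length (fun i _ => hU _ (hp _ (p.getVert_mem_support i)))
      (fun j _ => hU _ (hq _ (q.getVert_mem_support j)))
      (fun i hi => p.adj_getVert_succ hi) (fun j hj => q.adj_getVert_succ hj)
      (by simpa using ha) (by simpa using hc) (by simpa using hb) (by simpa using hd)
      (by simpa using h.1) (by simpa using h.2.1) (by simpa using h.2.2)
    obtain ⟨v, hvp, hvq⟩ : ∃ v, v ∈ p.support ∧ v ∈ q.support :=
      ⟨_, p.getVert_mem_support i, hij ▸ q.getVert_mem_support j⟩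
    have ep : wlen t p = wlen t (p.takeUntil v hvp) + wlen t (p.dropUntil v hvp) := by
      rw [← wlen_append, p.take_spec hvp]
    have eq' : wlen t q = wlen t (q.takeUntil v hvq) + wlen t (q.dropUntil v hvq) := by
      rw [← wlen_append, q.take_spec hvq]
    have up1 : ∀ u ∈ (p.takeUntil v hvp).support, u ∈ U := fun u hu =>
      hp u (p.support_takeUntil_subset_support hvp hu)
    have up2 : ∀ u ∈ (p.dropUntil v hvp).support, u ∈ U := fun u hu =>
      hp u (p.support_dropUntil_subset_support hvp hu)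
    have uq1 : ∀ u ∈ (q.takeUntil v hvq).support, u ∈ U := fun u hu =>
      hq u (q.support_takeUntil_subset_support hvq hu)
    have uq2 : ∀ u ∈ (q.dropUntil v hvq).support, u ∈ U := fun u hu =>
      hq u (q.support_dropUntil_subset_support hvq hu)
    have a1 := passU_le (U := U) ht _ up1
    have a2 := passU_le (U := U) ht _ up2
    have b1 := passU_le (U := U) ht _ uq1
    have b2 := passU_le (U := U) ht _ uq2
    have t1 := passU_triangle ht (U := U) ⟨_, up1⟩ ⟨_, uq2⟩
    have t2 := passU_triangle ht (U := U) ⟨_, uq1⟩ ⟨_, up2⟩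
    have t3 := passU_triangle ht (U := U) ⟨_, up1⟩ (JoinedIn.symm ⟨_, uq1⟩)
    have t4 := passU_triangle ht (U := U) (JoinedIn.symm ⟨_, up2⟩) ⟨_, uq2⟩
    rw [passU_comm ht U v b] at t3
    rw [passU_comm ht U c v] at t4
    constructor <;> linarith
  have main : ∀ L : ℝ, (∀ p : lattice.Walk a c, (∀ v ∈ p.support, v ∈ U) →
      ∀ q : lattice.Walk b d, (∀ v ∈ q.support, v ∈ U) → L ≤ wlen t p + wlen t q) →
      L ≤ passU t U a c + passU t U b d := fun L hL => by
    have : L - passU t U b d ≤ passU t U a c := le_passU hac fun p hp => by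
      have : L - wlen t p ≤ passU t U b d := le_passU hbd fun q hq => by
        linarith [hL p hp q hq]
      linarith
    linarith
  exact ⟨main _ fun p hp q hq => (key p hp q hq).1, main _ fun p hp q hq => (key p hp q hq).2⟩

/-- The Monge inequalities for four boundary points in cyclic order. -/
theorem monge (ht : ∀ e, 0 ≤ t e) (B : Vale.Agent.P158.Crossing.Rect)
    (hU : ∀ v ∈ U, B.Mem v) {a b c d : Z2} (ha : B.Bdry a) (hb : B.Bdry b) (hc : B.Bdry c)
    (hd : B.Bdry d) (h : CycOrd (B.pos a) (B.pos b) (B.pos c) (B.pos d))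
    (hac : JoinedIn U a c) (hbd : JoinedIn U b d) :
    passU t U a d + passU t U b c ≤ passU t U a c + passU t U b d ∧
      passU t U a b + passU t U c d ≤ passU t U a c + passU t U b d := by
  rcases h with h | h | h | h
  · exact monge_ordered ht B hU ha hb hc hd h hac hbd
  · have := monge_ordered ht B hU hb hc hd ha h hbd hac.symm (t := t)
    simp only [passU_comm ht U b a, passU_comm ht U c a, passU_comm ht U d a] at this
    constructor <;> linarith
  · have := monge_ordered ht B hU hc hd ha hb h hac.symm hbd.symm (t := t)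
    simp only [passU_comm ht U c a, passU_comm ht U d b, passU_comm ht U c b,
      passU_comm ht U d a] at this
    constructor <;> linarith
  · have := monge_ordered ht B hU hd ha hb hc h hbd.symm hac (t := t)
    simp only [passU_comm ht U d b, passU_comm ht U d a, passU_comm ht U d c] at this
    constructor <;> linarith

/-! ### The telescoping -/

/-- The mixed difference of `f` on the cell `(i, j)`. -/
def mixed (f : ℕ → ℕ → ℝ) (c : ℕ × ℕ) : ℝ :=
  f c.1 c.2 + f (c.1 + 1) (c.2 + 1) - f c.1 (c.2 + 1) - f (c.1 + 1) c.2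

/-- The cells nested inside `[a, b]`. -/
def cells (a b : ℕ) : Finset (ℕ × ℕ) :=
  (Ico a b ×ˢ Ico a b).filter fun c => c.1 < c.2

/-- `∑ over the cells nested in [a, b]` of the mixed difference is the cost of the steps minus
the value of the pair. -/
theorem telescope (f : ℕ → ℕ → ℝ) (hf : ∀ i, f i i = 0) {a b : ℕ} (hab : a ≤ b) :
    ∑ c ∈ cells a b, mixed f c = (∑ i ∈ Ico a b, f i (i + 1)) - f a b := by
  induction b, hab using Nat.le_induction with
  | base => simp [cells, hf]
  | succ b hb ih =>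
    have hd : Disjoint (cells a b) ((Ico a b).image fun i => (i, b)) := by
      rw [disjoint_left]
      intro c hc hc'
      simp only [cells, mem_filter, mem_product, mem_Ico] at hc
      obtain ⟨i, -, rfl⟩ := mem_image.1 hc'
      omega
    have e : cells a (b + 1) = cells a b ∪ (Ico a b).image fun i => (i, b) := by
      ext ⟨i, j⟩
      simp only [cells, mem_filter, mem_product, mem_Ico, mem_union, mem_image, Prod.mk.injEq]
      constructor
      · intro h
        rcases lt_or_eq_of_le (Nat.lt_succ_iff.1 h.1.2.2) with h' | h'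
        · exact Or.inl ⟨⟨⟨h.1.1.1, by omega⟩, h.1.2.1, h'⟩, h.2⟩
        · exact Or.inr ⟨i, ⟨h.1.1.1, by omega⟩, rfl, h'.symm⟩
      · rintro (h | ⟨k, hk, rfl, rfl⟩) <;> omega
    rw [e, sum_union hd, ih, sum_image fun x _ y _ h => by simpa using h, sum_Ico_succ_top hb]
    have tel : ∑ i ∈ Ico a b, mixed f (i, b)
        = (f a b - f a (b + 1)) - (f b b - f b (b + 1)) := by
      have := sum_Ico_sub (fun i => f i (b + 1) - f i b) hb
      rw [show (f a b - f a (b + 1)) - (f b b - f b (b + 1)) =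
        (f b (b + 1) - f b b) - (f a (b + 1) - f a b) by ring, ← this]
      exact sum_congr rfl fun i _ => by simp only [mixed]; ring
    rw [tel, hf]
    ring

/-- The cells nested in `[a, b]` having a corner where `h` is nonzero. -/
def charged (h : ℕ → ℕ → ℝ) (a b : ℕ) : Finset (ℕ × ℕ) :=
  (cells a b).filter fun c =>
    h c.1 c.2 ≠ 0 ∨ h (c.1 + 1) (c.2 + 1) ≠ 0 ∨ h c.1 (c.2 + 1) ≠ 0 ∨ h (c.1 + 1) c.2 ≠ 0

/-- The budget: `T_A - T` on a pair is paid by the charged cells of `T` nested inside it. -/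
theorem budget (T A : ℕ → ℕ → ℝ) (hT : ∀ i, T i i = 0) (hA : ∀ i, A i i = 0) {a b : ℕ}
    (hab : a ≤ b) (hM : ∀ c ∈ cells a b, 0 ≤ mixed A c) :
    A a b - T a b ≤ (∑ i ∈ Ico a b, (A i (i + 1) - T i (i + 1))) +
      ∑ c ∈ charged (fun i j => A i j - T i j) a b, mixed T c := by
  have h1 := telescope A hA hab
  have h2 := telescope T hT hab
  have h3 : ∑ c ∈ cells a b, mixed T c - ∑ c ∈ cells a b, mixed A c ≤
      ∑ c ∈ charged (fun i j => A i j - T i j) a b, mixed T c := by
    rw [charged, sum_filter, ← sum_sub_distrib]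
    refine sum_le_sum fun c hc => ?_
    have := hM c hc
    split_ifs with hch
    · linarith
    · simp only [not_or, not_not] at hch
      obtain ⟨e1, e2, e3, e4⟩ := hch
      simp only [mixed] at this ⊢
      linarith
  rw [sum_sub_distrib]
  linarith

/-- The budget summed over centres: if a cell is charged by at most `m` centres, the total margin
is at most `m` times the boundary cost. -/
theorem budget_sum {Z : Type*} (s : Finset Z) (T : ℕ → ℕ → ℝ) (A : Z → ℕ → ℕ → ℝ)
    (a b : Z → ℕ) {n m : ℕ} (hT : ∀ i, T i i = 0) (hTn : T 0 n = 0)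
    (hA : ∀ z, ∀ i, A z i i = 0) (hab : ∀ z ∈ s, a z ≤ b z ∧ b z ≤ n)
    (hMT : ∀ c ∈ cells 0 n, 0 ≤ mixed T c)
    (hMA : ∀ z ∈ s, ∀ c ∈ cells (a z) (b z), 0 ≤ mixed (A z) c)
    (hm : ∀ c ∈ cells 0 n,
      (s.filter fun z => c ∈ charged (fun i j => A z i j - T i j) (a z) (b z)).card ≤ m) :
    ∑ z ∈ s, (A z (a z) (b z) - T (a z) (b z)
        - ∑ i ∈ Ico (a z) (b z), (A z i (i + 1) - T i (i + 1))) ≤
      m * ∑ i ∈ Ico 0 n, T i (i + 1) := by
  classical
  have htot : ∑ c ∈ cells 0 n, mixed T c = ∑ i ∈ Ico 0 n, T i (i + 1) := by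
    rw [telescope T hT (Nat.zero_le n), hTn, sub_zero]
  have hsub : ∀ z ∈ s, charged (fun i j => A z i j - T i j) (a z) (b z) ⊆ cells 0 n := by
    intro z hz c hc
    have hc' := (mem_filter.1 hc).1
    simp only [cells, mem_filter, mem_product, mem_Ico] at hc' ⊢
    have := hab z hz
    omega
  calc _ ≤ ∑ z ∈ s, ∑ c ∈ charged (fun i j => A z i j - T i j) (a z) (b z), mixed T c :=
        sum_le_sum fun z hz => by
          linarith [budget T (A z) hT (hA z) (hab z hz).1 (hMA z hz)]
    _ = ∑ z ∈ s, ∑ c ∈ cells 0 n,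
          if c ∈ charged (fun i j => A z i j - T i j) (a z) (b z) then mixed T c else 0 :=
        sum_congr rfl fun z hz => by
          rw [← sum_filter, filter_mem_eq_inter, inter_eq_right.2 (hsub z hz)]
    _ = ∑ c ∈ cells 0 n,
          ((s.filter fun z => c ∈ charged (fun i j => A z i j - T i j) (a z) (b z)).card : ℝ)
            * mixed T c := by
        rw [sum_comm]
        exact sum_congr rfl fun c _ => by rw [← sum_filter, sum_const, nsmul_eq_mul]
    _ ≤ ∑ c ∈ cells 0 n, (m : ℝ) * mixed T c := sum_le_sum fun c hc =>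
        mul_le_mul_of_nonneg_right (Nat.cast_le.2 (hm c hc)) (hMT c hc)
    _ = _ := by rw [← mul_sum, htot]

/-! ### Boundary loops -/

/-- A periodic listing of boundary points in cyclic order. -/
structure Loop (B : Vale.Agent.P158.Crossing.Rect) where
  n : ℕ
  x : ℕ → Z2
  period : ∀ i, x (i + n) = x i
  bdry : ∀ i, B.Bdry (x i)
  mono : ∀ i j, i < j → j < n → B.pos (x i) < B.pos (x j)

namespace Loop

variable {B : Vale.Agent.P158.Crossing.Rect} (L : Loop B)

lemma x_mod (i : ℕ) : L.x (i % L.n) = L.x i :=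
  (Function.Periodic.map_mod_nat (f := L.x) L.period i)

/-- Increasing indices within one period are in cyclic order. -/
lemma cycOrd {i j k l : ℕ} (hij : i < j) (hjk : j < k) (hkl : k < l) (hl : l < i + L.n) :
    CycOrd (B.pos (L.x i)) (B.pos (L.x j)) (B.pos (L.x k)) (B.pos (L.x l)) := by
  have hn : 0 < L.n := by omega
  have red : ∀ d, d < L.n →
      ((i % L.n + d < L.n ∧ (i + d) % L.n = i % L.n + d) ∨
        (L.n ≤ i % L.n + d ∧ (i + d) % L.n = i % L.n + d - L.n)) := fun d hd => by
    have hi := Nat.mod_lt i hn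
    rw [Nat.add_mod, Nat.mod_eq_of_lt hd]
    rcases lt_or_ge (i % L.n + d) L.n with h | h
    · exact Or.inl ⟨h, Nat.mod_eq_of_lt h⟩
    · refine Or.inr ⟨h, ?_⟩
      rw [Nat.mod_eq_sub_mod h, Nat.mod_eq_of_lt (by omega)]
  have rj := red (j - i) (by omega)
  have rk := red (k - i) (by omega)
  have rl := red (l - i) (by omega)
  rw [show i + (j - i) = j by omega] at rj
  rw [show i + (k - i) = k by omega] at rk
  rw [show i + (l - i) = l by omega] at rl
  rw [← L.x_mod i, ← L.x_mod j, ← L.x_mod k, ← L.x_mod l]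
  have hi := Nat.mod_lt i hn
  have hj := Nat.mod_lt j hn
  have hk := Nat.mod_lt k hn
  have hl := Nat.mod_lt l hn
  unfold CycOrd
  rcases rj with ⟨aj, bj⟩ | ⟨aj, bj⟩ <;> rcases rk with ⟨ak, bk⟩ | ⟨ak, bk⟩ <;>
    rcases rl with ⟨al, bl⟩ | ⟨al, bl⟩ <;>
    first
      | omega
      | exact Or.inl ⟨L.mono _ _ (by omega) hj, L.mono _ _ (by omega) hk,
          L.mono _ _ (by omega) hl⟩
      | exact Or.inr (Or.inl ⟨L.mono _ _ (by omega) hk, L.mono _ _ (by omega) hl,
          L.mono _ _ (by omega) hi⟩)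
      | exact Or.inr (Or.inr (Or.inl ⟨L.mono _ _ (by omega) hl, L.mono _ _ (by omega) hi,
          L.mono _ _ (by omega) hj⟩))
      | exact Or.inr (Or.inr (Or.inr ⟨L.mono _ _ (by omega) hi, L.mono _ _ (by omega) hj,
          L.mono _ _ (by omega) hk⟩))

/-- The passage time inside `U` between loop points. -/
def pass (t : Sym2 Z2 → ℝ) (U : Set Z2) (i j : ℕ) : ℝ := passU t U (L.x i) (L.x j)

lemma pass_self (ht : ∀ e, 0 ≤ t e) (hx : ∀ i, L.x i ∈ U) (i : ℕ) : L.pass t U i i = 0 :=
  passU_self ht (hx i)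

lemma pass_period (ht : ∀ e, 0 ≤ t e) (hx : ∀ i, L.x i ∈ U) : L.pass t U 0 L.n = 0 := by
  rw [pass, show L.x L.n = L.x 0 by simpa using L.period 0]
  exact passU_self ht (hx 0)

/-- Every cell of the loop has nonnegative mixed difference, for `T` and for `T_A` alike. -/
theorem mixed_nonneg (ht : ∀ e, 0 ≤ t e) (hU : ∀ v ∈ U, B.Mem v)
    (hjoin : ∀ i j, JoinedIn U (L.x i) (L.x j)) {i j : ℕ} (hij : i < j) (hj : j < i + L.n) :
    0 ≤ mixed (L.pass t U) (i, j) := by
  simp only [mixed, pass]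
  have hx : ∀ k, L.x k ∈ U := fun k => by
    obtain ⟨p, hp⟩ := hjoin k k
    exact hp _ p.start_mem_support
  rcases Nat.lt_or_ge (i + 1) j with h1 | h1
  · rcases Nat.lt_or_ge (j + 1) (i + L.n) with h2 | h2
    · have := (monge ht B hU (L.bdry i) (L.bdry (i + 1)) (L.bdry j) (L.bdry (j + 1))
        (L.cycOrd (by omega) h1 (by omega) h2) (hjoin i j) (hjoin (i + 1) (j + 1))).1
      linarith
    · -- the cell next to the diagonal on the far side
      have e : L.x (j + 1) = L.x i := by rw [show j + 1 = i + L.n by omega, L.period]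
      rw [e, passU_self ht (hx i)]
      have h := passU_triangle (t := t) ht (hjoin (i + 1) i) (hjoin i j)
      linarith
  · have e : j = i + 1 := by omega
    subst e
    rw [passU_self ht (hx (i + 1))]
    have h := passU_triangle (t := t) ht (hjoin i (i + 1)) (hjoin (i + 1) (i + 1 + 1))
    linarith

/-- The total of all cells is the cost of the loop. -/
theorem total (ht : ∀ e, 0 ≤ t e) (hx : ∀ i, L.x i ∈ U) :
    ∑ c ∈ cells 0 L.n, mixed (L.pass t U) c = ∑ i ∈ Ico 0 L.n, L.pass t U i (i + 1) := by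
  rw [telescope _ (L.pass_self ht hx) (Nat.zero_le _), L.pass_period ht hx, sub_zero]

/-- The budget for avoiding part of the box, on a pair `a ≤ b` of one period. -/
theorem pass_budget (ht : ∀ e, 0 ≤ t e) {V : Set Z2} (hVU : V ⊆ U) (hU : ∀ v ∈ U, B.Mem v)
    (hjoin : ∀ i j, JoinedIn V (L.x i) (L.x j)) {a b : ℕ} (hab : a ≤ b) (hb : b ≤ a + L.n) :
    L.pass t V a b - L.pass t U a b ≤
      (∑ i ∈ Ico a b, (L.pass t V i (i + 1) - L.pass t U i (i + 1))) +
        ∑ c ∈ charged (fun i j => L.pass t V i j - L.pass t U i j) a b,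
          mixed (L.pass t U) c := by
  have hxV : ∀ i, L.x i ∈ V := fun i => by
    obtain ⟨p, hp⟩ := hjoin i i
    exact hp _ p.start_mem_support
  refine budget _ _ (L.pass_self ht fun i => hVU (hxV i)) (L.pass_self ht hxV) hab fun c hc => ?_
  simp only [cells, mem_filter, mem_product, mem_Ico] at hc
  exact L.mixed_nonneg ht (fun v hv => hU v (hVU hv)) hjoin hc.2 (by omega)

/-- The budget summed over centres `z` with allowed sets `V z`. -/
theorem pass_budget_sum {Z : Type*} (s : Finset Z) (V : Z → Set Z2) (a b : Z → ℕ) {m : ℕ}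
    (ht : ∀ e, 0 ≤ t e) (hU : ∀ v ∈ U, B.Mem v) (hVU : ∀ z, V z ⊆ U)
    (hjoin : ∀ z i j, JoinedIn (V z) (L.x i) (L.x j))
    (hjoinU : ∀ i j, JoinedIn U (L.x i) (L.x j)) (hab : ∀ z ∈ s, a z ≤ b z ∧ b z ≤ L.n)
    (hm : ∀ c ∈ cells 0 L.n, (s.filter fun z =>
      c ∈ charged (fun i j => L.pass t (V z) i j - L.pass t U i j) (a z) (b z)).card ≤ m) :
    ∑ z ∈ s, (L.pass t (V z) (a z) (b z) - L.pass t U (a z) (b z)
        - ∑ i ∈ Ico (a z) (b z), (L.pass t (V z) i (i + 1) - L.pass t U i (i + 1))) ≤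
      m * ∑ i ∈ Ico 0 L.n, L.pass t U i (i + 1) := by
  have hxU : ∀ i, L.x i ∈ U := fun i => by
    obtain ⟨p, hp⟩ := hjoinU i i
    exact hp _ p.start_mem_support
  have hxV : ∀ z i, L.x i ∈ V z := fun z i => by
    obtain ⟨p, hp⟩ := hjoin z i i
    exact hp _ p.start_mem_support
  refine budget_sum s (L.pass t U) (fun z => L.pass t (V z)) a b (L.pass_self ht hxU)
    (L.pass_period ht hxU) (fun z => L.pass_self ht (hxV z)) hab (fun c hc => ?_)
    (fun z hz c hc => ?_) hm
  · simp only [cells, mem_filter, mem_product, mem_Ico] at hc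
    exact L.mixed_nonneg ht hU hjoinU hc.2 (by omega)
  · simp only [cells, mem_filter, mem_product, mem_Ico] at hc
    have := hab z hz
    exact L.mixed_nonneg ht (fun v hv => hU v (hVU z hv)) (hjoin z) hc.2 (by omega)

end Loop

end

end Vale.P158
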