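import Mathlib
import Vale.Agent.P158.Base

/-!
P158, step (2): independent lowering of finitely many weights.  Weight `i` is replaced by its
minimum with a fresh copy with probability `a i`.  The law moves by at most
`√(exp (∑ (a i)²) - 1)` in total variation, while a set of heavy weights gains a multiple of
`∑ a i` with high probability.  So a function which increases by this gain rarely lies in a
given window.
-/

open MeasureTheory ProbabilityTheory Filter Topology
open scoped ENNReal

namespace Vale.P158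

noncomputable section

variable {ι : Type*}

/-- Uniform law on the unit interval. -/
def unif01 : Measure ℝ := volume.restrict (Set.Icc 0 1)

instance : IsProbabilityMeasure unif01 :=
  ⟨by simp [unif01]⟩

lemma unif01_Ico {a : ℝ} (ha : a ≤ 1) : unif01 (Set.Ico 0 a) = ENNReal.ofReal a := by
  rw [unif01, Measure.restrict_apply measurableSet_Ico,
    Set.inter_eq_left.2 (Set.Ico_subset_Icc_self.trans (Set.Icc_subset_Icc_right ha)),
    Real.volume_Ico, sub_zero]

/-- Lowering of one weight: `w.1` is the fresh copy and `w.2` the coin. -/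
def lowOne (a x : ℝ) (w : ℝ × ℝ) : ℝ := if w.2 ∈ Set.Ico 0 a then min x w.1 else x

/-- Lowering of all weights. -/
def lower (a : ι → ℝ) (t : ι → ℝ) (w : ι → ℝ × ℝ) : ι → ℝ := fun i => lowOne (a i) (t i) (w i)

/-- Law of the fresh copies and coins. -/
def fieldLaw (ι : Type*) (μ : Measure ℝ) : Measure (ι → ℝ × ℝ) :=
  Measure.infinitePi fun _ => μ.prod unif01

variable (μ : Measure ℝ) [IsProbabilityMeasure μ]

instance : IsProbabilityMeasure (fieldLaw ι μ) :=
  inferInstanceAs (IsProbabilityMeasure (Measure.infinitePi _))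

lemma lowOne_le (a x : ℝ) (w : ℝ × ℝ) : lowOne a x w ≤ x := by
  unfold lowOne
  split_ifs
  exacts [min_le_left _ _, le_rfl]

lemma lower_le (a t : ι → ℝ) (w : ι → ℝ × ℝ) (i : ι) : lower a t w i ≤ t i := lowOne_le _ _ _

lemma lower_of_zero {a : ι → ℝ} {i : ι} (h : a i = 0) (t : ι → ℝ) (w : ι → ℝ × ℝ) :
    lower a t w i = t i := by
  simp [lower, lowOne, h]

@[fun_prop]
lemma measurable_lowOne (a : ℝ) : Measurable fun p : ℝ × (ℝ × ℝ) => lowOne a p.1 p.2 :=
  Measurable.ite (measurableSet_Ico.preimage (by fun_prop)) (by fun_prop) (by fun_prop)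

@[fun_prop]
lemma measurable_lower (a : ι → ℝ) :
    Measurable fun p : (ι → ℝ) × (ι → ℝ × ℝ) => lower a p.1 p.2 :=
  measurable_pi_lambda _ fun i =>
    (measurable_lowOne (a i)).comp
      (g := fun p : ℝ × (ℝ × ℝ) => lowOne (a i) p.1 p.2)
      (f := fun p : (ι → ℝ) × (ι → ℝ × ℝ) => (p.1 i, p.2 i)) (by fun_prop)

lemma lowOne_nonneg {a x : ℝ} {w : ℝ × ℝ} (hx : 0 ≤ x) (hw : 0 ≤ w.1) : 0 ≤ lowOne a x w := by
  unfold lowOne
  split_ifs
  exacts [le_min hx hw, hx]

/-! ### Effect on the weights of walks -/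

section walks

variable {V : Type*} {G : SimpleGraph V}

lemma wlen_lower_le (a t : Sym2 V → ℝ) (w : Sym2 V → ℝ × ℝ) {x y : V} (p : G.Walk x y) :
    wlen (lower a t w) p ≤ wlen t p :=
  List.sum_le_sum fun e _ => lower_le a t w e

lemma wlen_lower_eq (a t : Sym2 V → ℝ) (w : Sym2 V → ℝ × ℝ) {x y : V} (p : G.Walk x y)
    (h : ∀ e ∈ p.edges, a e = 0) : wlen (lower a t w) p = wlen t p := by
  unfold wlen
  exact congrArg List.sum (List.map_congr_left fun e he => lower_of_zero (h e he) t w)

lemma wlen_lower_gain [DecidableEq V] (a t : Sym2 V → ℝ) (w : Sym2 V → ℝ × ℝ) {x y : V}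
    {p : G.Walk x y} (hp : p.IsPath) {E : Finset (Sym2 V)} (hE : E ⊆ p.edges.toFinset) :
    wlen (lower a t w) p + ∑ e ∈ E, (t e - lower a t w e) ≤ wlen t p := by
  rw [wlen_path _ hp, wlen_path _ hp]
  have h := Finset.sum_le_sum_of_subset_of_nonneg hE
    (f := fun e => t e - lower a t w e) fun e _ _ => sub_nonneg.2 (lower_le a t w e)
  rw [Finset.sum_sub_distrib (s := p.edges.toFinset)] at h
  linarith

end walks

/-! ### Law of the lowered weights -/

/-- Law of one lowered weight. -/
def lowLaw (a : ℝ) : Measure ℝ :=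
  (μ.prod (μ.prod unif01)).map fun p : ℝ × (ℝ × ℝ) => lowOne a p.1 p.2

instance (a : ℝ) : IsProbabilityMeasure (lowLaw μ a) :=
  Measure.isProbabilityMeasure_map (measurable_lowOne a).aemeasurable

lemma lintegral_prod_infinitePi {α : Type*} [MeasurableSpace α] (P : ι → Measure α)
    [∀ i, IsProbabilityMeasure (P i)] (s : Finset ι) (h : ι → α → ℝ≥0∞)
    (hh : ∀ i, Measurable (h i)) :
    ∫⁻ ω, ∏ i ∈ s, h i (ω i) ∂Measure.infinitePi P = ∏ i ∈ s, ∫⁻ x, h i x ∂P i := by
  refine (lintegral_prod_eq_prod_lintegral_of_indepFun (μ := Measure.infinitePi P) s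
    (fun i ω => h i (ω i)) (iIndepFun_infinitePi hh)
    (fun i => (hh i).comp (measurable_pi_apply i))).trans ?_
  refine Finset.prod_congr rfl fun i _ => ?_
  rw [← Measure.infinitePi_map_eval P i, lintegral_map (hh i) (measurable_pi_apply i)]

theorem map_lower (a : ι → ℝ) :
    ((iidLaw ι μ).prod (fieldLaw ι μ)).map (fun p => lower a p.1 p.2) =
      Measure.infinitePi fun i => lowLaw μ (a i) := by
  refine Measure.eq_infinitePi _ fun s A hA => ?_
  have hm : MeasurableSet ((s : Set ι).pi A) := .pi s.countable_toSet fun i _ => hA i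
  have hpre : ∀ i, MeasurableSet ((fun p : ℝ × (ℝ × ℝ) => lowOne (a i) p.1 p.2) ⁻¹' A i) :=
    fun i => measurable_lowOne (a i) (hA i)
  rw [Measure.map_apply (measurable_lower a) hm, Measure.prod_apply (measurable_lower a hm)]
  have hsec : ∀ t : ι → ℝ, Prod.mk t ⁻¹' ((fun p => lower a p.1 p.2) ⁻¹' (s : Set ι).pi A) =
      (s : Set ι).pi fun i => Prod.mk (t i) ⁻¹'
        ((fun p : ℝ × (ℝ × ℝ) => lowOne (a i) p.1 p.2) ⁻¹' A i) := fun t => by
    ext w
    simp [lower]
  simp only [hsec, fieldLaw]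
  simp only [Measure.infinitePi_pi _ fun i _ => (hpre i).preimage measurable_prodMk_left]
  rw [iidLaw, lintegral_prod_infinitePi _ s
    (fun i x => μ.prod unif01 (Prod.mk x ⁻¹'
      ((fun p : ℝ × (ℝ × ℝ) => lowOne (a i) p.1 p.2) ⁻¹' A i)))
    fun i => measurable_measure_prodMk_left (hpre i)]
  refine Finset.prod_congr rfl fun i _ => ?_
  rw [lowLaw, Measure.map_apply (measurable_lowOne _) (hA i), Measure.prod_apply (hpre i)]

lemma lowLaw_le {a : ℝ} (ha1 : a ≤ 1) {A : Set ℝ} (hA : MeasurableSet A) :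
    lowLaw μ a A ≤ μ A + ENNReal.ofReal a * μ A := by
  rw [lowLaw, Measure.map_apply (measurable_lowOne a) hA]
  refine (measure_mono (t := A ×ˢ Set.univ ∪ Set.univ ×ˢ (A ×ˢ Set.Ico 0 a)) ?_).trans
    ((measure_union_le _ _).trans ?_)
  · rintro ⟨x, y, u⟩ h
    simp only [Set.mem_preimage, lowOne] at h
    split_ifs at h with hu
    · rcases min_choice x y with e | e <;> rw [e] at h
      · exact Or.inl ⟨h, trivial⟩
      · exact Or.inr ⟨trivial, h, hu⟩
    · exact Or.inl ⟨h, trivial⟩
  · simp only [Measure.prod_prod, measure_univ, mul_one, one_mul, unif01_Ico ha1]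
    rw [mul_comm]

lemma le_lowLaw {a : ℝ} (ha1 : a ≤ 1) {A : Set ℝ} (hA : MeasurableSet A) :
    μ A ≤ lowLaw μ a A + ENNReal.ofReal a * μ A := by
  rw [lowLaw, Measure.map_apply (measurable_lowOne a) hA]
  calc μ A = μ.prod (μ.prod unif01) (A ×ˢ Set.univ) := by simp
    _ ≤ μ.prod (μ.prod unif01) (((fun p : ℝ × (ℝ × ℝ) => lowOne a p.1 p.2) ⁻¹' A) ∪
          A ×ˢ (Set.univ ×ˢ Set.Ico 0 a)) := measure_mono (by
        rintro ⟨x, y, u⟩ ⟨hx, -⟩
        by_cases hu : u ∈ Set.Ico 0 a
        · exact Or.inr ⟨hx, trivial, hu⟩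
        · exact Or.inl (by rw [Set.mem_preimage, lowOne, if_neg hu]; exact hx))
    _ ≤ _ := (measure_union_le _ _).trans (le_of_eq (by
        simp only [Measure.prod_prod, measure_univ, one_mul, unif01_Ico ha1]
        rw [mul_comm (μ A)]))

/-- The density of one lowered weight. -/
def lowDens (a : ℝ) (x : ℝ) : ℝ := ((lowLaw μ a).rnDeriv μ x).toReal

omit [IsProbabilityMeasure μ] in
@[fun_prop]
lemma measurable_lowDens (a : ℝ) : Measurable (lowDens μ a) :=
  (Measure.measurable_rnDeriv _ _).ennreal_toReal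

lemma lowLaw_ac {a : ℝ} (ha1 : a ≤ 1) : lowLaw μ a ≪ μ :=
  Measure.AbsolutelyContinuous.mk fun A hA h => le_antisymm
    ((lowLaw_le μ ha1 hA).trans (by simp [h])) zero_le

lemma ofReal_lowDens (a : ℝ) :
    (fun x => ENNReal.ofReal (lowDens μ a x)) =ᵐ[μ] (lowLaw μ a).rnDeriv μ := by
  filter_upwards [Measure.rnDeriv_ne_top (lowLaw μ a) μ] with x hx
  rw [lowDens, ENNReal.ofReal_toReal hx]

lemma lowDens_bounds {a : ℝ} (ha0 : 0 ≤ a) (ha1 : a ≤ 1) :
    ∀ᵐ x ∂μ, |lowDens μ a x - 1| ≤ a := by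
  have heq := Measure.withDensity_rnDeriv_eq _ _ (lowLaw_ac μ ha1)
  have hint : ∀ A, MeasurableSet A →
      ∫⁻ x in A, (lowLaw μ a).rnDeriv μ x ∂μ = lowLaw μ a A := fun A hA => by
    rw [← withDensity_apply _ hA, heq]
  have hup : (lowLaw μ a).rnDeriv μ ≤ᵐ[μ] fun _ => 1 + ENNReal.ofReal a := by
    refine ae_le_of_forall_setLIntegral_le_of_sigmaFinite (Measure.measurable_rnDeriv _ _)
      fun A hA _ => ?_
    rw [hint A hA, setLIntegral_const, add_mul, one_mul]
    exact lowLaw_le μ ha1 hA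
  have hdown : (fun _ => (1 : ℝ≥0∞)) ≤ᵐ[μ]
      fun x => (lowLaw μ a).rnDeriv μ x + ENNReal.ofReal a := by
    refine ae_le_of_forall_setLIntegral_le_of_sigmaFinite measurable_const fun A hA _ => ?_
    rw [setLIntegral_const, one_mul, lintegral_add_right _ measurable_const, hint A hA,
      setLIntegral_const]
    exact le_lowLaw μ ha1 hA
  filter_upwards [hup, hdown, Measure.rnDeriv_ne_top (lowLaw μ a) μ] with x h1 h2 h3
  have h1' := ENNReal.toReal_mono (by finiteness) h1
  have h2' := ENNReal.toReal_mono (by finiteness) h2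
  rw [ENNReal.toReal_add (by simp) (by simp), ENNReal.toReal_one,
    ENNReal.toReal_ofReal ha0] at h1'
  rw [ENNReal.toReal_add h3 (by simp), ENNReal.toReal_one, ENNReal.toReal_ofReal ha0] at h2'
  rw [lowDens, abs_le]
  constructor <;> linarith

lemma integrable_of_abs_le {α : Type*} [MeasurableSpace α] {P : Measure α} [IsFiniteMeasure P]
    {f : α → ℝ} (hf : Measurable f) {B : ℝ} (h : ∀ᵐ x ∂P, |f x| ≤ B) : Integrable f P :=
  Integrable.of_bound hf.aestronglyMeasurable B
    (h.mono fun x hx => by rwa [Real.norm_eq_abs])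

lemma lowDens_integral {a : ℝ} (ha0 : 0 ≤ a) (ha1 : a ≤ 1) :
    ∫ x, lowDens μ a x ∂μ = 1 ∧ ∫ x, lowDens μ a x ^ 2 ∂μ ≤ 1 + a ^ 2 := by
  have h1 : ∫ x, lowDens μ a x ∂μ = 1 := by
    rw [show lowDens μ a = fun x => ((lowLaw μ a).rnDeriv μ x).toReal from rfl,
      Measure.integral_toReal_rnDeriv (lowLaw_ac μ ha1), probReal_univ]
  have hb := lowDens_bounds μ ha0 ha1
  have hint : Integrable (lowDens μ a) μ := by
    refine integrable_of_abs_le (by fun_prop) (B := 1 + a) (hb.mono fun x hx => ?_)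
    rw [abs_le] at hx ⊢
    constructor <;> linarith
  have hint2 : Integrable (fun x => lowDens μ a x ^ 2) μ := by
    refine integrable_of_abs_le (by fun_prop) (B := (1 + a) ^ 2) (hb.mono fun x hx => ?_)
    rw [abs_pow]
    rw [abs_le] at hx
    exact pow_le_pow_left₀ (abs_nonneg _) (abs_le.2 ⟨by linarith, by linarith⟩) 2
  refine ⟨h1, ?_⟩
  calc ∫ x, lowDens μ a x ^ 2 ∂μ ≤ ∫ x, (2 * lowDens μ a x - 1 + a ^ 2) ∂μ := by
        refine integral_mono_ae hint2 (((hint.const_mul 2).sub (integrable_const 1)).add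
          (integrable_const (a ^ 2))) (hb.mono fun x hx => ?_)
        have := pow_le_pow_left₀ (abs_nonneg _) hx 2
        rw [sq_abs] at this
        change _ ≤ 2 * lowDens μ a x - 1 + a ^ 2
        linarith [show (lowDens μ a x - 1) ^ 2 =
          lowDens μ a x ^ 2 - (2 * lowDens μ a x - 1) by ring]
    _ = 1 + a ^ 2 := by
        rw [integral_add (f := fun x => 2 * lowDens μ a x - 1) (g := fun _ => a ^ 2)
            ((hint.const_mul 2).sub (integrable_const 1)) (integrable_const _),
          integral_sub (hint.const_mul 2) (integrable_const 1), integral_const_mul, h1]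
        simp only [integral_const, probReal_univ, smul_eq_mul]
        ring

variable {F : Finset ι} {a : ι → ℝ}

lemma map_lower_eq_withDensity (ha1 : ∀ i, a i ≤ 1) (haF : ∀ i, i ∉ F → a i = 0) :
    ((iidLaw ι μ).prod (fieldLaw ι μ)).map (fun p => lower a p.1 p.2) =
      (iidLaw ι μ).withDensity fun ω => ∏ i ∈ F, (lowLaw μ (a i)).rnDeriv μ (ω i) := by
  classical
  rw [map_lower]
  refine (Measure.eq_infinitePi _ fun s A hA => ?_).symm
  have hm : MeasurableSet ((s : Set ι).pi A) := .pi s.countable_toSet fun i _ => hA i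
  rw [withDensity_apply _ hm, ← lintegral_indicator hm]
  set h : ι → ℝ → ℝ≥0∞ := fun i x =>
    (if i ∈ s then (A i).indicator (fun _ => (1 : ℝ≥0∞)) x else 1) *
      (if i ∈ F then (lowLaw μ (a i)).rnDeriv μ x else 1) with hh
  have hpt : ∀ ω : ι → ℝ, ((s : Set ι).pi A).indicator
      (fun ω => ∏ i ∈ F, (lowLaw μ (a i)).rnDeriv μ (ω i)) ω = ∏ i ∈ s ∪ F, h i (ω i) := by
    intro ω
    simp only [hh, Finset.prod_mul_distrib, Finset.prod_ite_mem,
      Finset.union_inter_cancel_left, Finset.union_inter_cancel_right]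
    by_cases hω : ω ∈ (s : Set ι).pi A
    · rw [Set.indicator_of_mem hω, Finset.prod_eq_one fun i hi =>
        Set.indicator_of_mem (hω i hi) _, one_mul]
    · simp only [Set.mem_pi, not_forall, Finset.mem_coe] at hω
      obtain ⟨i, hi, hiA⟩ := hω
      rw [Set.indicator_of_notMem (fun hc : ω ∈ (s : Set ι).pi A => hiA (hc i hi)),
        Finset.prod_eq_zero hi (Set.indicator_of_notMem hiA _), zero_mul]
  simp only [hpt]
  rw [iidLaw, lintegral_prod_infinitePi _ _ h fun i => ?_]
  swap
  · simp only [hh]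
    refine Measurable.mul ?_ ?_ <;> split_ifs
    exacts [measurable_const.indicator (hA i), measurable_const,
      Measure.measurable_rnDeriv _ _, measurable_const]
  have hout : ∀ i, i ∉ F → lowLaw μ (a i) = μ := fun i hi => by
    rw [lowLaw, haF i hi, show (fun p : ℝ × (ℝ × ℝ) => lowOne 0 p.1 p.2) = Prod.fst from
      funext fun p => by simp [lowOne], Measure.map_fst_prod, measure_univ, one_smul]
  have hin : ∀ i B, MeasurableSet B →
      ∫⁻ x in B, (lowLaw μ (a i)).rnDeriv μ x ∂μ = lowLaw μ (a i) B := fun i B hB => by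
    rw [← withDensity_apply _ hB, Measure.withDensity_rnDeriv_eq _ _ (lowLaw_ac μ (ha1 i))]
  rw [← Finset.prod_subset (Finset.subset_union_left (s₁ := s) (s₂ := F)) fun i _ hi => ?_]
  · refine Finset.prod_congr rfl fun i hi => ?_
    simp only [hh, if_pos hi]
    by_cases hF : i ∈ F
    · simp only [if_pos hF]
      rw [← hin i _ (hA i), ← lintegral_indicator (hA i)]
      refine lintegral_congr fun x => ?_
      simp [Set.indicator_apply]
    · simp only [if_neg hF, mul_one]
      rw [lintegral_indicator_const (hA i), one_mul, hout i hF]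
  · simp only [hh, if_neg hi, one_mul]
    by_cases hF : i ∈ F
    · simp only [if_pos hF]
      have := hin i Set.univ MeasurableSet.univ
      rwa [setLIntegral_univ, measure_univ] at this
    · simp [if_neg hF]

/-- The bound on the change of law. -/
def lowDelta (F : Finset ι) (a : ι → ℝ) : ℝ := Real.sqrt (Real.exp (∑ i ∈ F, a i ^ 2) - 1)

/-- Lowering changes the mean of a bounded function by at most `lowDelta` times its L² norm about
any constant. -/
theorem abs_integral_lower_sub_le (ha0 : ∀ i, 0 ≤ a i) (ha1 : ∀ i, a i ≤ 1)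
    (haF : ∀ i, i ∉ F → a i = 0) {f : (ι → ℝ) → ℝ} (hf : Measurable f) {B : ℝ}
    (hB : ∀ ω, |f ω| ≤ B) (c : ℝ) :
    |(∫ p, f (lower a p.1 p.2) ∂(iidLaw ι μ).prod (fieldLaw ι μ)) - ∫ ω, f ω ∂iidLaw ι μ| ≤
      lowDelta F a * Real.sqrt (∫ ω, (f ω - c) ^ 2 ∂iidLaw ι μ) := by
  classical
  set P := iidLaw ι μ
  set D : (ι → ℝ) → ℝ := fun ω => ∏ i ∈ F, lowDens μ (a i) (ω i) with hD
  have hDm : Measurable D := Finset.measurable_prod _ fun i _ => by fun_prop
  have hev : ∀ i, ∀ {p : ℝ → Prop}, (∀ᵐ x ∂μ, p x) → ∀ᵐ ω ∂P, p (ω i) := fun i p h => by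
    rw [← Measure.infinitePi_map_eval (fun _ : ι => μ) i] at h
    exact ae_of_ae_map (measurable_pi_apply i).aemeasurable h
  have hbd : ∀ᵐ ω ∂P, 0 ≤ D ω ∧ D ω ≤ ∏ _i ∈ F, (2 : ℝ) := by
    have h : ∀ᵐ ω ∂P, ∀ i ∈ F, |lowDens μ (a i) (ω i) - 1| ≤ a i :=
      (F.eventually_all).2 fun i _ => hev i (lowDens_bounds μ (ha0 i) (ha1 i))
    filter_upwards [h] with ω hω
    refine ⟨Finset.prod_nonneg fun i _ => ENNReal.toReal_nonneg,
      Finset.prod_le_prod (fun i _ => ENNReal.toReal_nonneg) fun i hi => ?_⟩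
    linarith [(abs_le.1 (hω i hi)).2, ha1 i]
  set C : ℝ := ∏ _i ∈ F, (2 : ℝ)
  have habs : ∀ᵐ ω ∂P, |D ω| ≤ C := hbd.mono fun ω h => by rw [abs_of_nonneg h.1]; exact h.2
  have hint : ∀ (g : (ι → ℝ) → ℝ) (K : ℝ), Measurable g → (∀ᵐ ω ∂P, |g ω| ≤ K) → Integrable g P :=
    fun g K hg h => integrable_of_abs_le hg h
  -- the density
  have hdens : ((iidLaw ι μ).prod (fieldLaw ι μ)).map (fun p => lower a p.1 p.2) =
      P.withDensity fun ω => ENNReal.ofReal (D ω) := by
    rw [map_lower_eq_withDensity μ ha1 haF]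
    refine withDensity_congr_ae ?_
    have h : ∀ᵐ ω ∂P, ∀ i ∈ F,
        ENNReal.ofReal (lowDens μ (a i) (ω i)) = (lowLaw μ (a i)).rnDeriv μ (ω i) :=
      (F.eventually_all).2 fun i _ => hev i (ofReal_lowDens μ (a i))
    filter_upwards [h] with ω hω
    simp only [hD]
    rw [ENNReal.ofReal_prod_of_nonneg
      (f := fun i => lowDens μ (a i) (ω i)) fun i _ => ENNReal.toReal_nonneg]
    exact (Finset.prod_congr rfl hω).symm
  have hmap : ∫ p, f (lower a p.1 p.2) ∂(iidLaw ι μ).prod (fieldLaw ι μ) =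
      ∫ ω, D ω * f ω ∂P := by
    rw [← integral_map (measurable_lower a).aemeasurable hf.aestronglyMeasurable, hdens,
      integral_withDensity_eq_integral_toReal_smul hDm.ennreal_ofReal
        (Eventually.of_forall fun _ => ENNReal.ofReal_lt_top)]
    refine integral_congr_ae (hbd.mono fun ω h => ?_)
    simp [ENNReal.toReal_ofReal h.1]
  -- moments of the density
  have hmom : ∀ k : ℕ, ∫ ω, D ω ^ k ∂P = ∏ i ∈ F, ∫ x, lowDens μ (a i) x ^ k ∂μ := by
    intro k
    have hX : iIndepFun (fun (i : ι) (ω : ι → ℝ) => lowDens μ (a i) (ω i) ^ k) P :=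
      iIndepFun_infinitePi (P := fun _ : ι => μ) (X := fun i x => lowDens μ (a i) x ^ k)
        fun i => by fun_prop
    have hm : ∀ i, Measurable fun ω : ι → ℝ => lowDens μ (a i) (ω i) ^ k := fun i => by fun_prop
    have key : ∀ s : Finset ι, ∫ ω, ∏ i ∈ s, lowDens μ (a i) (ω i) ^ k ∂P =
        ∏ i ∈ s, ∫ x, lowDens μ (a i) x ^ k ∂μ := by
      intro s
      induction s using Finset.cons_induction with
      | empty => simp
      | cons j s hj ih =>
        have hind := (iIndepFun.indepFun_finsetProd_of_notMem hX hm hj).symm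
        simp only [Finset.prod_cons, ← ih]
        have e : ∫ x, lowDens μ (a j) x ^ k ∂μ = ∫ ω, lowDens μ (a j) (ω j) ^ k ∂P := by
          rw [← integral_map (μ := P) (φ := fun ω : ι → ℝ => ω j)
            (f := fun x => lowDens μ (a j) x ^ k) (measurable_pi_apply j).aemeasurable
            (by fun_prop : Measurable fun x => lowDens μ (a j) x ^ k).aestronglyMeasurable]
          simp only [P, iidLaw, Measure.infinitePi_map_eval]
        rw [e]
        have := hind.integral_fun_mul_eq_mul_integral (hm j).aestronglyMeasurable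
          (Finset.aemeasurable_prod s fun i _ => (hm i).aemeasurable).aestronglyMeasurable
        simpa only [Finset.prod_apply] using this
    simp only [hD, ← Finset.prod_pow]
    exact key F
  have hD1 : ∫ ω, D ω ∂P = 1 := by
    have := hmom 1
    simp only [pow_one] at this
    rw [this]
    exact Finset.prod_eq_one fun i _ => (lowDens_integral μ (ha0 i) (ha1 i)).1
  have hD2 : ∫ ω, D ω ^ 2 ∂P ≤ Real.exp (∑ i ∈ F, a i ^ 2) := by
    rw [hmom 2, Real.exp_sum]
    refine Finset.prod_le_prod (fun i _ => integral_nonneg fun x => sq_nonneg _) fun i _ => ?_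
    exact ((lowDens_integral μ (ha0 i) (ha1 i)).2).trans
      (by linarith [Real.add_one_le_exp (a i ^ 2)])
  have iD : Integrable D P := hint D C hDm habs
  have iD2 : Integrable (fun ω => D ω ^ 2) P := hint _ (C ^ 2) (hDm.pow_const 2)
    (habs.mono fun ω h => by rw [abs_pow]; exact pow_le_pow_left₀ (abs_nonneg _) h 2)
  have iDf : Integrable (fun ω => D ω * f ω) P := hint _ (C * B) (hDm.mul hf)
    (habs.mono fun ω h => by
      rw [abs_mul]
      exact mul_le_mul h (hB ω) (abs_nonneg _) ((abs_nonneg _).trans h))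
  have if' : Integrable f P := hint f B hf (Eventually.of_forall hB)
  have ig2 : Integrable (fun ω => (f ω - c) ^ 2) P := hint _ ((B + |c|) ^ 2) (by fun_prop)
    (Eventually.of_forall fun ω => by
      rw [abs_pow]
      exact pow_le_pow_left₀ (abs_nonneg _) ((abs_sub _ _).trans (by linarith [hB ω])) 2)
  have iv : Integrable (fun ω => (D ω - 1) ^ 2) P := by
    have h := (iD2.sub (iD.const_mul 2)).add (integrable_const (μ := P) (1 : ℝ))
    exact h.congr (Eventually.of_forall fun ω => by simp only [Pi.add_apply, Pi.sub_apply]; ring)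
  have hvar : ∫ ω, (D ω - 1) ^ 2 ∂P ≤ Real.exp (∑ i ∈ F, a i ^ 2) - 1 := by
    have e : ∀ ω, (D ω - 1) ^ 2 = D ω ^ 2 - (2 * D ω - 1) := fun ω => by ring
    simp only [e]
    rw [integral_sub (f := fun ω => D ω ^ 2) (g := fun ω => 2 * D ω - 1) iD2
        (((iD.const_mul 2).sub (integrable_const 1))),
      integral_sub (iD.const_mul 2) (integrable_const 1), integral_const_mul, hD1]
    simp only [integral_const, probReal_univ, smul_eq_mul]
    linarith
  set V := ∫ ω, (f ω - c) ^ 2 ∂P
  have hV : 0 ≤ V := integral_nonneg fun ω => sq_nonneg _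
  set W := Real.exp (∑ i ∈ F, a i ^ 2) - 1
  have hW : 0 ≤ W := (integral_nonneg fun ω => sq_nonneg _).trans hvar
  -- Cauchy-Schwarz
  have hdiff : (∫ p, f (lower a p.1 p.2) ∂(iidLaw ι μ).prod (fieldLaw ι μ)) - ∫ ω, f ω ∂P =
      ∫ ω, (D ω - 1) * (f ω - c) ∂P := by
    rw [hmap]
    have e : ∀ ω, (D ω - 1) * (f ω - c) = (D ω * f ω - f ω) - c * (D ω - 1) := fun ω => by ring
    simp only [e]
    rw [integral_sub (f := fun ω => D ω * f ω - f ω) (g := fun ω => c * (D ω - 1))
        (iDf.sub if') ((iD.sub (integrable_const 1)).const_mul c),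
      integral_sub iDf if', integral_const_mul, integral_sub iD (integrable_const 1), hD1]
    simp
  rw [hdiff]
  refine le_of_forall_pos_le_add fun η hη => ?_
  have hcs : ∀ lam : ℝ, 0 < lam →
      |∫ ω, (D ω - 1) * (f ω - c) ∂P| ≤ lam / 2 * W + 1 / (2 * lam) * V := by
    intro lam hlam
    calc |∫ ω, (D ω - 1) * (f ω - c) ∂P| ≤ ∫ ω, |(D ω - 1) * (f ω - c)| ∂P :=
          abs_integral_le_integral_abs
      _ ≤ ∫ ω, (lam / 2 * (D ω - 1) ^ 2 + 1 / (2 * lam) * (f ω - c) ^ 2) ∂P := by
          refine integral_mono_of_nonneg (Eventually.of_forall fun ω => abs_nonneg _)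
            ((iv.const_mul _).add (ig2.const_mul _)) (Eventually.of_forall fun ω => ?_)
          simp only [abs_mul]
          have key := sq_nonneg (lam * |D ω - 1| - |f ω - c|)
          rw [← sq_abs (D ω - 1), ← sq_abs (f ω - c)]
          field_simp
          nlinarith [key]
      _ = lam / 2 * ∫ ω, (D ω - 1) ^ 2 ∂P + 1 / (2 * lam) * V := by
          rw [integral_add (iv.const_mul _) (ig2.const_mul _), integral_const_mul,
            integral_const_mul]
      _ ≤ lam / 2 * W + 1 / (2 * lam) * V := by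
          have : (0 : ℝ) ≤ lam / 2 := by positivity
          nlinarith [mul_le_mul_of_nonneg_left hvar this]
  -- choice of the multiplier
  set u := Real.sqrt W
  set v := Real.sqrt V
  have hu : 0 ≤ u := Real.sqrt_nonneg _
  have hv : 0 ≤ v := Real.sqrt_nonneg _
  obtain ⟨d, hd, hd'⟩ : ∃ d : ℝ, 0 < d ∧ (u + d) * (v + d) ≤ u * v + η := by
    refine ⟨min 1 (η / (u + v + 1)), by positivity, ?_⟩
    have h1 : min 1 (η / (u + v + 1)) ≤ 1 := min_le_left _ _
    have h2 : min 1 (η / (u + v + 1)) * (u + v + 1) ≤ η :=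
      (le_div_iff₀ (by positivity)).1 (min_le_right _ _)
    have h0 : 0 ≤ min 1 (η / (u + v + 1)) := by positivity
    nlinarith [mul_le_mul_of_nonneg_left h1 h0]
  calc |∫ ω, (D ω - 1) * (f ω - c) ∂P|
      ≤ (v + d) / (u + d) / 2 * W + 1 / (2 * ((v + d) / (u + d))) * V := hcs _ (by positivity)
    _ ≤ (v + d) / (u + d) / 2 * (u + d) ^ 2 + 1 / (2 * ((v + d) / (u + d))) * (v + d) ^ 2 := by
        have e1 : W ≤ (u + d) ^ 2 := by
          rw [← Real.sq_sqrt hW]; exact pow_le_pow_left₀ hu (by linarith) 2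
        have e2 : V ≤ (v + d) ^ 2 := by
          rw [← Real.sq_sqrt hV]; exact pow_le_pow_left₀ hv (by linarith) 2
        gcongr
    _ = (u + d) * (v + d) := by field_simp; ring
    _ ≤ lowDelta F a * v + η := hd'

/-- The change of law in total variation. -/
theorem measureReal_le_lower_add (ha0 : ∀ i, 0 ≤ a i) (ha1 : ∀ i, a i ≤ 1)
    (haF : ∀ i, i ∉ F → a i = 0) {A : Set (ι → ℝ)} (hA : MeasurableSet A) :
    (iidLaw ι μ).real A ≤
      ((iidLaw ι μ).prod (fieldLaw ι μ)).real ((fun p => lower a p.1 p.2) ⁻¹' A) +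
        lowDelta F a := by
  have h := abs_integral_lower_sub_le μ ha0 ha1 haF (f := A.indicator fun _ => (1 : ℝ))
    (measurable_const.indicator hA) (B := 1)
    (fun ω => by by_cases hω : ω ∈ A <;> simp [hω]) 0
  have e1 : ∫ ω, A.indicator (fun _ => (1 : ℝ)) ω ∂iidLaw ι μ = (iidLaw ι μ).real A :=
    integral_indicator_one hA
  have e2 : ∫ p, A.indicator (fun _ => (1 : ℝ)) (lower a p.1 p.2)
      ∂(iidLaw ι μ).prod (fieldLaw ι μ) =
      ((iidLaw ι μ).prod (fieldLaw ι μ)).real ((fun p => lower a p.1 p.2) ⁻¹' A) := by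
    rw [← integral_indicator_one (measurable_lower a hA)]
    rfl
  rw [e1, e2] at h
  have hs : Real.sqrt (∫ ω, (A.indicator (fun _ => (1 : ℝ)) ω - 0) ^ 2 ∂iidLaw ι μ) ≤ 1 := by
    rw [Real.sqrt_le_one]
    have : ∀ ω, (A.indicator (fun _ => (1 : ℝ)) ω - 0) ^ 2 = A.indicator (fun _ => (1 : ℝ)) ω :=
      fun ω => by by_cases hω : ω ∈ A <;> simp [hω]
    simp only [this, e1]
    exact measureReal_le_one
  have := mul_le_mul_of_nonneg_left hs (show (0 : ℝ) ≤ lowDelta F a from Real.sqrt_nonneg _)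
  linarith [(abs_le.1 h).1]

/-! ### The gain on a set of heavy weights -/

open scoped Classical in
/-- Number of indices in `E` whose coin shows and whose fresh copy is at most `b`. -/
def hits (a : ι → ℝ) (b : ℝ) (E : Finset ι) (w : ι → ℝ × ℝ) : ℝ :=
  ∑ i ∈ E, (Set.Iic b ×ˢ Set.Ico 0 (a i)).indicator (fun _ => (1 : ℝ)) (w i)

omit [IsProbabilityMeasure μ] in
lemma hits_gain {t : ι → ℝ} {x b : ℝ} {E : Finset ι} (hE : ∀ i ∈ E, x ≤ t i) (w : ι → ℝ × ℝ) :
    (x - b) * hits a b E w ≤ ∑ i ∈ E, (t i - lower a t w i) := by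
  rw [hits, Finset.mul_sum]
  refine Finset.sum_le_sum fun i hi => ?_
  by_cases h : w i ∈ Set.Iic b ×ˢ Set.Ico 0 (a i)
  · rw [Set.indicator_of_mem h, mul_one, lower, lowOne, if_pos h.2]
    have h1 : min (t i) (w i).1 ≤ b := (min_le_right _ _).trans h.1
    linarith [hE i hi]
  · rw [Set.indicator_of_notMem h, mul_zero]
    exact sub_nonneg.2 (lower_le a t w i)

theorem hits_tail (ha0 : ∀ i, 0 ≤ a i) (ha1 : ∀ i, a i ≤ 1) (b M : ℝ) (E : Finset ι) :
    fieldLaw ι μ {w | hits a b E w ≤ M} ≤
      ENNReal.ofReal (Real.exp (M - μ.real (Set.Iic b) * (∑ i ∈ E, a i) / 2)) := by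
  classical
  set κ := μ.prod unif01
  set C : ι → Set (ℝ × ℝ) := fun i => Set.Iic b ×ˢ Set.Ico 0 (a i) with hC
  have hCm : ∀ i, MeasurableSet (C i) := fun i => measurableSet_Iic.prod measurableSet_Ico
  set h : ι → ℝ × ℝ → ℝ≥0∞ := fun i p =>
    ENNReal.ofReal (Real.exp (-(C i).indicator (fun _ => (1 : ℝ)) p)) with hh
  have hhm : ∀ i, Measurable (h i) := fun i =>
    (Real.measurable_exp.comp (measurable_const.indicator (hCm i)).neg).ennreal_ofReal
  calc fieldLaw ι μ {w | hits a b E w ≤ M}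
      ≤ ∫⁻ w, ENNReal.ofReal (Real.exp M) * ∏ i ∈ E, h i (w i) ∂fieldLaw ι μ := by
        have hm : MeasurableSet {w : ι → ℝ × ℝ | hits a b E w ≤ M} :=
          measurableSet_le (Finset.measurable_sum _ fun i _ =>
            (measurable_const.indicator (hCm i)).comp (measurable_pi_apply i)) measurable_const
        rw [← lintegral_indicator_one hm]
        refine lintegral_mono fun w => ?_
        by_cases hw : w ∈ {w | hits a b E w ≤ M}
        · rw [Set.indicator_of_mem hw]
          simp only [hh, Pi.one_apply]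
          rw [← ENNReal.ofReal_prod_of_nonneg fun i _ => (Real.exp_pos _).le,
            ← ENNReal.ofReal_mul (Real.exp_pos _).le, ← Real.exp_sum, ← Real.exp_add,
            Finset.sum_neg_distrib]
          refine ENNReal.one_le_ofReal.2 (Real.one_le_exp ?_)
          have : hits a b E w ≤ M := hw
          unfold hits at this
          linarith
        · rw [Set.indicator_of_notMem hw]
          exact zero_le
    _ = ENNReal.ofReal (Real.exp M) * ∏ i ∈ E, ∫⁻ p, h i p ∂κ := by
        rw [lintegral_const_mul' _ _ ENNReal.ofReal_ne_top, fieldLaw,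
          lintegral_prod_infinitePi _ E h hhm]
    _ ≤ ENNReal.ofReal (Real.exp M) *
          ∏ i ∈ E, ENNReal.ofReal (Real.exp (-(μ.real (Set.Iic b) * a i / 2))) := by
        gcongr with i _
        have hint : Integrable (fun p => Real.exp (-(C i).indicator (fun _ => (1 : ℝ)) p)) κ := by
          refine integrable_of_abs_le
            (Real.measurable_exp.comp (measurable_const.indicator (hCm i)).neg) (B := 1)
            (Eventually.of_forall fun p => ?_)
          rw [Real.abs_exp, Real.exp_le_one_iff, neg_nonpos]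
          exact Set.indicator_nonneg (fun _ _ => zero_le_one) p
        rw [← ofReal_integral_eq_lintegral_ofReal hint
          (Eventually.of_forall fun p => (Real.exp_pos _).le)]
        refine ENNReal.ofReal_le_ofReal ?_
        have e : ∀ p, Real.exp (-(C i).indicator (fun _ => (1 : ℝ)) p) =
            1 - (1 - Real.exp (-1)) * (C i).indicator (fun _ => (1 : ℝ)) p := fun p => by
          by_cases hp : p ∈ C i <;> simp [hp]
        have hreal : κ.real (C i) = μ.real (Set.Iic b) * a i := by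
          rw [hC, measureReal_prod_prod, measureReal_def unif01, unif01_Ico (ha1 i),
            ENNReal.toReal_ofReal (ha0 i)]
        simp only [e]
        rw [integral_sub (integrable_const 1)
          (((integrable_const (1 : ℝ)).indicator (hCm i)).const_mul _), integral_const_mul,
          integral_indicator_const _ (hCm i), hreal]
        simp only [integral_const, probReal_univ, smul_eq_mul, mul_one]
        set y := μ.real (Set.Iic b) * a i
        have hy : 0 ≤ y := mul_nonneg measureReal_nonneg (ha0 i)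
        have he : Real.exp (-1 : ℝ) ≤ 1 / 2 := by
          rw [Real.exp_neg]
          have := Real.add_one_le_exp (1 : ℝ)
          rw [inv_eq_one_div]
          exact one_div_le_one_div_of_le two_pos (by linarith)
        calc 1 - (1 - Real.exp (-1)) * y ≤ 1 - y / 2 := by nlinarith
          _ ≤ Real.exp (-(y / 2)) := by linarith [Real.add_one_le_exp (-(y / 2))]
    _ = _ := by
        rw [← ENNReal.ofReal_prod_of_nonneg fun i _ => (Real.exp_pos _).le,
          ← ENNReal.ofReal_mul (Real.exp_pos _).le, ← Real.exp_sum, ← Real.exp_add,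
          Finset.sum_neg_distrib, Finset.mul_sum, Finset.sum_div, sub_eq_add_neg]

/-- A function which gains from the lowering on a set of heavy weights rarely lies in a window.
`Gw` is any almost sure set of fresh copies and coins (for instance, nonnegative copies). -/
theorem measure_window_le (ha0 : ∀ i, 0 ≤ a i) (ha1 : ∀ i, a i ≤ 1)
    (haF : ∀ i, i ∉ F → a i = 0) {L : (ι → ℝ) → ℝ} (hL : Measurable L)
    {c S x b A : ℝ} (hxb : b < x) (Gd : Set (ι → ℝ)) {Gw : Set (ι → ℝ × ℝ)}
    (hGw : ∀ᵐ w ∂fieldLaw ι μ, w ∈ Gw) (hmono : ∀ t ∈ Gd, ∀ w ∈ Gw, L t ≤ L (lower a t w))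
    (hgain : ∀ t ∈ Gd, c < L t → L t < c + S → ∃ E : Finset ι, (∀ i ∈ E, x ≤ t i) ∧
      A ≤ ∑ i ∈ E, a i ∧
      ∀ w ∈ Gw, L t + ∑ i ∈ E, (t i - lower a t w i) ≤ L (lower a t w)) :
    (iidLaw ι μ).real {t | c < L t ∧ L t < c + S} ≤
      (iidLaw ι μ).real Gdᶜ + Real.exp (S / (x - b) - μ.real (Set.Iic b) * A / 2) +
        lowDelta F a := by
  classical
  set P := iidLaw ι μ
  set J := P.prod (fieldLaw ι μ) with hJ
  set ε := Real.exp (S / (x - b) - μ.real (Set.Iic b) * A / 2) with hε
  rcases le_or_gt S 0 with hS | hS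
  · have : {t | c < L t ∧ L t < c + S} = ∅ :=
      Set.eq_empty_of_forall_notMem fun t ⟨h1, h2⟩ => by linarith
    rw [this, measureReal_empty]
    have h1 : 0 ≤ P.real Gdᶜ := measureReal_nonneg
    have h2 : 0 < ε := Real.exp_pos _
    have h3 : 0 ≤ lowDelta F a := Real.sqrt_nonneg _
    linarith
  have hlow := measurable_lower (ι := ι) a
  set U : Set (ι → ℝ) := {t | L t < c + S}
  set Lo : Set (ι → ℝ) := {t | L t ≤ c}
  have hU : MeasurableSet U := measurableSet_lt hL measurable_const
  have hLo : MeasurableSet Lo := measurableSet_le hL measurable_const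
  set K : Set ((ι → ℝ) × (ι → ℝ × ℝ)) :=
    (fun p => lower a p.1 p.2) ⁻¹' U ∩ Prod.fst ⁻¹' Loᶜ with hK
  have hKm : MeasurableSet K := (hlow hU).inter (measurable_fst hLo.compl)
  have hsub : (fun p : (ι → ℝ) × (ι → ℝ × ℝ) => lower a p.1 p.2) ⁻¹' U ⊆
      (Lo ×ˢ Set.univ) ∪ K := by
    rintro ⟨t, w⟩ h
    by_cases hlo : t ∈ Lo
    · exact Or.inl ⟨hlo, trivial⟩
    · exact Or.inr ⟨h, hlo⟩
  have hKle : J K ≤ P Gdᶜ + ENNReal.ofReal ε := by
    rw [hJ, Measure.prod_apply hKm]
    calc ∫⁻ t, fieldLaw ι μ (Prod.mk t ⁻¹' K) ∂P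
        ≤ ∫⁻ t, ((toMeasurable P Gdᶜ).indicator (fun _ => (1 : ℝ≥0∞)) t +
            ENNReal.ofReal ε) ∂P := by
          refine lintegral_mono fun t => ?_
          by_cases ht : t ∈ toMeasurable P Gdᶜ
          · rw [Set.indicator_of_mem ht]
            exact prob_le_one.trans le_self_add
          · have htG : t ∈ Gd := by
              by_contra h
              exact ht (subset_toMeasurable P _ h)
            rw [Set.indicator_of_notMem ht, zero_add]
            by_cases hwin : t ∈ U \ Lo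
            · obtain ⟨E, hEx, hEA, hEg⟩ := hgain t htG (not_le.1 hwin.2) hwin.1
              refine (measure_mono_ae (t := {w | hits a b E w ≤ S / (x - b)}) ?_).trans
                ((hits_tail μ ha0 ha1 b _ E).trans (ENNReal.ofReal_le_ofReal ?_))
              · filter_upwards [hGw] with w hwG
                rintro ⟨hw, -⟩
                have h1 := hits_gain (a := a) (b := b) hEx w
                have h2 := hEg w hwG
                have h3 : L (lower a t w) < c + S := hw
                have h4 : c < L t := not_le.1 hwin.2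
                show hits a b E w ≤ S / (x - b)
                rw [le_div_iff₀ (by linarith)]
                linarith
              · refine Real.exp_le_exp.2 ?_
                have := mul_le_mul_of_nonneg_left hEA (measureReal_nonneg (μ := μ) (s := Set.Iic b))
                linarith
            · have hnull : fieldLaw ι μ (Prod.mk t ⁻¹' K) = 0 := by
                rw [measure_eq_zero_iff_ae_notMem]
                filter_upwards [hGw] with w hwG hw
                exact hwin ⟨lt_of_le_of_lt (hmono t htG w hwG) hw.1, hw.2⟩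
              rw [hnull]
              exact zero_le
      _ = P Gdᶜ + ENNReal.ofReal ε := by
          rw [lintegral_add_right _ measurable_const,
            lintegral_indicator_const (measurableSet_toMeasurable _ _), one_mul,
            measure_toMeasurable, lintegral_const, measure_univ, mul_one]
  have hKreal : J.real K ≤ P.real Gdᶜ + ε := by
    have := ENNReal.toReal_mono (by finiteness) hKle
    rwa [ENNReal.toReal_add (by finiteness) (by finiteness),
      ENNReal.toReal_ofReal (Real.exp_pos _).le] at this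
  have h1 := measureReal_le_lower_add μ ha0 ha1 haF hU
  have h2 : J.real ((fun p => lower a p.1 p.2) ⁻¹' U) ≤ P.real Lo + J.real K := by
    refine (measureReal_mono hsub (by finiteness)).trans ((measureReal_union_le _ _).trans ?_)
    rw [hJ, measureReal_prod_prod, probReal_univ, mul_one]
  have h3 : {t | c < L t ∧ L t < c + S} = U \ Lo := by
    ext t
    simp only [U, Lo, Set.mem_ofPred_eq, Set.mem_sdiff, not_le]
    tauto
  have h4 : P.real (U \ Lo) = P.real U - P.real Lo :=
    measureReal_sdiff (fun t (ht : L t ≤ c) => by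
      show L t < c + S
      linarith) hLo
  rw [h3, h4]
  linarith

/-! ### Dyadic annuli -/

open scoped Classical in
/-- Lowering probabilities for `m ^ 4` dyadic annuli `A j`. -/
def radWeight (m : ℕ) (A : ℕ → Finset ι) (i : ι) : ℝ :=
  ∑ j ∈ Finset.range (m ^ 4), if i ∈ A j then 1 / ((m : ℝ) ^ 3 * 2 ^ j) else 0

lemma radWeight_nonneg (m : ℕ) (A : ℕ → Finset ι) (i : ι) : 0 ≤ radWeight m A i :=
  Finset.sum_nonneg fun j _ => by split_ifs <;> positivity

lemma radWeight_of_notMem {m : ℕ} {A : ℕ → Finset ι} {i : ι} (h : ∀ j < m ^ 4, i ∉ A j) :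
    radWeight m A i = 0 :=
  Finset.sum_eq_zero fun j hj => if_neg (h j (Finset.mem_range.1 hj))

lemma radWeight_of_mem {m : ℕ} {A : ℕ → Finset ι}
    (hA : (Set.Iio (m ^ 4)).PairwiseDisjoint A) {i : ι} {j : ℕ} (hj : j < m ^ 4) (hi : i ∈ A j) :
    radWeight m A i = 1 / ((m : ℝ) ^ 3 * 2 ^ j) := by
  classical
  rw [radWeight, Finset.sum_eq_single j ?_ (by simp [hj]), if_pos hi]
  intro k hk hkj
  exact if_neg fun h => Finset.disjoint_left.1 (hA (Finset.mem_range.1 hk) hj hkj) h hi

/-- The window bound for the radial lowering: when each of the `m ^ 4` annuli holds at most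
`K * 4 ^ j` weights, of which at least `c₀ * 2 ^ j` are heavy and give a gain. -/
theorem measure_window_annuli_le {m : ℕ} (hm : 0 < m) {A : ℕ → Finset ι}
    (hA : (Set.Iio (m ^ 4)).PairwiseDisjoint A) {K c₀ : ℝ}
    (hK : ∀ j < m ^ 4, ((A j).card : ℝ) ≤ K * 4 ^ j) {L : (ι → ℝ) → ℝ} (hL : Measurable L)
    {c S x b : ℝ} (hxb : b < x) (Gd : Set (ι → ℝ)) {Gw : Set (ι → ℝ × ℝ)}
    (hGw : ∀ᵐ w ∂fieldLaw ι μ, w ∈ Gw)
    (hmono : ∀ t ∈ Gd, ∀ w ∈ Gw, L t ≤ L (lower (radWeight m A) t w))
    (hgain : ∀ t ∈ Gd, c < L t → L t < c + S → ∃ E : Finset ι, (∀ i ∈ E, x ≤ t i) ∧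
      (∀ j < m ^ 4, ∃ E' ⊆ E, E' ⊆ A j ∧ c₀ * 2 ^ j ≤ E'.card) ∧
      ∀ w ∈ Gw, L t + ∑ i ∈ E, (t i - lower (radWeight m A) t w i) ≤
        L (lower (radWeight m A) t w)) :
    (iidLaw ι μ).real {t | c < L t ∧ L t < c + S} ≤
      (iidLaw ι μ).real Gdᶜ + Real.exp (S / (x - b) - μ.real (Set.Iic b) * (c₀ * m) / 2) +
        Real.sqrt (Real.exp (K / (m : ℝ) ^ 2) - 1) := by
  classical
  have hm1 : (1 : ℝ) ≤ m := by exact_mod_cast hm
  set F := (Finset.range (m ^ 4)).biUnion A
  have hdisj : ((Finset.range (m ^ 4) : Finset ℕ) : Set ℕ).PairwiseDisjoint A := by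
    rwa [Finset.coe_range]
  have hF : ∀ i, i ∉ F → radWeight m A i = 0 := fun i hi =>
    radWeight_of_notMem fun j hj h => hi (Finset.mem_biUnion.2 ⟨j, Finset.mem_range.2 hj, h⟩)
  have h1 : ∀ i, radWeight m A i ≤ 1 := fun i => by
    by_cases h : ∃ j < m ^ 4, i ∈ A j
    · obtain ⟨j, hj, hi⟩ := h
      rw [radWeight_of_mem hA hj hi, div_le_one (by positivity)]
      exact one_le_mul_of_one_le_of_one_le (one_le_pow₀ hm1) (one_le_pow₀ one_le_two)
    · push Not at h
      rw [radWeight_of_notMem h]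
      exact zero_le_one
  have hsq : ∑ i ∈ F, radWeight m A i ^ 2 ≤ K / (m : ℝ) ^ 2 := by
    rw [Finset.sum_biUnion hdisj]
    calc ∑ j ∈ Finset.range (m ^ 4), ∑ i ∈ A j, radWeight m A i ^ 2
        = ∑ j ∈ Finset.range (m ^ 4), (A j).card * (1 / ((m : ℝ) ^ 3 * 2 ^ j)) ^ 2 := by
          refine Finset.sum_congr rfl fun j hj => ?_
          rw [Finset.sum_congr rfl fun i hi => by
            rw [radWeight_of_mem hA (Finset.mem_range.1 hj) hi], Finset.sum_const, nsmul_eq_mul]
      _ ≤ ∑ _j ∈ Finset.range (m ^ 4), K / (m : ℝ) ^ 6 := by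
          refine Finset.sum_le_sum fun j hj => ?_
          have h4 : ((2 : ℝ) ^ j) ^ 2 = 4 ^ j := by rw [← pow_mul, mul_comm, pow_mul]; norm_num
          calc ((A j).card : ℝ) * (1 / ((m : ℝ) ^ 3 * 2 ^ j)) ^ 2
              ≤ K * 4 ^ j * (1 / ((m : ℝ) ^ 3 * 2 ^ j)) ^ 2 :=
                mul_le_mul_of_nonneg_right (hK j (Finset.mem_range.1 hj)) (sq_nonneg _)
            _ = K / (m : ℝ) ^ 6 := by rw [← h4]; field_simp
      _ = K / (m : ℝ) ^ 2 := by
          rw [Finset.sum_const, Finset.card_range, nsmul_eq_mul]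
          push_cast
          field_simp
  refine (measure_window_le μ (radWeight_nonneg m A) h1 hF hL (A := c₀ * m) hxb Gd hGw hmono
    fun t ht hc hS => ?_).trans ?_
  · obtain ⟨E, hEx, hEA, hEg⟩ := hgain t ht hc hS
    choose E' hE'E hE'A hE'c using hEA
    refine ⟨E, hEx, ?_, hEg⟩
    calc c₀ * m = ∑ _j ∈ Finset.range (m ^ 4), c₀ / (m : ℝ) ^ 3 := by
          rw [Finset.sum_const, Finset.card_range, nsmul_eq_mul]
          push_cast
          field_simp
      _ ≤ ∑ j ∈ Finset.range (m ^ 4), ∑ i ∈ A j ∩ E, radWeight m A i := by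
          refine Finset.sum_le_sum fun j hj => ?_
          have hj' := Finset.mem_range.1 hj
          calc c₀ / (m : ℝ) ^ 3 = c₀ * 2 ^ j * (1 / ((m : ℝ) ^ 3 * 2 ^ j)) := by field_simp
            _ ≤ (E' j hj').card * (1 / ((m : ℝ) ^ 3 * 2 ^ j)) :=
                mul_le_mul_of_nonneg_right (hE'c j hj') (by positivity)
            _ = ∑ i ∈ E' j hj', radWeight m A i := by
                rw [Finset.sum_congr rfl fun i hi =>
                  radWeight_of_mem hA hj' (hE'A j hj' hi), Finset.sum_const, nsmul_eq_mul]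
            _ ≤ _ := Finset.sum_le_sum_of_subset_of_nonneg
                (Finset.subset_inter (hE'A j hj') (hE'E j hj'))
                fun i _ _ => radWeight_nonneg m A i
      _ = ∑ i ∈ (Finset.range (m ^ 4)).biUnion (fun j => A j ∩ E), radWeight m A i :=
          (Finset.sum_biUnion (hdisj.mono_on fun j _ => Finset.inter_subset_left)).symm
      _ ≤ ∑ i ∈ E, radWeight m A i := Finset.sum_le_sum_of_subset_of_nonneg
          (Finset.biUnion_subset.2 fun j _ => Finset.inter_subset_right)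
          fun i _ _ => radWeight_nonneg m A i
  · refine add_le_add_right (Real.sqrt_le_sqrt ?_) _
    linarith [Real.exp_le_exp.2 hsq]

/-- The error terms of the radial lowering vanish with many annuli. -/
theorem tendsto_window_error {q : ℝ} (hq : 0 < q) (K M : ℝ) :
    Tendsto (fun m : ℕ => Real.exp (M - q * m) + Real.sqrt (Real.exp (K / (m : ℝ) ^ 2) - 1))
      atTop (𝓝 0) := by
  have hn : Tendsto (fun m : ℕ => (m : ℝ)) atTop atTop := tendsto_natCast_atTop_atTop
  have h1 : Tendsto (fun m : ℕ => Real.exp (M - q * m)) atTop (𝓝 0) :=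
    Real.tendsto_exp_atBot.comp
      (tendsto_atBot_add_const_left _ M (tendsto_neg_atTop_atBot.comp (hn.const_mul_atTop hq)))
  have h2 : Tendsto (fun m : ℕ => Real.sqrt (Real.exp (K / (m : ℝ) ^ 2) - 1)) atTop (𝓝 0) := by
    have h : Tendsto (fun m : ℕ => K / (m : ℝ) ^ 2) atTop (𝓝 0) :=
      tendsto_const_nhds.div_atTop ((tendsto_pow_atTop two_ne_zero).comp hn)
    have hc : Continuous fun y : ℝ => Real.sqrt (Real.exp y - 1) := by fun_prop
    simpa [Function.comp_def] using (hc.tendsto 0).comp h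
  simpa using h1.add h2

/-! ### Maxima of margins -/

/-- A maximum of margins `av - th` does not drop when the `av` stay and the `th` drop. -/
lemma sup'_margin_le {β : Type*} {s : Finset β} (hs : s.Nonempty) {av th av' th' : β → ℝ}
    (hav : ∀ p ∈ s, av' p = av p) (hth : ∀ p ∈ s, th' p ≤ th p) :
    s.sup' hs (fun p => av p - th p) ≤ s.sup' hs fun p => av' p - th' p :=
  Finset.sup'_le hs _ fun p hp => (by linarith [hav p hp, hth p hp] :
    av p - th p ≤ av' p - th' p).trans (Finset.le_sup' (fun p => av' p - th' p) hp)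

/-- A maximum of margins gains what its maximiser gains. -/
lemma sup'_margin_add_le {β : Type*} {s : Finset β} (hs : s.Nonempty) {av th av' th' : β → ℝ}
    {g : ℝ} {p : β} (hp : p ∈ s) (hav : av' p = av p)
    (hmax : ∀ q ∈ s, av q - th q ≤ av p - th p) (hg : th' p + g ≤ th p) :
    s.sup' hs (fun q => av q - th q) + g ≤ s.sup' hs fun q => av' q - th' q := by
  have h1 : s.sup' hs (fun q => av q - th q) ≤ av p - th p := Finset.sup'_le hs _ hmax
  have h2 := Finset.le_sup' (fun q => av' q - th' q) hp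
  linarith

/-- Lowering cannot increase an infimum of weights of walks. -/
lemma iInf_wlen_lower_le {V : Type*} {G : SimpleGraph V} {κ : Sort*} [Nonempty κ] {x y : V}
    (p : κ → G.Walk x y) (a t : Sym2 V → ℝ) (w : Sym2 V → ℝ × ℝ)
    (h0 : ∀ e, 0 ≤ lower a t w e) :
    ⨅ k, wlen (lower a t w) (p k) ≤ ⨅ k, wlen t (p k) :=
  le_ciInf fun k => (ciInf_le ⟨0, by
    rintro _ ⟨k, rfl⟩
    exact List.sum_nonneg fun z hz => by
      obtain ⟨e, -, rfl⟩ := List.mem_map.1 hz
      exact h0 e⟩ k).trans (wlen_lower_le a t w (p k))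

/-- An infimum over walks avoiding the lowered edges is unchanged. -/
lemma iInf_wlen_lower_eq {V : Type*} {G : SimpleGraph V} {κ : Sort*} {x y : V}
    (p : κ → G.Walk x y) (a t : Sym2 V → ℝ) (w : Sym2 V → ℝ × ℝ)
    (h : ∀ k, ∀ e ∈ (p k).edges, a e = 0) :
    ⨅ k, wlen (lower a t w) (p k) = ⨅ k, wlen t (p k) :=
  iInf_congr fun k => wlen_lower_eq a t w (p k) (h k)

/-- Almost surely all fresh copies are nonnegative. -/
lemma ae_field_nonneg [Countable ι] (hμ : ∀ᵐ s ∂μ, 0 ≤ s) :
    ∀ᵐ w ∂fieldLaw ι μ, ∀ i, 0 ≤ (w i).1 := by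
  rw [eventually_countable_forall]
  intro i
  have h : ∀ᵐ p ∂μ.prod unif01, 0 ≤ p.1 := Measure.quasiMeasurePreserving_fst.ae hμ
  rw [← Measure.infinitePi_map_eval (fun _ : ι => μ.prod unif01) i] at h
  exact ae_of_ae_map (measurable_pi_apply i).aemeasurable h

end

end Vale.P158
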