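import Vale.Agent.P158.GeoU
import Vale.Agent.P158.Boundary

/-!
# P158: translations and the top reduction

Translations preserve the law of the weights and move passage times, geodesics and bigeodesics.
A bigeodesic through a point of a box contains a geodesic of the box joining two boundary points.
So it suffices that, on average over some points of suitable boxes, such crossings are unlikely.
-/

namespace Vale.P158

open MeasureTheory SimpleGraph
open Vale.Agent.P158.Crossing (Rect)
open scoped ENNReal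

noncomputable section

/-- Translation of vertices, as a map of the lattice. -/
def shiftHom (a : Z2) : lattice →g lattice where
  toFun x := x + a
  map_rel' {x y} h := by
    show |(x + a).1 - (y + a).1| + |(x + a).2 - (y + a).2| = (1 : ℤ)
    simpa [lattice] using h

@[simp] lemma shiftHom_apply (a x : Z2) : shiftHom a x = x + a := rfl

lemma shiftHom_injective (a : Z2) : Function.Injective (shiftHom a) := fun x y h => by
  simpa using h

/-- Translation of edges. -/
def shiftEdge (a : Z2) : Sym2 Z2 ≃ Sym2 Z2 where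
  toFun := Sym2.map (· + a)
  invFun := Sym2.map (· + -a)
  left_inv e := by
    induction e using Sym2.ind
    simp
  right_inv e := by
    induction e using Sym2.ind
    simp

@[simp] lemma shiftEdge_mk (a x y : Z2) : shiftEdge a s(x, y) = s(x + a, y + a) := rfl

/-- The weights seen from `a`. -/
def shiftCfg (a : Z2) (t : Sym2 Z2 → ℝ) : Sym2 Z2 → ℝ := fun e => t (shiftEdge a e)

@[simp] lemma shiftCfg_zero (t : Sym2 Z2 → ℝ) : shiftCfg 0 t = t := by
  funext e
  induction e using Sym2.ind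
  simp [shiftCfg]

lemma shiftCfg_add (a b : Z2) (t : Sym2 Z2 → ℝ) :
    shiftCfg a (shiftCfg b t) = shiftCfg (a + b) t := by
  funext e
  induction e using Sym2.ind
  simp [shiftCfg, add_assoc]

lemma measurable_shiftCfg (a : Z2) : Measurable (shiftCfg a) :=
  measurable_pi_lambda _ fun _ => measurable_pi_apply _

/-- Relabelling the indices preserves an iid law. -/
theorem iidLaw_map_equiv {ι κ : Type*} (μ : Measure ℝ) [IsProbabilityMeasure μ] (e : ι ≃ κ) :
    (iidLaw κ μ).map (fun ω => ω ∘ e) = iidLaw ι μ := by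
  classical
  refine Measure.eq_infinitePi _ fun s A hA => ?_
  rw [Measure.map_apply (by fun_prop) (.pi s.countable_toSet fun i _ => hA i)]
  have h : (fun ω => ω ∘ e) ⁻¹' (s : Set ι).pi A =
      ((s.map e.toEmbedding : Finset κ) : Set κ).pi fun j => A (e.symm j) := by
    ext ω
    simp [Set.mem_pi, e.symm.forall_congr_left]
  rw [h, iidLaw, Measure.infinitePi_pi _ fun j _ => hA _, Finset.prod_map]
  simp

theorem measurePreserving_shiftCfg (μ : Measure ℝ) [IsProbabilityMeasure μ] (a : Z2) :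
    MeasurePreserving (shiftCfg a) (iidLaw (Sym2 Z2) μ) (iidLaw (Sym2 Z2) μ) :=
  ⟨measurable_shiftCfg a, iidLaw_map_equiv μ (shiftEdge a)⟩

/-- Translating an event, measurable or not, does not change its measure. -/
theorem measure_preimage_shiftCfg (μ : Measure ℝ) [IsProbabilityMeasure μ] (a : Z2)
    (S : Set (Sym2 Z2 → ℝ)) :
    iidLaw (Sym2 Z2) μ (shiftCfg a ⁻¹' S) = iidLaw (Sym2 Z2) μ S := by
  have key : ∀ (b : Z2) (T : Set (Sym2 Z2 → ℝ)),
      iidLaw (Sym2 Z2) μ (shiftCfg b ⁻¹' T) ≤ iidLaw (Sym2 Z2) μ T := fun b T =>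
    (measure_mono (Set.preimage_mono (subset_toMeasurable _ T))).trans
      (((measurePreserving_shiftCfg μ b).measure_preimage
        (measurableSet_toMeasurable _ T).nullMeasurableSet).trans (measure_toMeasurable T)).le
  refine le_antisymm (key a S) ((le_of_eq ?_).trans (key (-a) _))
  congr 1
  ext t
  simp [shiftCfg_add]

/-! ### Covariance -/

variable {t : Sym2 Z2 → ℝ}

lemma wlen_shiftCfg (a : Z2) {x y : Z2} (p : lattice.Walk x y) :
    wlen (shiftCfg a t) p = wlen t (p.map (shiftHom a)) := by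
  rw [wlen, wlen, Walk.edges_map, List.map_map]
  rfl

lemma shiftCfg_nonneg (ht : ∀ e, 0 ≤ t e) (a : Z2) (e : Sym2 Z2) : 0 ≤ shiftCfg a t e := ht _

lemma passage_shift_le (ht : ∀ e, 0 ≤ t e) (a x y : Z2) :
    passage t (x + a) (y + a) ≤ passage (shiftCfg a t) x y := by
  have : Nonempty (lattice.Walk x y) := lattice_connected x y
  refine le_ciInf fun p => ?_
  rw [wlen_shiftCfg]
  exact ciInf_le (f := fun q : lattice.Walk (x + a) (y + a) => wlen t q)
    ⟨0, by rintro _ ⟨q, rfl⟩; exact wlen_nonneg ht q⟩ (p.map (shiftHom a))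

theorem passage_shiftCfg (ht : ∀ e, 0 ≤ t e) (a x y : Z2) :
    passage (shiftCfg a t) x y = passage t (x + a) (y + a) := by
  refine le_antisymm ?_ (passage_shift_le ht a x y)
  have h := passage_shift_le (shiftCfg_nonneg ht a) (-a) (x + a) (y + a)
  rw [shiftCfg_add] at h
  simpa [add_assoc] using h

theorem isBigeodesic_shiftCfg (ht : ∀ e, 0 ≤ t e) (a : Z2) {v : ℤ → Z2} :
    IsBigeodesic (shiftCfg a t) v ↔ IsBigeodesic t fun i => v i + a := by
  have hadj : ∀ i, lattice.Adj (v i + a) (v (i + 1) + a) ↔ lattice.Adj (v i) (v (i + 1)) := by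
    intro i
    simp [lattice]
  have hinj : Function.Injective (fun i => v i + a) ↔ Function.Injective v :=
    ⟨fun h i j e => h (congrArg (· + a) e), fun h => (add_left_injective a).comp h⟩
  simp only [IsBigeodesic, hadj, hinj, passage_shiftCfg ht, shiftCfg, shiftEdge_mk]

theorem exists_bigeodesic_shift_iff (ht : ∀ e, 0 ≤ t e) (a z : Z2) :
    (∃ v, IsBigeodesic (shiftCfg a t) v ∧ v 0 = z) ↔ ∃ v, IsBigeodesic t v ∧ v 0 = z + a := by
  constructor
  · rintro ⟨v, hv, h⟩
    exact ⟨_, (isBigeodesic_shiftCfg ht a).1 hv, congrArg (· + a) h⟩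
  · rintro ⟨v, hv, h⟩
    exact ⟨fun i => v i - a, (isBigeodesic_shiftCfg ht a).2 (by simpa using hv), by simp [h]⟩

/-- A bigeodesic may be re-indexed. -/
lemma IsBigeodesic.reindex {v : ℤ → Z2} (hv : IsBigeodesic t v) (k : ℤ) :
    IsBigeodesic t fun i => v (i + k) := by
  obtain ⟨h1, h2, h3⟩ := hv
  refine ⟨h1.comp (add_left_injective k), fun i => ?_, fun i j hij => ?_⟩
  · show lattice.Adj (v (i + k)) (v (i + 1 + k))
    rw [add_right_comm]
    exact h2 (i + k)
  · rw [← h3 (i + k) (j + k) (by omega), ← Finset.map_add_right_Ico, Finset.sum_map]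
    refine Finset.sum_congr rfl fun l _ => ?_
    simp [add_right_comm]

/-! ### From bigeodesics to crossings -/

/-- `z` lies on a geodesic of the box `B` between two boundary points. -/
def CrossedBy (B : Rect) (z : Z2) : Set (Sym2 Z2 → ℝ) :=
  {t | ∃ (x y : Z2) (p : lattice.Walk x y), B.Bdry x ∧ B.Bdry y ∧
    IsGeoU t {w | B.Mem w} p ∧ z ∈ p.support}

lemma exists_walk_of_seq (t : Sym2 Z2 → ℝ) {v : ℤ → Z2}
    (hadj : ∀ i, lattice.Adj (v i) (v (i + 1))) (i : ℤ) (n : ℕ) :
    ∃ p : lattice.Walk (v i) (v (i + n)),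
      p.support = (List.range (n + 1)).map (fun k : ℕ => v (i + k)) ∧
      wlen t p = ∑ k ∈ Finset.Ico i (i + n), t s(v k, v (k + 1)) := by
  induction n with
  | zero => exact ⟨Walk.nil.copy rfl (by simp), by simp, by simp [wlen]⟩
  | succ n ih =>
    obtain ⟨p, hp, hw⟩ := ih
    refine ⟨(p.concat (hadj (i + n))).copy rfl (by push_cast; ring_nf), ?_, ?_⟩
    · rw [Walk.support_copy, Walk.support_concat, hp, List.range_succ (n := n + 1)]
      simp [add_assoc]
    · have e : Finset.Ico i (i + ((n + 1 : ℕ) : ℤ)) = insert (i + (n : ℤ)) (Finset.Ico i (i + n)) := by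
        ext k
        simp only [Finset.mem_Ico, Finset.mem_insert]
        omega
      rw [e, Finset.sum_insert (by simp), ← hw]
      simp [wlen, Walk.edges_concat]
      ring

lemma finite_box (B : Rect) : {w : Z2 | B.Mem w}.Finite :=
  ((Set.finite_Icc B.x0 B.x1).prod (Set.finite_Icc B.y0 B.y1)).subset
    fun _ h => ⟨⟨h.1, h.2.1⟩, h.2.2.1, h.2.2.2⟩

lemma bdry_of_adj {B : Rect} {u w : Z2} (h : lattice.Adj u w) (hu : B.Mem u) (hw : ¬B.Mem w) :
    B.Bdry u := by
  refine ⟨hu, ?_⟩
  simp only [lattice] at h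
  simp only [Rect.Mem] at hu hw
  rcases abs_cases (u.1 - w.1) with h1 | h1 <;> rcases abs_cases (u.2 - w.2) with h2 | h2 <;>
    omega

/-- A bigeodesic through a point of a box crosses it along a geodesic of the box. -/
theorem mem_crossedBy (ht : ∀ e, 0 ≤ t e) (B : Rect) {v : ℤ → Z2} (hv : IsBigeodesic t v)
    (h0 : B.Mem (v 0)) : t ∈ CrossedBy B (v 0) := by
  classical
  obtain ⟨hinj, hadj, hgeo⟩ := hv
  have hfin : {k : ℤ | B.Mem (v k)}.Finite := (finite_box B).preimage hinj.injOn
  have hex : (∃ n : ℕ, ¬B.Mem (v (((n : ℤ)) + 1))) ∧ ∃ n : ℕ, ¬B.Mem (v (-(n : ℤ) - 1)) := by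
    constructor <;>
    · by_contra! h
      exact Set.infinite_range_of_injective (fun a b e => by simpa using e)
        (hfin.subset (Set.range_subset_iff.2 h))
  obtain ⟨m, hm, hm'⟩ := Nat.findX hex.1
  obtain ⟨l, hl, hl'⟩ := Nat.findX hex.2
  have hmem : ∀ k : ℤ, -(l : ℤ) ≤ k → k ≤ m → B.Mem (v k) := by
    intro k hk1 hk2
    rcases lt_trichotomy k 0 with h | h | h
    · obtain ⟨d, rfl⟩ : ∃ d : ℕ, k = -(d : ℤ) - 1 := ⟨(-k - 1).toNat, by omega⟩
      exact not_not.1 (hl' d (by omega))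
    · exact h ▸ h0
    · obtain ⟨d, rfl⟩ : ∃ d : ℕ, k = (d : ℤ) + 1 := ⟨(k - 1).toNat, by omega⟩
      exact not_not.1 (hm' d (by omega))
  obtain ⟨p, hp, hw⟩ := exists_walk_of_seq t hadj (-(l : ℤ)) (l + m)
  have hend : -(l : ℤ) + ((l + m : ℕ) : ℤ) = m := by push_cast; ring
  have hsupp : ∀ u ∈ p.support, B.Mem u := by
    intro u hu
    rw [hp, List.mem_map] at hu
    obtain ⟨k, hk, rfl⟩ := hu
    rw [List.mem_range] at hk
    exact hmem _ (by omega) (by omega)
  refine ⟨_, _, p, ?_, ?_, ⟨?_, hsupp, fun q _ _ => ?_⟩, ?_⟩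
  · refine bdry_of_adj (w := v (-(l : ℤ) - 1)) ?_ (hmem _ le_rfl (by omega)) hl
    have := hadj (-(l : ℤ) - 1)
    rw [sub_add_cancel] at this
    exact this.symm
  · rw [hend]
    exact bdry_of_adj (hadj m) (hmem _ (by omega) le_rfl) hm
  · refine Walk.IsPath.mk' ?_
    rw [hp]
    exact List.nodup_range.map fun a b e => by simpa using hinj e
  · rcases Nat.eq_zero_or_pos (l + m) with h | h
    · rw [hw, Finset.Ico_eq_empty (by omega), Finset.sum_empty]
      exact wlen_nonneg ht q
    · rw [hw, hgeo _ _ (by omega)]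
      exact ciInf_le ⟨0, by rintro _ ⟨r, rfl⟩; exact wlen_nonneg ht r⟩ q
  · rw [hp, List.mem_map]
    exact ⟨l, List.mem_range.2 (by omega), by simp⟩

/-- The top reduction: if in suitable boxes few points are, on average, crossed by geodesics
between boundary points, then almost surely there is no bigeodesic. -/
theorem ae_no_bigeodesic (μ : Measure ℝ) [IsProbabilityMeasure μ] [NullSingletonClass μ]
    (hμ : ∀ᵐ s ∂μ, 0 ≤ s)
    (h : ∀ ε : ℝ≥0∞, 0 < ε → ∃ (B : Rect) (s : Finset Z2), s.Nonempty ∧ (∀ z ∈ s, B.Mem z) ∧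
      ∑ z ∈ s, iidLaw (Sym2 Z2) μ (CrossedBy B z) ≤ ε * s.card) :
    ∀ᵐ t ∂iidLaw (Sym2 Z2) μ, ¬∃ v, IsBigeodesic t v := by
  set P := iidLaw (Sym2 Z2) μ
  have hnn : ∀ᵐ t ∂P, ∀ e, 0 ≤ t e := (ae_pos μ hμ).mono fun t ht e => (ht e).le
  set O : Z2 → Set (Sym2 Z2 → ℝ) := fun z => {t | ∃ v, IsBigeodesic t v ∧ v 0 = z}
  have hshift : ∀ z, P (O z) = P (O 0) := fun z => by
    rw [← measure_preimage_shiftCfg μ z (O 0)]
    refine measure_congr ?_
    filter_upwards [hnn] with t ht
    exact propext (by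
      show t ∈ O z ↔ shiftCfg z t ∈ O 0
      simpa [O] using (exists_bigeodesic_shift_iff ht z 0).symm)
  have h0 : P (O 0) = 0 := by
    refine le_antisymm (ENNReal.le_of_forall_pos_le_add fun ε hε _ => ?_) zero_le
    obtain ⟨B, s, hs, hmem, hsum⟩ := h ε (by exact_mod_cast hε)
    rw [zero_add]
    have hle : ∀ z ∈ s, P (O 0) ≤ P (CrossedBy B z) := fun z hz => by
      rw [← hshift z]
      refine measure_mono_ae ?_
      filter_upwards [hnn] with t ht
      rintro ⟨v, hv, rfl⟩
      exact mem_crossedBy ht B hv (hmem _ hz)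
    have h1 : (s.card : ℝ≥0∞) * P (O 0) ≤ s.card * ε := by
      rw [← nsmul_eq_mul, ← Finset.sum_const, mul_comm]
      exact (Finset.sum_le_sum hle).trans hsum
    exact (ENNReal.mul_le_mul_iff_right (by simpa using hs.ne_empty) (by simp)).1 h1
  have : ∀ᵐ t ∂P, ∀ z, t ∉ O z :=
    ae_all_iff.2 fun z => measure_eq_zero_iff_ae_notMem.1 ((hshift z).trans h0)
  filter_upwards [this] with t ht
  rintro ⟨v, hv⟩
  exact ht (v 0) ⟨v, hv, rfl⟩

end

end Vale.P158
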